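import Crest.Agent.R17.I.Def

/-!
Row 17, block I (owner helper88): elementary symmetric sums (pure algebra).
-/

set_option autoImplicit false

namespace Crest.Agent.R17.HI

open scoped ComplexConjugate

variable {ι : Type} [DecidableEq ι]

/-- the elementary symmetric sum -/
noncomputable def es (T : Finset ι) (J : ℕ) (y : ι → ℂ) : ℂ := ∑ A ∈ T.powersetCard J, ∏ p ∈ A, y p

/-- `Finset.prod_sdiff`, `Finset.prod_div_distrib` -/
theorem Es_factor (T : Finset ι) (J : ℕ) (y H : ι → ℂ) (h : ∀ p ∈ T, H p ≠ 0) :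
    Es T J y H = (∏ p ∈ T, H p) * es T J fun p => y p / H p := by
  unfold Es es
  rw [Finset.mul_sum]
  refine Finset.sum_congr rfl fun A hA => ?_
  have hA1 := (Finset.mem_powersetCard.1 hA).1
  have h0 : ∏ p ∈ A, H p ≠ 0 := Finset.prod_ne_zero_iff.2 fun p hp => h p (hA1 hp)
  rw [Finset.prod_div_distrib, ← Finset.prod_sdiff hA1]
  field_simp

theorem islota_coeff (T : Finset ι) (J : ℕ) (y H : ι → ℂ) :
    Es T J y H = (∏ p ∈ T, (Polynomial.C (y p) * Polynomial.X + Polynomial.C (H p))).coeff J := by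
  rw [Finset.prod_add, Polynomial.finsetSum_coeff, Es, Finset.powersetCard_eq_filter,
    Finset.sum_filter]
  refine Finset.sum_congr rfl fun A _ => ?_
  rw [Finset.prod_mul_distrib, Finset.prod_const, ← map_prod, ← map_prod, Polynomial.coeff_mul_C,
    Polynomial.coeff_C_mul_X_pow]
  by_cases hJ : A.card = J
  · simp [hJ]
  · simp [hJ, Ne.symm hJ]

/-- `Es T J y H` is the coefficient of `X ^ J` in `∏ p ∈ T, (C (y p) * X + C (H p))`
(`Finset.prod_add`, `Polynomial.finset_sum_coeff`); `Finset.prod_union`, `Polynomial.coeff_mul`,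
`Finset.Nat.sum_antidiagonal_eq_sum_range_succ_mk` -/
theorem Es_union {T₀ T₁ : Finset ι} (h : Disjoint T₀ T₁) (J : ℕ) (y H : ι → ℂ) :
    Es (T₀ ∪ T₁) J y H = ∑ i ∈ Finset.range (J + 1), Es T₀ i y H * Es T₁ (J - i) y H := by
  rw [islota_coeff, Finset.prod_union h, Polynomial.coeff_mul,
    Finset.Nat.sum_antidiagonal_eq_sum_range_succ_mk]
  simp only [islota_coeff]

theorem islotb_newton (T : Finset ι) (y : ι → ℂ) (k : ℕ) :
    (k : ℂ) * es T k y = (-1) ^ (k + 1) *
      ∑ a ∈ (Finset.HasAntidiagonal.antidiagonal k).filter (fun a => a.1 < k),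
        (-1) ^ a.1 * es T a.1 y * ∑ p ∈ T, y p ^ a.2 := by
  classical
  have h := congrArg (MvPolynomial.aeval (fun i : T => y i.1))
    (MvPolynomial.mul_esymm_eq_sum (σ := T) (R := ℂ) k)
  have he : ∀ n, MvPolynomial.aeval (fun i : T => y i.1) (MvPolynomial.esymm T ℂ n) = es T n y := by
    intro n
    rw [MvPolynomial.aeval_esymm_eq_multiset_esymm]
    unfold es
    rw [← Finset.esymm_map_val y T n]
    congr 1
    have : (Finset.univ : Finset T).val = T.val.attach := rfl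
    rw [this]
    exact Multiset.attach_map_val' T.val y
  have hp : ∀ n, MvPolynomial.aeval (fun i : T => y i.1) (MvPolynomial.psum T ℂ n) =
      ∑ p ∈ T, y p ^ n := by
    intro n
    unfold MvPolynomial.psum
    rw [map_sum]
    simp only [map_pow, MvPolynomial.aeval_X]
    exact Finset.sum_coe_sort T (fun p => y p ^ n)
  simp only [map_mul, map_natCast, map_pow, map_neg, map_one, map_sum, he, hp] at h
  exact h

theorem islotb_psum_le (T : Finset ι) (y : ι → ℂ) {M : ℝ} (h1 : ‖∑ p ∈ T, y p‖ ≤ M)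
    (h2 : ∑ p ∈ T, ‖y p‖ ^ 2 ≤ M ^ 2) (i : ℕ) (hi : 1 ≤ i) : ‖∑ p ∈ T, y p ^ i‖ ≤ M ^ i := by
  have hM : 0 ≤ M := (norm_nonneg _).trans h1
  rcases Nat.eq_or_lt_of_le hi with rfl | hi2
  · simpa using h1
  · obtain ⟨j, rfl⟩ : ∃ j, i = j + 2 := ⟨i - 2, by omega⟩
    have hy : ∀ p ∈ T, ‖y p‖ ≤ M := by
      intro p hp
      have : ‖y p‖ ^ 2 ≤ M ^ 2 :=
        (Finset.single_le_sum (f := fun p => ‖y p‖ ^ 2) (fun q _ => by positivity) hp).trans h2
      exact (pow_le_pow_iff_left₀ (norm_nonneg _) hM two_ne_zero).1 this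
    calc ‖∑ p ∈ T, y p ^ (j + 2)‖ ≤ ∑ p ∈ T, ‖y p ^ (j + 2)‖ := norm_sum_le _ _
      _ ≤ ∑ p ∈ T, M ^ j * ‖y p‖ ^ 2 := by
          refine Finset.sum_le_sum fun p hp => ?_
          rw [norm_pow, pow_add]
          exact mul_le_mul_of_nonneg_right (pow_le_pow_left₀ (norm_nonneg _) (hy p hp) j)
            (by positivity)
      _ = M ^ j * ∑ p ∈ T, ‖y p‖ ^ 2 := by rw [Finset.mul_sum]
      _ ≤ M ^ j * M ^ 2 := mul_le_mul_of_nonneg_left h2 (by positivity)
      _ = M ^ (j + 2) := by rw [pow_add]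

/-- NEWTON: `J e_J = ∑_{i=1}^{J} (-1)^(i-1) e_{J-i} p_i` (`MvPolynomial.mul_esymm_eq_sum` on the subtype
`T`, evaluated by `MvPolynomial.aeval`; `Finset.esymm_map_val`, `MvPolynomial.aeval_esymm_eq_multiset_esymm`),
`‖p_i‖ ≤ M ^ i` (for `i ≥ 2`: `‖y p‖ ≤ M`), strong induction on `J`. -/
theorem norm_es_le (T : Finset ι) (J : ℕ) (y : ι → ℂ) {M : ℝ} (h1 : ‖∑ p ∈ T, y p‖ ≤ M)
    (h2 : ∑ p ∈ T, ‖y p‖ ^ 2 ≤ M ^ 2) : ‖es T J y‖ ≤ M ^ J := by
  have hM : 0 ≤ M := (norm_nonneg _).trans h1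
  induction J using Nat.strong_induction_on with
  | _ k ih =>
    rcases Nat.eq_zero_or_pos k with rfl | hk
    · simp [es]
    have hN := islotb_newton T y k
    have hb : ‖(k : ℂ) * es T k y‖ ≤ k * M ^ k := by
      rw [hN, norm_mul, norm_pow, norm_neg, norm_one, one_pow, one_mul]
      refine (norm_sum_le _ _).trans ?_
      have hcard : ((Finset.HasAntidiagonal.antidiagonal k).filter (fun a : ℕ × ℕ => a.1 < k)).card ≤ k := by
        have : ((Finset.HasAntidiagonal.antidiagonal k).filter (fun a : ℕ × ℕ => a.1 < k)).card ≤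
            (Finset.range k).card := by
          refine Finset.card_le_card_of_injOn (fun a => a.1) ?_ ?_
          · intro a ha
            have := (Finset.mem_filter.1 (Finset.mem_coe.1 ha)).2
            simpa using this
          · intro a ha b hb hab
            have ha' := Finset.HasAntidiagonal.mem_antidiagonal.1 (Finset.mem_filter.1 (Finset.mem_coe.1 ha)).1
            have hb' := Finset.HasAntidiagonal.mem_antidiagonal.1 (Finset.mem_filter.1 (Finset.mem_coe.1 hb)).1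
            have hab' : a.1 = b.1 := hab
            ext
            · exact hab'
            · omega
        simpa using this
      calc ∑ a ∈ (Finset.HasAntidiagonal.antidiagonal k).filter (fun a : ℕ × ℕ => a.1 < k),
            ‖(-1 : ℂ) ^ a.1 * es T a.1 y * ∑ p ∈ T, y p ^ a.2‖
          ≤ ∑ a ∈ (Finset.HasAntidiagonal.antidiagonal k).filter (fun a : ℕ × ℕ => a.1 < k), M ^ k := by
            refine Finset.sum_le_sum fun a ha => ?_
            have ha1 := (Finset.mem_filter.1 ha).2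
            have ha2 := Finset.HasAntidiagonal.mem_antidiagonal.1 (Finset.mem_filter.1 ha).1
            rw [norm_mul, norm_mul, norm_pow, norm_neg, norm_one, one_pow, one_mul, ← ha2, pow_add]
            exact mul_le_mul (ih _ ha1) (islotb_psum_le T y h1 h2 _ (by omega)) (norm_nonneg _)
              (by positivity)
        _ = (((Finset.HasAntidiagonal.antidiagonal k).filter (fun a : ℕ × ℕ => a.1 < k)).card : ℝ) * M ^ k := by
            rw [Finset.sum_const, nsmul_eq_mul]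
        _ ≤ k * M ^ k := mul_le_mul_of_nonneg_right (by exact_mod_cast hcard) (by positivity)
    rw [norm_mul, Complex.norm_natCast] at hb
    exact le_of_mul_le_mul_left hb (by exact_mod_cast hk)

/-- induction on `J`, or on `T` with `Finset.powersetCard_succ_insert` -/
theorem es_triv (T : Finset ι) (J : ℕ) (y : ι → ℝ) (h : ∀ p ∈ T, 0 ≤ y p) :
    ∑ A ∈ T.powersetCard J, ∏ p ∈ A, y p ≤ (∑ p ∈ T, y p) ^ J := by
  induction T using Finset.induction_on generalizing J with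
  | empty =>
    rcases J with _ | J
    · simp
    · simp [Finset.powersetCard_eq_empty.2]
  | insert a s ha ih =>
    have hs : ∀ p ∈ s, 0 ≤ y p := fun p hp => h p (Finset.mem_insert_of_mem hp)
    have hya : 0 ≤ y a := h a (Finset.mem_insert_self _ _)
    have hS : 0 ≤ ∑ p ∈ s, y p := Finset.sum_nonneg hs
    rcases J with _ | n
    · simp
    have key : ∑ A ∈ (insert a s).powersetCard (n + 1), ∏ p ∈ A, y p =
        ∑ A ∈ s.powersetCard (n + 1), ∏ p ∈ A, y p + y a * ∑ A ∈ s.powersetCard n, ∏ p ∈ A, y p := by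
      rw [Finset.powersetCard_succ_insert ha, Finset.sum_union, Finset.sum_image, Finset.mul_sum]
      · congr 1
        refine Finset.sum_congr rfl fun A hA => ?_
        have : a ∉ A := fun h => ha ((Finset.mem_powersetCard.1 hA).1 h)
        rw [Finset.prod_insert this]
      · intro A hA B hB hAB
        have h1 : a ∉ A := fun h => ha ((Finset.mem_powersetCard.1 hA).1 h)
        have h2 : a ∉ B := fun h => ha ((Finset.mem_powersetCard.1 hB).1 h)
        have := congrArg (fun s => Finset.erase s a) hAB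
        simpa [Finset.erase_insert h1, Finset.erase_insert h2] using this
      · rw [Finset.disjoint_left]
        intro A hA hA'
        obtain ⟨B, _, rfl⟩ := Finset.mem_image.1 hA'
        exact ha ((Finset.mem_powersetCard.1 hA).1 (Finset.mem_insert_self _ _))
    rw [key, Finset.sum_insert ha]
    have h1 := ih (n + 1) hs
    have h2 := mul_le_mul_of_nonneg_left (ih n hs) hya
    have h3 : (∑ p ∈ s, y p) ^ n ≤ (y a + ∑ p ∈ s, y p) ^ n := pow_le_pow_left₀ hS (by linarith) n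
    calc _ ≤ (∑ p ∈ s, y p) ^ (n + 1) + y a * (∑ p ∈ s, y p) ^ n := add_le_add h1 h2
      _ = (y a + ∑ p ∈ s, y p) * (∑ p ∈ s, y p) ^ n := by ring
      _ ≤ (y a + ∑ p ∈ s, y p) * (y a + ∑ p ∈ s, y p) ^ n :=
          mul_le_mul_of_nonneg_left h3 (by positivity)
      _ = _ := by ring

theorem norm_es_triv (T : Finset ι) (J : ℕ) (y : ι → ℂ) : ‖es T J y‖ ≤ (∑ p ∈ T, ‖y p‖) ^ J := by
  refine le_trans ?_ (es_triv T J (fun p => ‖y p‖) fun p _ => norm_nonneg _)
  unfold es
  refine (norm_sum_le _ _).trans (Finset.sum_le_sum fun A _ => ?_)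
  rw [norm_prod]

theorem islotb_es_succ (s : Finset ι) (a : ι) (ha : a ∉ s) (n : ℕ) (y : ι → ℂ) :
    es (insert a s) (n + 1) y = es s (n + 1) y + y a * es s n y := by
  unfold es
  rw [Finset.powersetCard_succ_insert ha, Finset.sum_union, Finset.sum_image, Finset.mul_sum]
  · congr 1
    refine Finset.sum_congr rfl fun A hA => ?_
    have : a ∉ A := fun h => ha ((Finset.mem_powersetCard.1 hA).1 h)
    rw [Finset.prod_insert this]
  · intro A hA B hB hAB
    have h1 : a ∉ A := fun h => ha ((Finset.mem_powersetCard.1 hA).1 h)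
    have h2 : a ∉ B := fun h => ha ((Finset.mem_powersetCard.1 hB).1 h)
    have := congrArg (fun s => Finset.erase s a) hAB
    simpa [Finset.erase_insert h1, Finset.erase_insert h2] using this
  · rw [Finset.disjoint_left]
    intro A hA hA'
    obtain ⟨B, _, rfl⟩ := Finset.mem_image.1 hA'
    exact ha ((Finset.mem_powersetCard.1 hA).1 (Finset.mem_insert_self _ _))

theorem islotb_es_zero (s : Finset ι) (y : ι → ℂ) : es s 0 y = 1 := by
  simp [es]

theorem islotb_pow_ineq {x S : ℝ} (hx : 0 ≤ x) (hS : 0 ≤ S) (n : ℕ) :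
    S ^ (n + 1) + x * S ^ n ≤ (x + S) ^ (n + 1) := by
  have h : S ^ n ≤ (x + S) ^ n := pow_le_pow_left₀ hS (by linarith) n
  calc S ^ (n + 1) + x * S ^ n = (x + S) * S ^ n := by ring
    _ ≤ (x + S) * (x + S) ^ n := mul_le_mul_of_nonneg_left h (by positivity)
    _ = (x + S) ^ (n + 1) := by ring

/-- `‖∏_A c - ∏_A b‖ ≤ ∑_{p ∈ A} d p ∏_{A.erase p} (‖b‖ + d)`, exchange the sums, `es_triv` -/
theorem es_pert (T : Finset ι) (J : ℕ) (b c : ι → ℂ) (d : ι → ℝ) (h : ∀ p ∈ T, ‖c p - b p‖ ≤ d p) :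
    ‖es T J c - es T J b‖ ≤ (∑ p ∈ T, d p) * (∑ p ∈ T, (‖b p‖ + d p)) ^ (J - 1) := by
  induction T using Finset.induction_on generalizing J with
  | empty =>
    rcases J with _ | J
    · simp [es]
    · simp [es, Finset.powersetCard_eq_empty.2]
  | insert a s ha ih =>
    have hs : ∀ p ∈ s, ‖c p - b p‖ ≤ d p := fun p hp => h p (Finset.mem_insert_of_mem hp)
    have hca : ‖c a - b a‖ ≤ d a := h a (Finset.mem_insert_self _ _)
    have hda : 0 ≤ d a := (norm_nonneg _).trans hca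
    have hD : 0 ≤ ∑ p ∈ s, d p := Finset.sum_nonneg fun p hp => (norm_nonneg _).trans (hs p hp)
    have hS : 0 ≤ ∑ p ∈ s, (‖b p‖ + d p) :=
      Finset.sum_nonneg fun p hp => add_nonneg (norm_nonneg _) ((norm_nonneg _).trans (hs p hp))
    rw [Finset.sum_insert ha, Finset.sum_insert ha]
    set D := ∑ p ∈ s, d p with hDdef
    set S := ∑ p ∈ s, (‖b p‖ + d p) with hSdef
    have hx : 0 ≤ ‖b a‖ + d a := add_nonneg (norm_nonneg _) hda
    rcases J with _ | n
    · rw [islotb_es_zero, islotb_es_zero, sub_self, norm_zero]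
      positivity
    rw [islotb_es_succ s a ha, islotb_es_succ s a ha, Nat.add_sub_cancel]
    have h1 := ih (n + 1) hs
    rw [Nat.add_sub_cancel] at h1
    have hbn : ‖es s n b‖ ≤ S ^ n := by
      refine (norm_es_triv s n b).trans (pow_le_pow_left₀ (by positivity) ?_ n)
      exact Finset.sum_le_sum fun p hp => le_add_of_nonneg_right ((norm_nonneg _).trans (hs p hp))
    have hcx : ‖c a‖ ≤ ‖b a‖ + d a := by
      calc ‖c a‖ = ‖b a + (c a - b a)‖ := by congr 1; ring
        _ ≤ ‖b a‖ + ‖c a - b a‖ := norm_add_le _ _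
        _ ≤ _ := by linarith
    have hsplit : es s (n + 1) c + c a * es s n c - (es s (n + 1) b + b a * es s n b) =
        (es s (n + 1) c - es s (n + 1) b) + c a * (es s n c - es s n b) + (c a - b a) * es s n b := by
      ring
    rw [hsplit]
    have h3 : ‖(c a - b a) * es s n b‖ ≤ d a * S ^ n := by
      rw [norm_mul]; exact mul_le_mul hca hbn (norm_nonneg _) hda
    have hpw : S ^ n ≤ (‖b a‖ + d a + S) ^ n := pow_le_pow_left₀ hS (by linarith) n
    rcases n with _ | m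
    · rw [islotb_es_zero, islotb_es_zero, sub_self, mul_zero, add_zero]
      refine (norm_add_le _ _).trans ?_
      rw [islotb_es_zero] at h3
      simp only [pow_zero, mul_one] at h1 h3 ⊢
      linarith
    · have h2 := ih (m + 1) hs
      rw [Nat.add_sub_cancel] at h2
      have h2' : ‖c a * (es s (m + 1) c - es s (m + 1) b)‖ ≤ (‖b a‖ + d a) * (D * S ^ m) := by
        rw [norm_mul]; exact mul_le_mul hcx h2 (norm_nonneg _) hx
      have h4 := islotb_pow_ineq hx hS m
      have h5 := mul_le_mul_of_nonneg_left h4 hD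
      have h6 := mul_le_mul_of_nonneg_left hpw hda
      refine (norm_add₃_le).trans ?_
      nlinarith

/-- at most `2 ^ |T|` terms -/
theorem Es_triv (T : Finset ι) (J : ℕ) (y H : ι → ℂ) {C M : ℝ} (g : ι → ℝ) (hC : 0 ≤ C) (hM : 0 ≤ M)
    (hg : ∀ p ∈ T, 1 ≤ g p) (hH : ∀ p ∈ T, ‖H p‖ ≤ C) (hy : ∀ p ∈ T, ‖y p‖ ≤ C * M * g p) :
    ‖Es T J y H‖ ≤ (2 * C) ^ T.card * (∏ p ∈ T, g p) * M ^ J := by
  have hG : 0 ≤ ∏ p ∈ T, g p := Finset.prod_nonneg fun p hp => zero_le_one.trans (hg p hp)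
  have key : ∀ A ∈ T.powersetCard J, ‖(∏ p ∈ A, y p) * ∏ p ∈ T \ A, H p‖ ≤
      C ^ T.card * (∏ p ∈ T, g p) * M ^ J := fun A hA => by
    obtain ⟨hA1, hA2⟩ := Finset.mem_powersetCard.1 hA
    have a1 : ∏ p ∈ A, ‖y p‖ ≤ ∏ p ∈ A, (M * (C * g p)) :=
      Finset.prod_le_prod (fun _ _ => norm_nonneg _) fun p hp => (hy p (hA1 hp)).trans_eq (by ring)
    have a2 : ∏ p ∈ T \ A, ‖H p‖ ≤ ∏ p ∈ T \ A, (C * g p) :=
      Finset.prod_le_prod (fun _ _ => norm_nonneg _) fun p hp =>
        (hH p (Finset.sdiff_subset hp)).trans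
          (le_mul_of_one_le_right hC (hg p (Finset.sdiff_subset hp)))
    rw [norm_mul, norm_prod, norm_prod]
    refine (mul_le_mul a1 a2 (Finset.prod_nonneg fun _ _ => norm_nonneg _)
      ((Finset.prod_nonneg fun _ _ => norm_nonneg _).trans a1)).trans_eq ?_
    rw [Finset.prod_mul_distrib, Finset.prod_const, hA2, mul_assoc, mul_comm (∏ p ∈ A, _),
      Finset.prod_sdiff hA1, Finset.prod_mul_distrib, Finset.prod_const]
    ring
  refine (norm_sum_le _ _).trans ((Finset.sum_le_card_nsmul _ _ _ key).trans ?_)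
  rw [Finset.card_powersetCard, nsmul_eq_mul, mul_pow, mul_assoc (2 ^ T.card : ℝ),
    mul_assoc (2 ^ T.card : ℝ)]
  refine mul_le_mul_of_nonneg_right ?_ (by positivity)
  exact_mod_cast Nat.choose_le_two_pow _ _

/-- `Es_union`, `Es_factor` and `norm_es_le` on `T₀`, `Es_triv` on `T₁` -/
theorem Es_bound {T₀ T₁ : Finset ι} (h : Disjoint T₀ T₁) (J : ℕ) (y H b : ι → ℂ) (d g : ι → ℝ)
    {C M : ℝ} (hC : 0 ≤ C) (h0 : ∀ p ∈ T₀, H p ≠ 0 ∧ ‖y p / H p - b p‖ ≤ d p)
    (h1 : ‖∑ p ∈ T₀, b p‖ + ∑ p ∈ T₀, d p ≤ M) (h2 : ∑ p ∈ T₀, (‖b p‖ + d p) ^ 2 ≤ M ^ 2)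
    (hg : ∀ p ∈ T₁, 1 ≤ g p) (hH : ∀ p ∈ T₁, ‖H p‖ ≤ C) (hy : ∀ p ∈ T₁, ‖y p‖ ≤ C * M * g p) :
    ‖Es (T₀ ∪ T₁) J y H‖ ≤
      (J + 1) * ‖∏ p ∈ T₀, H p‖ * ((2 * C) ^ T₁.card * ∏ p ∈ T₁, g p) * M ^ J := by
  have hd : ∀ p ∈ T₀, 0 ≤ d p := fun p hp => (norm_nonneg _).trans (h0 p hp).2
  have hM : 0 ≤ M := (add_nonneg (norm_nonneg _) (Finset.sum_nonneg hd)).trans h1
  have a1 : ‖∑ p ∈ T₀, y p / H p‖ ≤ M := by
    have e : ∑ p ∈ T₀, y p / H p = ∑ p ∈ T₀, b p + ∑ p ∈ T₀, (y p / H p - b p) := by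
      rw [Finset.sum_sub_distrib]
      ring
    rw [e]
    refine (norm_add_le _ _).trans (le_trans ?_ h1)
    exact add_le_add le_rfl ((norm_sum_le _ _).trans (Finset.sum_le_sum fun p hp => (h0 p hp).2))
  have a2 : ∑ p ∈ T₀, ‖y p / H p‖ ^ 2 ≤ M ^ 2 := by
    refine le_trans (Finset.sum_le_sum fun p hp => pow_le_pow_left₀ (norm_nonneg _) ?_ 2) h2
    have := norm_add_le (b p) (y p / H p - b p)
    rw [add_sub_cancel] at this
    exact this.trans (add_le_add le_rfl (h0 p hp).2)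
  have key : ∀ i ∈ Finset.range (J + 1), ‖Es T₀ i y H * Es T₁ (J - i) y H‖ ≤
      ‖∏ p ∈ T₀, H p‖ * ((2 * C) ^ T₁.card * ∏ p ∈ T₁, g p) * M ^ J := fun i hi => by
    have hi' : i ≤ J := Nat.lt_succ_iff.1 (Finset.mem_range.1 hi)
    rw [norm_mul, Es_factor T₀ i y H fun p hp => (h0 p hp).1, norm_mul]
    refine (mul_le_mul (mul_le_mul_of_nonneg_left (norm_es_le T₀ i _ a1 a2) (norm_nonneg _))
      (Es_triv T₁ (J - i) y H g hC hM hg hH hy) (norm_nonneg _) (by positivity)).trans_eq ?_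
    rw [show M ^ J = M ^ i * M ^ (J - i) by rw [← pow_add, Nat.add_sub_cancel' hi']]
    ring
  rw [Es_union h]
  refine (norm_sum_le _ _).trans ((Finset.sum_le_card_nsmul _ _ _ key).trans_eq ?_)
  rw [Finset.card_range, nsmul_eq_mul]
  push_cast
  ring

end Crest.Agent.R17.HI
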