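import Crest.Agent.R17.I.Def

/-!
Row 17, block I (owner helper88): the weights `ph`, `Xi` and the decomposition `m = u l⁶`.
-/

set_option autoImplicit false

namespace Crest.Agent.R17.HI

open scoped ComplexConjugate

variable {q : O}

theorem ph_one (q : O) : ph q 1 = 1 := by
  rw [ph, (isTw_one q).one, if_pos prim_one, mul_one]

theorem norm_ph_le (q y : O) : ‖ph q y‖ ≤ 1 := by
  unfold ph one
  split_ifs <;> simp

theorem ph_of_not_coprime {y : O} (h : ¬ IsCoprime y q) : ph q y = 0 := by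
  rw [ph, one, if_neg h, zero_mul]

/-- `(isTw_one q).per`, `Prim.congr`, `hq.three_dvd` -/
theorem per_ph (hq : Lev q) : Per q (ph q) := by
  intro a b hab
  have h3 : (3 : O) ∣ a - b := hq.three_dvd.trans hab
  have h3' : (3 : O) ∣ b - a := twb_symm h3
  have e1 : Prim a ↔ Prim b := ⟨fun h => h.congr h3, fun h => h.congr h3'⟩
  have e2 : Prim (-a) ↔ Prim (-b) :=
    ⟨fun h => h.congr (by rwa [neg_sub_neg]), fun h => h.congr (by rwa [neg_sub_neg])⟩
  rw [ph, ph, (isTw_one q).per a b hab, propext e1, propext e2]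

/-- `y` and `-y` are not both primary (`3 ∤ 2`: `Prim.of_mul`/`Prim.eq_one_of_isUnit` for `-1`) -/
theorem ph_neg (q y : O) : ph q (-y) = -ph q y := by
  have e : one q (-y) = one q y := by rw [one, one, propext (IsCoprime.neg_left_iff y q)]
  rw [ph, ph, e, neg_neg]
  by_cases h1 : Prim y
  · have h2 : ¬ Prim (-y) := fun h => by
      have h3 := (h1.of_mul (b := -1) (by rwa [mul_neg_one])).eq_one_of_isUnit isUnit_one.neg
      norm_num at h3
    simp [h1, h2]
  · by_cases h2 : Prim (-y) <;> simp [h1, h2]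

/-- `Prim.mul`, `Prim.of_mul` -/
theorem ph_mul {c : O} (hc : Prim c) (y : O) : ph q (y * c) = ph q y * one q c := by
  have e : ∀ z : O, Prim (z * c) ↔ Prim z := fun z =>
    ⟨fun h => hc.of_mul (by rwa [mul_comm]), fun h => h.mul hc⟩
  rw [ph, ph, (isTw_one q).mul, ← neg_mul, propext (e y), propext (e (-y))]
  ring

theorem one_pow_six (q l : O) : one q (l ^ 6) = one q l := by
  rw [one, one, propext (IsCoprime.pow_left_iff (x := l) (y := q) (by norm_num : 0 < 6))]

theorem per_Xi (q : O) : Per q (Xi q) := fun a b hab => by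
  rw [Xi, Xi, per_FT q (ph q) (-a) (-b) (by rw [neg_sub_neg]; exact twb_symm hab)]

/-- `norm_FT_le` -/
theorem norm_Xi_le (hq : Lev q) (k : O) : ‖Xi q k‖ ≤ 1 := by
  have h := norm_FT_le hq.1 (norm_ph_le q) (-k)
  have h0 := nm_pos hq.1
  rw [Xi, norm_mul, norm_inv, Complex.norm_real, Real.norm_of_nonneg h0.le, inv_mul_le_iff₀ h0]
  exact h

/-- `FT_zero`, `rsum_neg_arg`, `ph_neg` -/
theorem Xi_zero (hq : Lev q) : Xi q 0 = 0 := by
  have h := rsum_neg_arg hq.1 (per_ph hq)
  have e : (fun y => ph q (-y)) = fun y => (-1) * ph q y := funext fun y => by rw [ph_neg, neg_one_mul]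
  rw [e, rsum_mul_left] at h
  have h0 : rsum q (ph q) = 0 := by linear_combination (-1 / 2 : ℂ) * h
  rw [Xi, neg_zero, FT_zero, h0, mul_zero]

/-- `FT_mul_arg`, `ph_mul` -/
theorem Xi_mul (hq : Lev q) {c : O} (hc : Prim c) (hcq : IsCoprime c q) (k : O) :
    Xi q (c * k) = Xi q k := by
  have h := FT_mul_arg hq.1 hcq (per_ph hq) (-k)
  have e : (fun y => ph q (c * y)) = ph q := funext fun y => by
    rw [mul_comm, ph_mul hc, one, if_pos hcq, mul_one]
  rw [e, mul_neg] at h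
  rw [Xi, Xi, h]

/-- Fourier inversion (`FT_FT`, `rsum_neg_arg`) -/
theorem FT_Xi (hq : Lev q) (m : O) : FT q (Xi q) m = ph q m := by
  have h := FT_mul_arg hq.1 (isCoprime_one_left (x := q)).neg_left (per_FT q (ph q)) (-m)
  rw [FT_FT hq.1 (per_ph hq)] at h
  simp only [neg_mul, one_mul, neg_neg] at h
  have e : FT q (Xi q) m = (nm q : ℂ)⁻¹ * FT q (fun y => FT q (ph q) (-y)) m := by
    rw [FT, FT, ← rsum_mul_left]
    simp only [Xi, mul_assoc]
  have h0 : (nm q : ℂ) ≠ 0 := Complex.ofReal_ne_zero.2 (nm_pos hq.1).ne'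
  rw [e, h, inv_mul_cancel_left₀ h0]

/-- `(u, l, b) ↦ (u l⁶, b)` is injective on `Row × Pr × β` (`powFree_unique`) and its range contains all
`(m, b)` with `m` prime to `q` (`exists_unit_prim`, `Prim.exists_powFree`);
`Function.Injective.hasSum_iff`, `HasSum.prod_fiberwise`, `Summable.prod_factor`. -/
theorem hasSum_rows (hq : Lev q) {β : Type} {f : O × β → ℂ} (hf : Summable f)
    (h0 : ∀ m b, ¬ IsCoprime m q → f (m, b) = 0) :
    HasSum (fun u : {u : O // Row q u} => ∑' t : Pr × β, f (u * t.1 ^ 6, t.2)) (∑' t, f t) := by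
  let g : {u : O // Row q u} × (Pr × β) → O × β := fun x => (x.1 * x.2.1 ^ 6, x.2.2)
  have hg : Function.Injective g := by
    rintro ⟨u, l, b⟩ ⟨u', l', b'⟩ h
    obtain ⟨h1, h2⟩ := Prod.mk.inj h
    obtain ⟨h3, h4⟩ := powFree_unique (by norm_num) l.2 l'.2 u.2.2 u'.2.2 h1
    exact Prod.ext (Subtype.ext h3) (Prod.ext (Subtype.ext h4) h2)
  have hr : ∀ x, x ∉ Set.range g → f x = 0 := by
    rintro ⟨m, b⟩ hx
    refine h0 m b fun hm => hx ?_
    obtain ⟨ζ, n, hζ, hn, rfl⟩ := exists_unit_prim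
      (coprime_three_iff.1 (hm.of_isCoprime_of_dvd_right hq.three_dvd))
    obtain ⟨c, l, -, hl, hc, rfl⟩ := hn.exists_powFree (k := 6) (by norm_num)
    refine ⟨(⟨ζ * c, ?_, fun p hp h => hc p hp (hζ.dvd_mul_left.1 h)⟩, ⟨l, hl⟩, b), ?_⟩
    · rw [← mul_assoc] at hm
      exact hm.of_mul_left_left
    · simp only [g, mul_assoc]
  have h1 := (hg.hasSum_iff hr).2 hf.hasSum
  exact h1.prod_fiberwise fun u => (h1.summable.prod_factor u).hasSum

end Crest.Agent.R17.HI
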