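import Crest.Agent.R17.I.Prod
import Crest.Agent.R17.I.Slot
import Crest.Agent.R17.I.Xi

/-!
Row 17, block I (owner helper88): the three bounds for `HH`.
-/

set_option autoImplicit false

namespace Crest.Agent.R17.HI

open scoped ComplexConjugate

theorem ibd_norm_cpow {p : O} (hp : p ≠ 0) (s : ℂ) : ‖(nm p : ℂ) ^ s‖ = nm p ^ s.re :=
  Complex.norm_cpow_eq_rpow_re_of_pos (nm_pos hp) s

theorem ibd_re (z : ℂ) : (z - 1 / 2).re = z.re - 1 / 2 := by simp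

theorem ibd_sqf_dvd {u : O} (r : O) : Squarefree r → (∀ p, Prime p → p ∣ r → p ∣ u) → r ∣ u := by
  induction r using UniqueFactorizationMonoid.induction_on_prime with
  | h₁ => exact fun h => absurd h not_squarefree_zero
  | h₂ x hx => exact fun _ _ => hx.dvd
  | h₃ a p _ hp ih =>
    intro hs h
    have h1 : ¬ p ∣ a := fun h1 => hp.not_isUnit (hs p (mul_dvd_mul_left p h1))
    exact (hp.irreducible.coprime_iff_not_dvd.2 h1).mul_dvd (h p hp (dvd_mul_right _ _))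
      (ih hs.of_mul_right fun p' hp' h' => h p' hp' (h'.mul_left _))

theorem ibd_dvd {r u : O} (hr : IsRad r u) {T : Finset O}
    (hT : ∀ p ∈ T, Prime p ∧ Prim p ∧ p ^ 2 ∣ u) : r * ∏ p ∈ T, p ∣ u := by
  obtain ⟨v, rfl⟩ := ibd_sqf_dvd r hr.1 fun p hp h => (hr.2 p hp).1 h
  refine mul_dvd_mul_left r (Finset.prod_dvd_of_coprime (fun p hp p' hp' hne => ?_) fun p hp => ?_)
  · exact Prim.coprime_of_ne (hT p hp).2.1 (hT p' hp').2.1 (hT p hp).1 (hT p' hp').1 hne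
  · obtain ⟨h1, -, h2⟩ := hT p hp
    by_contra hv
    have h3 : p ^ 2 ∣ r :=
      (h1.irreducible.coprime_iff_not_dvd.2 hv).pow_left.dvd_of_dvd_mul_right h2
    exact h1.not_isUnit (hr.1 p (by rwa [← sq]))

theorem ibd_b {ω : O → ℂ} {p : O} (hω : ‖ω p‖ ≤ 1) (hp0 : p ≠ 0) (u : O) (z : ℂ) :
    ‖-(ω p * (nm p : ℂ) ^ (z - 1 / 2) * sx u p)‖ ≤ nm p ^ (z.re - 1 / 2) := by
  rw [norm_neg, norm_mul, norm_mul, ibd_norm_cpow hp0, ibd_re]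
  have := Real.rpow_nonneg (nm_nonneg p) (z.re - 1 / 2)
  calc ‖ω p‖ * nm p ^ (z.re - 1 / 2) * ‖sx u p‖ ≤ 1 * nm p ^ (z.re - 1 / 2) * 1 := by
        gcongr
        exact norm_sx_le _ _
    _ = _ := by ring

theorem ibd_sq {Q β C Z : ℝ} (hQ : 1 ≤ Q) (hC : 0 ≤ C) (h0 : 0 ≤ β) (h : β ≤ Q ^ (Z - 1 / 2)) :
    (β + C * Q ^ (Z - 1 / 2 - 1 / 2)) ^ 2 ≤ (1 + C) ^ 2 * Q ^ (2 * Z - 1) := by
  have hQ0 : 0 ≤ Q := by linarith
  have a2 : Q ^ (Z - 1 / 2 - 1 / 2) ≤ Q ^ (Z - 1 / 2) :=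
    Real.rpow_le_rpow_of_exponent_le hQ (by linarith)
  have a3 : Q ^ (2 * Z - 1) = (Q ^ (Z - 1 / 2)) ^ 2 := by
    rw [← Real.rpow_natCast, ← Real.rpow_mul hQ0]; congr 1; push_cast; ring
  have a4 := Real.rpow_nonneg hQ0 (Z - 1 / 2 - 1 / 2)
  have a5 := mul_le_mul_of_nonneg_left a2 hC
  rw [a3, ← mul_pow]
  gcongr
  linarith

theorem ibd_sq2 {P B C D S Z ε : ℝ} (hP : 1 ≤ P) (hε : 0 ≤ ε) (hD : 1 ≤ D) (hB : P ^ (Z + ε) ≤ B)
    (hS : S ≤ D * P ^ (2 * Z + ε)) : (1 + C) ^ 2 * S ≤ ((1 + C) * D * B) ^ 2 := by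
  have h0 : 0 ≤ P ^ (Z + ε) := Real.rpow_nonneg (by linarith) _
  have e3 : P ^ (2 * Z + ε) ≤ B ^ 2 := by
    calc P ^ (2 * Z + ε) ≤ P ^ ((Z + ε) * (2 : ℕ)) :=
          Real.rpow_le_rpow_of_exponent_le hP (by push_cast; linarith)
      _ = (P ^ (Z + ε)) ^ 2 := by rw [Real.rpow_mul (by linarith), Real.rpow_natCast]
      _ ≤ B ^ 2 := by gcongr
  have h1 : 0 ≤ P ^ (2 * Z + ε) := Real.rpow_nonneg (by linarith) _
  rw [mul_pow, mul_pow, mul_assoc]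
  gcongr
  calc S ≤ D * P ^ (2 * Z + ε) := hS
    _ ≤ D ^ 2 * B ^ 2 := by
      gcongr
      nlinarith

theorem ibd_y {q : O} {η ω : O → ℂ} {u p : O} {x w z : ℂ} {C g M : ℝ} (hω : ‖ω p‖ ≤ 1) (hp0 : p ≠ 0)
    (hC : 0 ≤ C) (hg : 0 ≤ g) (h : ‖hp q η u p x w z‖ ≤ C * nm p ^ (1 / 2 : ℝ) * g)
    (hM : nm p ^ z.re ≤ M) : ‖yp q η ω u p x w z‖ ≤ C * M * g := by
  have a2 : nm p ^ (z.re - 1 / 2) * nm p ^ (1 / 2 : ℝ) ≤ M := by
    rwa [← Real.rpow_add (nm_pos hp0), sub_add_cancel]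
  have a3 := Real.rpow_nonneg (nm_nonneg p) (z.re - 1 / 2)
  unfold yp
  rw [norm_mul, norm_mul, ibd_norm_cpow hp0, ibd_re]
  calc ‖ω p‖ * nm p ^ (z.re - 1 / 2) * ‖hp q η u p x w z‖
      ≤ 1 * nm p ^ (z.re - 1 / 2) * (C * nm p ^ (1 / 2 : ℝ) * g) := by gcongr
    _ = C * (nm p ^ (z.re - 1 / 2) * nm p ^ (1 / 2 : ℝ)) * g := by ring
    _ ≤ _ := by gcongr

theorem ibd_fin {f E h j a b g m c₄ c₅ n r : ℝ} (hf : f ≤ 1) (hE0 : 0 ≤ E) (hh : 0 ≤ h) (hj : 0 ≤ j)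
    (hb : 0 ≤ b) (hg : 0 ≤ g) (hm : 0 ≤ m) (hc₄ : 0 ≤ c₄) (hn : 0 ≤ n)
    (hE : E ≤ j * a * (b * g) * m) (k1 : a * h ≤ c₄ * n) (k2 : b ≤ c₅ * n) (k3 : g ≤ r) :
    f * (E * h) ≤ j * c₄ * c₅ * (n * n) * r * m := by
  have hcn : 0 ≤ c₅ * n := hb.trans k2
  calc f * (E * h) ≤ 1 * ((j * a * (b * g) * m) * h) := by gcongr
    _ = j * (a * h) * (b * g) * m := by ring
    _ ≤ j * (c₄ * n) * ((c₅ * n) * r) * m := by gcongr
    _ = _ := by ring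

theorem ibd_h1 {s S C D Y : ℝ} (hs : 0 ≤ s) (hC : 0 ≤ C) (hD : 1 ≤ D) (hY : 0 ≤ Y) (h : S ≤ D * Y) :
    s + C * S ≤ (1 + C) * D * (s + Y) := by
  have h1 := mul_le_mul_of_nonneg_left h hC
  have h2 : s ≤ D * s := le_mul_of_one_le_left hs hD
  have h3 : 0 ≤ C * D * s := by positivity
  have h4 : 0 ≤ D * Y := by positivity
  nlinarith

/-- `y/H - b = ω Q^(z-1/2) ((h + χ) + χ (H - 1)) / H`; `hp_near`, `Hp_near`, `Good.half` -/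
theorem yp_near : ∃ C : ℝ, 1 ≤ C ∧ ∀ (q : O) (η ω : O → ℂ) (u p : O) (c θ : ℝ) (x w z : ℂ), Good q →
    IsTw q η → ‖ω p‖ ≤ 1 → Prime p → Prim p → ¬ p ∣ q → ¬ p ∣ u → 0 < c → c ≤ 1 / 50 →
    (x, w, z) ∈ Og c → θ ≤ x.re → θ ≤ 6 * z.re → θ ≤ 5 * x.re + 6 * z.re - 402 / 100 →
    θ ≤ w.re + 6 * z.re - 101 / 100 → θ ≤ 99 / 100 →
    Hp q η u p x w z ≠ 0 ∧
      ‖yp q η ω u p x w z / Hp q η u p x w z - -(ω p * (nm p : ℂ) ^ (z - 1 / 2) * sx u p)‖ ≤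
        C * nm p ^ (z.re - 1 / 2 - θ) := by
  obtain ⟨C₁, hC₁, h₁⟩ := hp_near
  obtain ⟨C₂, hC₂, h₂⟩ := Hp_near
  refine ⟨2 * (C₁ + C₂), by linarith, ?_⟩
  intro q η ω u p c θ x w z hq hη hω hp hp' hpq hpu hc hc' hO t1 t2 t3 t4 t5
  have a1 := h₁ q η u p c θ x w z hq.lev hη hp hp' hpq hpu hc hc' hO t1 t2 t3 t4 t5
  have a2 := h₂ q η u p c x w z hq.lev hη hp hp' hpu hc hc' hO
  have a3 := hq.half η u p c x w z hη hp hp' hpu hc hc' hO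
  have hQ : 1 ≤ nm p := one_le_nm hp.ne_zero
  have hQ0 : 0 < nm p := by linarith
  set H := Hp q η u p x w z with hH
  have a4 : 1 / 2 ≤ ‖H‖ := by
    have := norm_sub_norm_le (1 : ℂ) H
    rw [norm_one, norm_sub_rev] at this
    linarith
  have H0 : H ≠ 0 := fun h => by rw [h, norm_zero] at a4; norm_num at a4
  refine ⟨H0, ?_⟩
  have e : yp q η ω u p x w z / H - -(ω p * (nm p : ℂ) ^ (z - 1 / 2) * sx u p) =
      ω p * (nm p : ℂ) ^ (z - 1 / 2) * (((HI.hp q η u p x w z + sx u p) + sx u p * (H - 1)) / H) := by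
    unfold yp; field_simp; ring
  have a5 : nm p ^ (-(1 + c)) ≤ nm p ^ (-θ) := Real.rpow_le_rpow_of_exponent_le hQ (by linarith)
  have a6 : ‖(HI.hp q η u p x w z + sx u p) + sx u p * (H - 1)‖ ≤ (C₁ + C₂) * nm p ^ (-θ) := by
    refine (norm_add_le _ _).trans ?_
    have : ‖sx u p * (H - 1)‖ ≤ C₂ * nm p ^ (-θ) := by
      rw [norm_mul]
      calc ‖sx u p‖ * ‖H - 1‖ ≤ 1 * ‖H - 1‖ := by gcongr; exact norm_sx_le _ _
        _ ≤ C₂ * nm p ^ (-θ) := by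
          rw [one_mul]; exact a2.trans (by gcongr)
    linarith
  rw [e, norm_mul, norm_mul, norm_div, ibd_norm_cpow hp.ne_zero, ibd_re,
    show z.re - 1 / 2 - θ = (z.re - 1 / 2) + -θ by ring, Real.rpow_add hQ0]
  have b1 : 0 < nm p ^ (z.re - 1 / 2) := Real.rpow_pos_of_pos hQ0 _
  have b2 : 0 < nm p ^ (-θ) := Real.rpow_pos_of_pos hQ0 _
  calc ‖ω p‖ * nm p ^ (z.re - 1 / 2) * (‖(HI.hp q η u p x w z + sx u p) + sx u p * (H - 1)‖ / ‖H‖)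
      ≤ 1 * nm p ^ (z.re - 1 / 2) * ((C₁ + C₂) * nm p ^ (-θ) / (1 / 2)) := by gcongr
    _ = _ := by ring

open Classical in
/-- `r · ∏_{p ∈ T, p² ∣ u} p ∣ u`: both factors are squarefree products of primes of `u`
(check multiplicities, or induct on `T`) -/
theorem prod_sq_le {r u : O} (hu : u ≠ 0) (hr : IsRad r u) {T : Finset O}
    (hT : ∀ p ∈ T, Prime p ∧ Prim p) {s : ℝ} (hs : 0 ≤ s) :
    ∏ p ∈ T, (if p ^ 2 ∣ u then nm p ^ s else 1) ≤ (nm u / nm r) ^ s := by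
  have hr0 : 0 < nm r := nm_pos hr.1.ne_zero
  have h1 := ibd_dvd hr (T := T.filter fun p => p ^ 2 ∣ u) fun p hp =>
    ⟨(hT p (Finset.mem_filter.1 hp).1).1, (hT p (Finset.mem_filter.1 hp).1).2,
      (Finset.mem_filter.1 hp).2⟩
  have h2 := nm_le_of_dvd h1 hu
  rw [nm_mul, nm_prod] at h2
  rw [← Finset.prod_filter, Real.finsetProd_rpow _ _ (fun _ _ => nm_nonneg _)]
  refine Real.rpow_le_rpow (Finset.prod_nonneg fun _ _ => nm_nonneg _) ?_ hs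
  rw [le_div_iff₀ hr0, mul_comm]
  exact h2

/-- `Es_bound` with `T₀ = Ps.filter (¬ · ∣ u)`, `T₁ = Ps.filter (· ∣ u)`, `θ = 1/2`,
`b p = -(ω p Q^(z-1/2) χ)` (it vanishes on `T₁`), `d p = C Q^(Z-1)`, `M = C' (‖slot‖ + P^(Z+ε))`
(`sum_rpow_le` with `s = Z` and `s = 2 Z`), `Hp_dvd`, `norm_prod_Hout_le`, `pow_card_pfs_le`
(`T₁ ⊆ pfs u`), `prod_sq_le`, `norm_ph_le`, `sub_Og`. -/
theorem bound₁ {q : O} {η : O → ℂ} (hq : Good q) (hη : IsTw q η) (J : ℕ) :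
    ∀ e ε : ℝ, 0 < e → 0 < ε → ∃ C : ℝ, ∀ (P : ℝ) (Ps : Finset O) (ω : O → ℂ) (u r : O)
    (x w z : ℂ), Slots q P Ps ω → Row q u → IsRad r u → (x, w, z) ∈ Om1 e →
    ‖HH q η J Ps ω u x w z‖ ≤ C * nm u ^ ε * (nm u / nm r) ^ max 0 (1 / 2 - w.re) *
      (‖∑ p ∈ Ps, ω p * (nm p : ℂ) ^ (z - 1 / 2) * sx u p‖ + P ^ (z.re + ε)) ^ J := by
  classical
  intro e ε he hε
  have hc : 0 < min e (1 / 50) := lt_min he (by norm_num)
  have hc' : min e (1 / 50) ≤ 1 / 50 := min_le_right _ _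
  obtain ⟨C₁, hC₁, h₁⟩ := yp_near
  obtain ⟨C₂, hC₂, h₂⟩ := Hp_dvd
  obtain ⟨C₃, hC₃, h₃⟩ := sum_rpow_le hε
  obtain ⟨C₄, hC₄, h₄⟩ := norm_prod_Hout_le hc hc' (half_pos hε)
  obtain ⟨C₅, hC₅, h₅⟩ := pow_card_pfs_le (2 * C₂) (half_pos hε)
  refine ⟨(J + 1) * C₄ * C₅ * ((1 + C₁) * C₃) ^ J, ?_⟩
  intro P Ps ω u r x w z hS hu hr hv
  have hO : (x, w, z) ∈ Og (min e (1 / 50)) := sub_Og (Or.inl hv)
  obtain ⟨v1, v2, v3, v4⟩ := hv
  simp only at v1 v2 v3 v4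
  obtain ⟨hP, hPs, hω⟩ := hS
  have hu0 := Row.ne_zero hu
  have hpq : ∀ p ∈ Ps, ¬ p ∣ q := fun p hp h =>
    (hPs p hp).1.not_isUnit ((hPs p hp).2.2.1.isUnit_of_dvd' dvd_rfl h)
  set sl := ∑ p ∈ Ps, ω p * (nm p : ℂ) ^ (z - 1 / 2) * sx u p with hsl
  set B := ‖sl‖ + P ^ (z.re + ε) with hB
  set T₀ := Ps.filter fun p => ¬ p ∣ u with hT₀
  set T₁ := Ps.filter fun p => p ∣ u with hT₁
  have m₀ : ∀ p ∈ T₀, p ∈ Ps ∧ ¬ p ∣ u := fun p hp => Finset.mem_filter.1 hp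
  have m₁ : ∀ p ∈ T₁, p ∈ Ps ∧ p ∣ u := fun p hp => Finset.mem_filter.1 hp
  have hun : T₀ ∪ T₁ = Ps := by
    rw [Finset.union_comm]; exact Finset.filter_union_filter_not_eq _ _
  have hdis : Disjoint T₀ T₁ := (Finset.disjoint_filter_filter_not _ _ _).symm
  have hPz : 1 ≤ P ^ (z.re + ε) := Real.one_le_rpow hP (by linarith)
  have hK : 1 ≤ (1 + C₁) * C₃ := one_le_mul_of_one_le_of_one_le (by linarith) hC₃
  have hB1 : P ^ (z.re + ε) ≤ B := le_add_of_nonneg_left (norm_nonneg _)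
  have hB0 : 0 ≤ B := by linarith
  have hT₀' : ∀ p ∈ T₀, p ≠ 0 ∧ nm p ≤ P := fun p hp =>
    ⟨(hPs p (m₀ p hp).1).1.ne_zero, (hPs p (m₀ p hp).1).2.2.2⟩
  have key := Es_bound hdis J (fun p => yp q η ω u p x w z) (fun p => Hp q η u p x w z)
    (fun p => -(ω p * (nm p : ℂ) ^ (z - 1 / 2) * sx u p)) (fun p => C₁ * nm p ^ (z.re - 1 / 2 - 1 / 2))
    (fun p => if p ^ 2 ∣ u then nm p ^ max 0 (1 / 2 - w.re) else 1) (C := C₂)
    (M := (1 + C₁) * C₃ * B) (by linarith)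
    (fun p hp => h₁ q η ω u p _ (1 / 2) x w z hq hη (hω p) (hPs p (m₀ p hp).1).1
      (hPs p (m₀ p hp).1).2.1 (hpq p (m₀ p hp).1) (m₀ p hp).2 hc hc' hO (by linarith) (by linarith)
      (by linarith) (by linarith) (by norm_num)) ?_ ?_ ?_ ?_ ?_
  · rw [hun] at key
    have k1 := h₄ q u η Ps T₀ x w z hq.lev hη hu (Finset.filter_subset _ _)
      (fun p hp => ⟨(hPs p (m₀ p hp).1).1, (hPs p (m₀ p hp).1).2.1, (m₀ p hp).2⟩) hO
    have k2 : (2 * C₂) ^ T₁.card ≤ C₅ * nm u ^ (ε / 2) := by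
      refine le_trans ?_ (h₅ u hu0)
      rw [abs_of_nonneg (by linarith)]
      refine pow_le_pow_right₀ (by linarith) (Finset.card_le_card fun p hp => ?_)
      exact (mem_pfs hu0).2 ⟨(hPs p (m₁ p hp).1).1, (hPs p (m₁ p hp).1).2.1, (m₁ p hp).2⟩
    have k3 := prod_sq_le hu0 hr (T := T₁) (fun p hp => ⟨(hPs p (m₁ p hp).1).1,
      (hPs p (m₁ p hp).1).2.1⟩) (le_max_left 0 (1 / 2 - w.re))
    have k4 : 0 ≤ ∏ p ∈ T₁, (if p ^ 2 ∣ u then nm p ^ max 0 (1 / 2 - w.re) else 1) :=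
      Finset.prod_nonneg fun p _ => by
        split_ifs
        · exact Real.rpow_nonneg (nm_nonneg _) _
        · exact zero_le_one
    have k5 : nm u ^ ε = nm u ^ (ε / 2) * nm u ^ (ε / 2) := by
      rw [← Real.rpow_add (nm_pos hu0), add_halves]
    have k6 : 0 ≤ nm u ^ (ε / 2) := Real.rpow_nonneg (nm_nonneg _) _
    unfold HH
    rw [norm_mul, norm_mul, k5]
    refine (ibd_fin (norm_ph_le _ _) (norm_nonneg _) (norm_nonneg _) (by positivity) (by positivity) k4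
      (by positivity) hC₄.le k6 key k1 k2 k3).trans_eq ?_
    rw [mul_pow _ B]
    ring
  · have e1 : ∑ p ∈ T₀, -(ω p * (nm p : ℂ) ^ (z - 1 / 2) * sx u p) = -sl := by
      rw [Finset.sum_neg_distrib, hsl, hT₀, Finset.sum_filter_of_ne]
      intro p hp hne h
      refine hne ?_
      rw [sx_eq_zero_of_not_coprime fun hco => (hPs p hp).1.not_isUnit
        (hco.isUnit_of_dvd' h dvd_rfl), mul_zero]
    have e2 := h₃ P z.re T₀ hP (by linarith) hT₀'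
    rw [e1, norm_neg, ← Finset.mul_sum, show z.re - 1 / 2 - 1 / 2 = z.re - 1 by ring]
    exact ibd_h1 (norm_nonneg _) (by linarith) hC₃ (by linarith) e2
  · refine (Finset.sum_le_sum fun p hp => ibd_sq (one_le_nm (hT₀' p hp).1) (by linarith)
      (norm_nonneg _) (ibd_b (hω p) (hT₀' p hp).1 u z)).trans ?_
    rw [← Finset.mul_sum]
    exact ibd_sq2 hP hε.le hC₃ hB1 (h₃ P (2 * z.re) T₀ hP (by linarith) hT₀')
  · intro p hp
    split_ifs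
    · exact Real.one_le_rpow (one_le_nm (hPs p (m₁ p hp).1).1.ne_zero) (le_max_left _ _)
    · exact le_rfl
  · exact fun p hp => (h₂ q η u p _ x w z hq.lev hη (hPs p (m₁ p hp).1).1 (hPs p (m₁ p hp).1).2.1
      (hpq p (m₁ p hp).1) (m₁ p hp).2 (hu.2 p (hPs p (m₁ p hp).1).1) hc hO).1
  · intro p hp
    have hp0 := (hPs p (m₁ p hp).1).1.ne_zero
    have a1 := (h₂ q η u p _ x w z hq.lev hη (hPs p (m₁ p hp).1).1 (hPs p (m₁ p hp).1).2.1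
      (hpq p (m₁ p hp).1) (m₁ p hp).2 (hu.2 p (hPs p (m₁ p hp).1).1) hc hO).2
    refine ibd_y (hω p) hp0 (by linarith) ?_ a1 ?_
    · split_ifs
      · exact Real.rpow_nonneg (nm_nonneg _) _
      · exact zero_le_one
    · calc nm p ^ z.re ≤ P ^ z.re :=
            Real.rpow_le_rpow (nm_nonneg _) (hPs p (m₁ p hp).1).2.2.2 (by linarith)
        _ ≤ P ^ (z.re + ε) := Real.rpow_le_rpow_of_exponent_le hP (by linarith)
        _ ≤ B := hB1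
        _ ≤ _ := le_mul_of_one_le_left hB0 hK

end Crest.Agent.R17.HI
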