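import Crest.Agent.R17.I.Bound

/-!
Row 17, block I (owner helper88): the row `u = 1`.
-/

set_option autoImplicit false

namespace Crest.Agent.R17.HI

open scoped ComplexConjugate

theorem ibd2_not_dvd {p : O} (hp : Prime p) : ¬ p ∣ 1 := fun h => hp.not_isUnit (isUnit_of_dvd_one h)

theorem ibd2_npq {q : O} {P : ℝ} {Ps : Finset O} {ω : O → ℂ} (hS : Slots q P Ps ω) :
    ∀ p ∈ Ps, ¬ p ∣ q := fun p hp h =>
  (hS.2.1 p hp).1.not_isUnit ((hS.2.1 p hp).2.2.1.isUnit_of_dvd' dvd_rfl h)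

theorem ibd2_Og {v : ℂ × ℂ × ℂ} (h : v ∈ Om2) : v ∈ Og (1 / 50) := by
  have := sub_Og (e := 1 / 50) (Or.inr h)
  rwa [min_self] at this

/-- `Es_factor`, `norm_es_triv`, `yp_near` with `θ = 0`, `sum_rpow_le` with `s = Z + 1/2`,
`norm_prod_Hout_le` with `c = 1/50` -/
theorem bound₂ {q : O} {η : O → ℂ} (hq : Good q) (hη : IsTw q η) (J : ℕ) :
    ∀ ε : ℝ, 0 < ε → ∃ C : ℝ, ∀ (P : ℝ) (Ps : Finset O) (ω : O → ℂ) (x w z : ℂ),
    Slots q P Ps ω → (x, w, z) ∈ Om2 →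
    ‖HH q η J Ps ω 1 x w z‖ ≤ C * (P ^ (z.re + 1 / 2 + ε)) ^ J := by
  classical
  intro ε hε
  obtain ⟨C₁, hC₁, h₁⟩ := yp_near
  obtain ⟨C₃, hC₃, h₃⟩ := sum_rpow_le hε
  obtain ⟨C₄, hC₄, h₄⟩ := norm_prod_Hout_le (c := 1 / 50) (ε := 1) (by norm_num) le_rfl one_pos
  refine ⟨C₄ * ((1 + C₁) * C₃) ^ J, ?_⟩
  intro P Ps ω x w z hS hv
  have hO := ibd2_Og hv
  have hpq := ibd2_npq hS
  obtain ⟨v1, v2, v3⟩ := hv
  simp only at v1 v2 v3
  obtain ⟨hP, hPs, hω⟩ := hS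
  have hy := fun p (hp : p ∈ Ps) => h₁ q η ω 1 p _ 0 x w z hq hη (hω p) (hPs p hp).1 (hPs p hp).2.1
    (hpq p hp) (ibd2_not_dvd (hPs p hp).1) (by norm_num) le_rfl hO (by linarith) (by linarith)
    (by linarith) (by linarith) (by norm_num)
  have k1 := h₄ q 1 η Ps Ps x w z hq.lev hη (row_one q) subset_rfl
    (fun p hp => ⟨(hPs p hp).1, (hPs p hp).2.1, ibd2_not_dvd (hPs p hp).1⟩) hO
  rw [nm_one, Real.one_rpow, mul_one] at k1
  have k2 : ∑ p ∈ Ps, ‖yp q η ω 1 p x w z / Hp q η 1 p x w z‖ ≤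
      (1 + C₁) * C₃ * P ^ (z.re + 1 / 2 + ε) := by
    have e2 := h₃ P (z.re + 1 / 2) Ps hP (by linarith) fun p hp => ⟨(hPs p hp).1.ne_zero, (hPs p hp).2.2.2⟩
    calc _ ≤ ∑ p ∈ Ps, (1 + C₁) * nm p ^ (z.re + 1 / 2 - 1) := by
          refine Finset.sum_le_sum fun p hp => ?_
          have a1 := (hy p hp).2
          have a2 := ibd_b (hω p) (hPs p hp).1.ne_zero 1 z
          have a3 := norm_le_norm_add_norm_sub' (yp q η ω 1 p x w z / Hp q η 1 p x w z)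
            (-(ω p * (nm p : ℂ) ^ (z - 1 / 2) * sx 1 p))
          rw [sub_zero] at a1
          rw [show z.re + 1 / 2 - 1 = z.re - 1 / 2 by ring]
          linarith
      _ ≤ _ := by
          rw [← Finset.mul_sum, mul_assoc]
          exact mul_le_mul_of_nonneg_left e2 (by linarith)
  have k3 := (norm_es_triv Ps J fun p => yp q η ω 1 p x w z / Hp q η 1 p x w z).trans
    (pow_le_pow_left₀ (Finset.sum_nonneg fun _ _ => norm_nonneg _) k2 J)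
  unfold HH
  rw [ph_one, one_mul, Es_factor _ _ _ _ fun p hp => (hy p hp).1, mul_right_comm, norm_mul, norm_mul]
  refine (mul_le_mul k1 k3 (norm_nonneg _) hC₄.le).trans_eq ?_
  rw [mul_pow _ (P ^ _)]
  ring

/-- `H0_eq`, `Es_factor`, `es_pert` with `yp_near`, `θ = 4/5`: `d p = C Q^(-1/3-4/5)` is summable,
`‖b p‖ + d p ≤ (C + 1) Q^(2/3 - 1)`; `sx 1 p = 1` (`sx_one_left`), `∏_{A} (-y) = (-1)^J ∏_A y`,
`Good.near`, `ph_one` -/
theorem main_term {q : O} {η : O → ℂ} (hq : Good q) (hη : IsTw q η) (J : ℕ) :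
    ∀ ε : ℝ, 0 < ε → ∃ C : ℝ, ∀ (P : ℝ) (Ps : Finset O) (ω : O → ℂ) (x : ℂ),
    Slots q P Ps ω → 43 / 50 < x.re →
    ‖HH q η J Ps ω 1 x 1 (1 / 6) - H0 q η x * (-1) ^ J *
        ∑ A ∈ Ps.powersetCard J, ∏ p ∈ A, ω p * ((nm p ^ (-1 / 3 : ℝ) : ℝ) : ℂ)‖ ≤
      C * (P ^ (2 / 3 + ε)) ^ (J - 1) := by
  classical
  intro ε hε
  obtain ⟨C₁, hC₁, h₁⟩ := yp_near
  obtain ⟨C₃, hC₃, h₃⟩ := sum_rpow_le hε
  have hsum := summable_nm_rpow (σ := 17 / 15) (by norm_num)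
  refine ⟨3 / 2 * (C₁ * (∑' n : O, nm n ^ (-(17 / 15 : ℝ))) * ((1 + C₁) * C₃) ^ (J - 1)), ?_⟩
  intro P Ps ω x hS hx
  have hO : (x, (1 : ℂ), (1 / 6 : ℂ)) ∈ Og (1 / 50) := ibd2_Og ⟨hx, by norm_num, by norm_num⟩
  have hpq := ibd2_npq hS
  obtain ⟨hP, hPs, hω⟩ := hS
  have r6 : (1 / 6 : ℂ).re = 1 / 6 := by norm_num
  have hy := fun p (hp : p ∈ Ps) => h₁ q η ω 1 p _ (4 / 5) x 1 (1 / 6) hq hη (hω p) (hPs p hp).1
    (hPs p hp).2.1 (hpq p hp) (ibd2_not_dvd (hPs p hp).1) (by norm_num) le_rfl hO (by linarith)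
    (by norm_num) (by rw [r6]; linarith) (by norm_num) (by norm_num)
  have hb : (-1 : ℂ) ^ J * ∑ A ∈ Ps.powersetCard J, ∏ p ∈ A, ω p * ((nm p ^ (-1 / 3 : ℝ) : ℝ) : ℂ) =
      es Ps J fun p => -(ω p * (nm p : ℂ) ^ ((1 / 6 : ℂ) - 1 / 2) * sx 1 p) := by
    unfold es
    rw [Finset.mul_sum]
    refine Finset.sum_congr rfl fun A hA => ?_
    obtain ⟨hA1, hA2⟩ := Finset.mem_powersetCard.1 hA
    rw [Finset.prod_neg, hA2]
    congr 1
    refine Finset.prod_congr rfl fun p hp => ?_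
    rw [sx_one_left, if_pos (hq.lev.coprime_six (hPs p (hA1 hp)).2.2.1), mul_one,
      Complex.ofReal_cpow (nm_nonneg p)]
    congr 2
    push_cast
    ring
  have k1 := es_pert Ps J _ _ _ fun p hp => (hy p hp).2
  have k2 : ∑ p ∈ Ps, C₁ * nm p ^ ((1 / 6 : ℂ).re - 1 / 2 - 4 / 5) ≤
      C₁ * ∑' n : O, nm n ^ (-(17 / 15 : ℝ)) := by
    rw [← Finset.mul_sum, r6, show (1 / 6 - 1 / 2 - 4 / 5 : ℝ) = -(17 / 15) by norm_num]
    exact mul_le_mul_of_nonneg_left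
      (hsum.sum_le_tsum _ fun n _ => Real.rpow_nonneg (nm_nonneg n) _) (by linarith)
  have k3 : ∑ p ∈ Ps, (‖-(ω p * (nm p : ℂ) ^ ((1 / 6 : ℂ) - 1 / 2) * sx 1 p)‖ +
      C₁ * nm p ^ ((1 / 6 : ℂ).re - 1 / 2 - 4 / 5)) ≤ (1 + C₁) * C₃ * P ^ (2 / 3 + ε) := by
    have e2 := h₃ P (2 / 3) Ps hP (by norm_num) fun p hp => ⟨(hPs p hp).1.ne_zero, (hPs p hp).2.2.2⟩
    calc _ ≤ ∑ p ∈ Ps, (1 + C₁) * nm p ^ (2 / 3 - 1 : ℝ) := by
          refine Finset.sum_le_sum fun p hp => ?_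
          have a2 := ibd_b (hω p) (hPs p hp).1.ne_zero 1 (1 / 6)
          have a3 : nm p ^ ((1 / 6 : ℂ).re - 1 / 2 - 4 / 5) ≤ nm p ^ (2 / 3 - 1 : ℝ) :=
            Real.rpow_le_rpow_of_exponent_le (one_le_nm (hPs p hp).1.ne_zero) (by rw [r6]; norm_num)
          rw [r6, show (1 / 6 - 1 / 2 : ℝ) = 2 / 3 - 1 by norm_num] at a2
          have a4 := mul_le_mul_of_nonneg_left a3 (show 0 ≤ C₁ by linarith)
          linarith
      _ ≤ _ := by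
          rw [← Finset.mul_sum, mul_assoc]
          exact mul_le_mul_of_nonneg_left e2 (by linarith)
  have k4 : ‖H0 q η x‖ ≤ 3 / 2 := by
    have a1 := hq.near η x hη hx
    have a2 := norm_le_norm_add_norm_sub' (H0 q η x) 1
    rw [norm_one] at a2
    linarith
  have k5 := k1.trans (mul_le_mul k2 (pow_le_pow_left₀ (Finset.sum_nonneg fun p _ =>
    add_nonneg (norm_nonneg _) (mul_nonneg (by linarith) (Real.rpow_nonneg (nm_nonneg _) _))) k3 _)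
    (pow_nonneg (Finset.sum_nonneg fun p _ =>
      add_nonneg (norm_nonneg _) (mul_nonneg (by linarith) (Real.rpow_nonneg (nm_nonneg _) _))) _)
    (mul_nonneg (by linarith) (tsum_nonneg fun n => Real.rpow_nonneg (nm_nonneg n) _)))
  unfold HH
  rw [ph_one, one_mul, Es_factor _ _ _ _ fun p hp => (hy p hp).1, mul_right_comm,
    ← H0_eq hq.lev hη (fun p hp => ⟨(hPs p hp).1, (hPs p hp).2.1⟩) hx, mul_assoc (H0 q η x), hb,
    ← mul_sub, norm_mul]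
  refine (mul_le_mul k4 k5 (norm_nonneg _) (by norm_num)).trans_eq ?_
  rw [mul_pow _ (P ^ _)]
  ring

end Crest.Agent.R17.HI
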