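import Crest.Agent.R17.I.Probe
import Crest.Agent.R17.A.All

/-!
Row 17, block I (owner helper88): definitions of the probe and of the local factors.
Namespace `HI`.  Notation in comments: `Q = N p`, `χ = χ_p(u) = sx u p`, `X, W, Z = Re x, Re w, Re z`.
-/

set_option autoImplicit false

namespace Crest.Agent.R17.HI

open scoped ComplexConjugate

/-! ### the probe -/

open Classical in
/-- odd function modulo `q` supported on `±` primary elements prime to `q` -/
noncomputable def ph (q y : O) : ℂ :=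
  one q y * (if Prim y then 1 else if Prim (-y) then -1 else 0)

/-- the row weight: inverse Fourier transform of `ph` -/
noncomputable def Xi (q k : O) : ℂ := (nm q : ℂ)⁻¹ * FT q (ph q) (-k)

/-- the coupling of the two sides (depends on `s, n` modulo `4`) -/
noncomputable def Wt (s n : O) : ℂ := eps s n * conj (gam n)

open Classical in
/-- the summand of `I0` -/
noncomputable def smd (q : O) (η : O → ℂ) (a N R : ℝ) (r k s n : O) : ℂ :=
  Wt s n * (rc (one q) (q ^ 5) s * LN a R 0 (nm s) / (Real.sqrt (nm s) : ℂ) * gs 5 (-k) s) *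
    (if r ∣ n then tau0 n * al n * rc η (16 * q) n * conj (sx k n) * LN a (N * nm r) 0 (nm n) else 0)

/-- the basic bilinear form -/
noncomputable def I0 (q : O) (η : O → ℂ) (a N R K : ℝ) (r : O) : ℂ :=
  ∑' k : O, Xi q k * gw K k * ∑' t : Pr × Pr, smd q η a N R r k t.1 t.2

/-- norm of a set of slots -/
noncomputable def nS (S : Finset O) : ℝ := ∏ p ∈ S, nm p

open Classical in
/-- weight of the pair `S ⊆ A` -/
noncomputable def co (η ω : O → ℂ) (A S : Finset O) : ℂ :=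
  (∏ p ∈ A \ S, ω p * conj (η p)) * ∏ p ∈ S, -(ω p * nm p)

open Classical in
/-- the slot combination of `F R K r` -/
noncomputable def prb (F : ℝ → ℝ → O → ℂ) (η ω : O → ℂ) (Ps : Finset O) (J : ℕ) (R K : ℝ) : ℂ :=
  ∑ A ∈ Ps.powersetCard J, ∑ S ∈ A.powerset,
    co η ω A S * F (R / nS S) (K / nS S ^ 2) (∏ p ∈ A \ S, p)

/-! ### the dual side -/

/-- the complete sum produced by Poisson summation -/
noncomputable def G0 (m s n : O) : ℂ := FT (s * n) (fun k => gs 5 (-k) s * conj (sx k n)) m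

/-- the arithmetic coefficient (`sx 16 n = conj (2/n)₃`); multiplicative in `(s, n)` -/
noncomputable def Fc (q : O) (η : O → ℂ) (m s n : O) : ℂ :=
  one q s * Wt s n * (tau0 n * al n * rc η 16 n) * G0 m s n

/-- the constant in the dual Gaussian -/
noncomputable def cc (q : O) : ℝ := 2 * Real.pi / (Real.sqrt 3 * nm q)

open Classical in
/-- the dual summand -/
noncomputable def tm (q : O) (η : O → ℂ) (a N R K : ℝ) (r m s n : O) : ℂ :=
  ph q m * Fc q η m s n * (if r ∣ n then 1 else 0) *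
    ((K / (nm s * Real.sqrt (nm s) * nm n) : ℝ) : ℂ) *
    (LN a (N * nm r) 0 (nm n) * LN a R 0 (nm s) *
      ((Real.exp (-(cc q * K * nm m / (nm s * nm n))) : ℝ) : ℂ))

/-- the part of row `u` (`m = u l⁶`) -/
noncomputable def Ir (q : O) (η : O → ℂ) (a N R K : ℝ) (r u : O) : ℂ :=
  ∑' t : Pr × Pr × Pr, tm q η a N R K r (u * t.1 ^ 6) t.2.1 t.2.2

/-- the coefficient of the triple Dirichlet series of row `u` -/
noncomputable def F3 (q : O) (η : O → ℂ) (u l s n : O) : ℂ := one q l * Fc q η (u * l ^ 6) s n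

/-- the monomial -/
noncomputable def mono (x w z : ℂ) (l s n : O) : ℂ :=
  (nm l : ℂ) ^ (-(6 * z)) * (nm s : ℂ) ^ (-(1 + w)) * (nm n : ℂ) ^ (-(1 / 2 + x))

open Classical in
/-- the marked triple Dirichlet series -/
noncomputable def D3 (q : O) (η : O → ℂ) (u r : O) (x w z : ℂ) : ℂ :=
  ∑' t : Pr × Pr × Pr, F3 q η u t.1 t.2.1 t.2.2 * (if r ∣ (t.2.2 : O) then 1 else 0) *
    mono x w z t.1 t.2.1 t.2.2

/-- the probe -/
noncomputable def II (q : O) (η : O → ℂ) (a : ℝ) (J : ℕ) (Ps : Finset O) (ω : O → ℂ)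
    (N R K : ℝ) : ℂ :=
  prb (fun R K r => (((2 * Real.pi) ^ 3 : ℝ) : ℂ) * (nm q * I0 q η a N R K r)) η ω Ps J R K

/-- the part of row `u` of the probe -/
noncomputable def Iu (q : O) (η : O → ℂ) (a : ℝ) (J : ℕ) (Ps : Finset O) (ω : O → ℂ)
    (N R K : ℝ) (u : O) : ℂ :=
  prb (fun R K r => (((2 * Real.pi) ^ 3 : ℝ) : ℂ) * Ir q η a N R K r u) η ω Ps J R K

/-! ### local factors -/

/-- the primary primes -/
abbrev PrP : Type := {p : O // Prime p ∧ Prim p}

/-- `V = Q^{-6z}` -/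
noncomputable def lV (q p : O) (z : ℂ) : ℂ := one q p * (nm p : ℂ) ^ (-(6 * z))

/-- `W = conj χ · Q^{-w}` -/
noncomputable def lW (q u p : O) (w : ℂ) : ℂ := rc (one q) (u ^ 5) p * (nm p : ℂ) ^ (-w)

/-- `D = η χ Q^{-x}` -/
noncomputable def lD (η : O → ℂ) (u p : O) (x : ℂ) : ℂ := rc η u p * (nm p : ℂ) ^ (-x)

/-- the ratio of the recursion `(ι, ν) ↦ (ι + 1, ν + 6)` -/
noncomputable def lρ (η : O → ℂ) (p : O) (x z : ℂ) : ℂ :=
  (al p * η p) ^ 6 * (nm p : ℂ) ^ (4 - 6 * x - 6 * z)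

/-- `S = Q^{-1-w}` -/
noncomputable def lS (p : O) (w : ℂ) : ℂ := (nm p : ℂ) ^ (-(1 + w))

/-- `Y = Q^{-1/2-x}` -/
noncomputable def lY (p : O) (x : ℂ) : ℂ := (nm p : ℂ) ^ (-(1 / 2 + x))

/-- the finite sum in the closed form of the marked local factor -/
noncomputable def fin36 (a : ℕ → ℕ → ℕ → ℂ) (V S Y : ℂ) : ℂ :=
  ∑ σ ∈ Finset.range 2, ∑ ν ∈ Finset.range 6,
    (a 0 σ (ν + 1) * (1 - V) + a 1 σ (ν + 1) * (V * (1 - V)) + a 2 σ (ν + 1) * V ^ 2) *
      (S ^ σ * Y ^ (ν + 1))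

/-- `P* (1 - V) (1 - ρ)` -/
noncomputable def Nn (q : O) (η : O → ℂ) (u p : O) (x w z : ℂ) : ℂ :=
  fin36 (fun ι σ ν => F3 q η u (p ^ ι) (p ^ σ) (p ^ ν)) (lV q p z) (lS p w) (lY p x)

/-- the normalised marked local factor `P* (1 - V)(1 - W) / (1 - D)` -/
noncomputable def Hs (q : O) (η : O → ℂ) (u p : O) (x w z : ℂ) : ℂ :=
  Nn q η u p x w z * (1 - lW q u p w) / ((1 - lρ η p x z) * (1 - lD η u p x))

/-- the normalised local factor `P (1 - V)(1 - W) / (1 - D)` -/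
noncomputable def Hp (q : O) (η : O → ℂ) (u p : O) (x w z : ℂ) : ℂ :=
  (1 - lW q u p w * lV q p z) / (1 - lD η u p x) + Hs q η u p x w z

/-- the normalised slot factor -/
noncomputable def hp (q : O) (η : O → ℂ) (u p : O) (x w z : ℂ) : ℂ :=
  conj (η p) * (nm p : ℂ) ^ x * Hs q η u p x w z - (nm p : ℂ) ^ (-w) * Hp q η u p x w z

/-- the slot factor with its weight -/
noncomputable def yp (q : O) (η ω : O → ℂ) (u p : O) (x w z : ℂ) : ℂ :=
  ω p * (nm p : ℂ) ^ (z - 1 / 2) * hp q η u p x w z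

/-- the coefficient of `T^J` in `∏_{p ∈ T} (H p + y p · T)` -/
noncomputable def Es {ι : Type} [DecidableEq ι] (T : Finset ι) (J : ℕ) (y H : ι → ℂ) : ℂ :=
  ∑ A ∈ T.powersetCard J, (∏ p ∈ A, y p) * ∏ p ∈ T \ A, H p

open Classical in
/-- the product over the primes outside `Ps` -/
noncomputable def Hout (q : O) (η : O → ℂ) (Ps : Finset O) (u : O) (x w z : ℂ) : ℂ :=
  ∏' p : PrP, if (p : O) ∈ Ps then 1 else Hp q η u p x w z

open Classical in
/-- the function `𝓗_u` -/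
noncomputable def HH (q : O) (η : O → ℂ) (J : ℕ) (Ps : Finset O) (ω : O → ℂ) (u : O)
    (x w z : ℂ) : ℂ :=
  ph q u * (Es Ps J (fun p => yp q η ω u p x w z) (fun p => Hp q η u p x w z) * Hout q η Ps u x w z)

/-- the factor of the main term -/
noncomputable def H0 (q : O) (η : O → ℂ) (x : ℂ) : ℂ := ∏' p : PrP, Hp q η 1 p x 1 (1 / 6)

/-- the common region (use `0 < c ≤ 1/50`) -/
def Og (c : ℝ) : Set (ℂ × ℂ × ℂ) :=
  {v | 101 / 200 < v.1.re ∧ -1 / 100 < v.2.1.re ∧ 4 / 25 < v.2.2.re ∧ 1 + c < v.1.re + v.2.1.re ∧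
    21 / 25 < v.1.re + v.2.2.re ∧ 7 / 5 < v.2.1.re + 6 * v.2.2.re ∧
    23 / 10 < v.1.re + v.2.1.re + 6 * v.2.2.re}

theorem sub_Og {e : ℝ} : Om1 e ∪ Om2 ⊆ Og (min e (1 / 50)) := by
  have h1 := min_le_left e (1 / 50)
  have h2 := min_le_right e (1 / 50)
  rintro v (⟨a, b, c, d⟩ | ⟨a, b, c⟩) <;> refine ⟨?_, ?_, ?_, ?_, ?_, ?_, ?_⟩ <;> linarith

theorem seven_le_nm {q p : O} (hq : Lev q) (hp : Prime p) (h : ¬ p ∣ q) : 7 ≤ nm p := by
  have h1 := nN_mod_six (hq.coprime_six (hp.irreducible.coprime_iff_not_dvd.2 h))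
  have h2 := two_le_nm hp
  unfold nm at h2 ⊢
  have h3 : 2 ≤ nN p := by exact_mod_cast h2
  have h4 : 7 ≤ nN p := by omega
  exact_mod_cast h4

theorem cc_pos {q : O} (hq : q ≠ 0) : 0 < cc q := by
  have := nm_pos hq
  unfold cc; positivity

theorem Row.ne_zero {q u : O} (h : Row q u) : u ≠ 0 := by
  rintro rfl
  exact h.2 lam prime_lam (dvd_zero _)

theorem row_one (q : O) : Row q 1 :=
  ⟨isCoprime_one_left, fun p hp h => hp.not_isUnit (isUnit_of_dvd_one
    ((dvd_pow_self p (by norm_num)).trans h))⟩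

end Crest.Agent.R17.HI
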