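import Crest.Agent.R17.I.Def

/-!
Row 17, block I (owner helper88): Euler product for multiplicative functions of three variables.
-/

set_option autoImplicit false

namespace Crest.Agent.R17.HI

open scoped ComplexConjugate

/-- `t` only involves primes of `T` -/
def Sm (T : Finset PrP) (t : Pr × Pr × Pr) : Prop :=
  ∀ p : PrP, (p : O) ∣ (t.1 : O) * t.2.1 * t.2.2 → p ∈ T

/-- `n = p ^ k n'` with `p ∤ n'`, uniquely -/
theorem exists_pow_mul (p : PrP) (n : Pr) : ∃ (k : ℕ) (n' : Pr), ¬ (p : O) ∣ n' ∧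
    (n : O) = (p : O) ^ k * n' := by
  obtain ⟨k, m, hm, e⟩ := WfDvdMonoid.max_power_factor (Pr_prim n).ne_zero p.2.1.irreducible
  exact ⟨k, ⟨m, (p.2.2.pow k).of_mul (e ▸ Pr_prim n)⟩, hm, e⟩

theorem pow_mul_inj (p : PrP) {k k' : ℕ} {n n' : O} (h : ¬ (p : O) ∣ n) (h' : ¬ (p : O) ∣ n')
    (e : (p : O) ^ k * n = (p : O) ^ k' * n') : k = k' ∧ n = n' := by
  have key : ∀ {k k' : ℕ} {n n' : O}, ¬ (p : O) ∣ n → (p : O) ^ k * n = (p : O) ^ k' * n' → k' ≤ k := by
    intro k k' n n' h e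
    by_contra hlt
    obtain ⟨j, rfl⟩ : ∃ j, k' = k + (j + 1) := ⟨k' - k - 1, by omega⟩
    rw [pow_add, mul_assoc] at e
    have := mul_left_cancel₀ (pow_ne_zero k p.2.1.ne_zero) e
    exact h (this ▸ (dvd_pow_self _ (Nat.succ_ne_zero j)).mul_right _)
  obtain rfl : k = k' := le_antisymm (key h' e.symm) (key h e)
  exact ⟨rfl, mul_left_cancel₀ (pow_ne_zero k p.2.1.ne_zero) e⟩

/-- multiplying by powers of `p` -/
noncomputable def ieuler_g (p : PrP) (e : ℕ × ℕ × ℕ) (t : Pr × Pr × Pr) : Pr × Pr × Pr :=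
  (⟨(p : O) ^ e.1 * t.1, (p.2.2.pow _).mul t.1.2⟩, ⟨(p : O) ^ e.2.1 * t.2.1, (p.2.2.pow _).mul t.2.1.2⟩,
    ⟨(p : O) ^ e.2.2 * t.2.2, (p.2.2.pow _).mul t.2.2.2⟩)

theorem ieuler_inj (p : PrP) {e e' : ℕ × ℕ × ℕ} {t t' : Pr × Pr × Pr}
    (h : ¬ (p : O) ∣ (t.1 : O) * t.2.1 * t.2.2) (h' : ¬ (p : O) ∣ (t'.1 : O) * t'.2.1 * t'.2.2)
    (he : ieuler_g p e t = ieuler_g p e' t') : e = e' ∧ t = t' := by
  have a := pow_mul_inj p (fun c => h ((c.mul_right _).mul_right _))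
    (fun c => h' ((c.mul_right _).mul_right _)) (congrArg (fun x => (x.1 : O)) he)
  have b := pow_mul_inj p (fun c => h ((c.mul_left _).mul_right _))
    (fun c => h' ((c.mul_left _).mul_right _)) (congrArg (fun x => (x.2.1 : O)) he)
  have c := pow_mul_inj p (fun c => h (c.mul_left _))
    (fun c => h' (c.mul_left _)) (congrArg (fun x => (x.2.2 : O)) he)
  exact ⟨Prod.ext a.1 (Prod.ext b.1 c.1),
    Prod.ext (Subtype.ext a.2) (Prod.ext (Subtype.ext b.2) (Subtype.ext c.2))⟩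

theorem ieuler_surj (p : PrP) (t : Pr × Pr × Pr) :
    ∃ e t', ¬ (p : O) ∣ (t'.1 : O) * t'.2.1 * t'.2.2 ∧ ieuler_g p e t' = t := by
  obtain ⟨a, a', ha, ea⟩ := exists_pow_mul p t.1
  obtain ⟨b, b', hb, eb⟩ := exists_pow_mul p t.2.1
  obtain ⟨c, c', hc, ec⟩ := exists_pow_mul p t.2.2
  refine ⟨(a, b, c), (a', b', c'), fun h => ?_,
    Prod.ext (Subtype.ext ea.symm) (Prod.ext (Subtype.ext eb.symm) (Subtype.ext ec.symm))⟩
  rcases p.2.1.dvd_or_dvd h with h | h
  · exact (p.2.1.dvd_or_dvd h).elim ha hb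
  · exact hc h

theorem ieuler_prod (p : PrP) (e : ℕ × ℕ × ℕ) (t : Pr × Pr × Pr) :
    ((ieuler_g p e t).1 : O) * (ieuler_g p e t).2.1 * (ieuler_g p e t).2.2 =
      (p : O) ^ (e.1 + e.2.1 + e.2.2) * ((t.1 : O) * t.2.1 * t.2.2) := by
  simp only [ieuler_g]
  ring

theorem ieuler_sm {p : PrP} {T : Finset PrP} [DecidableEq PrP] (e : ℕ × ℕ × ℕ) {t : Pr × Pr × Pr}
    (h : Sm T t) : Sm (insert p T) (ieuler_g p e t) := by
  intro r hr
  rw [ieuler_prod] at hr
  rcases r.2.1.dvd_or_dvd hr with hr | hr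
  · have : r = p := Subtype.ext (r.2.2.eq_of_associated p.2.2
      (r.2.1.associated_of_dvd p.2.1 (r.2.1.dvd_of_dvd_pow hr)))
    rw [this]
    exact Finset.mem_insert_self _ _
  · exact Finset.mem_insert_of_mem (h r hr)

theorem ieuler_sm' {p : PrP} {T : Finset PrP} [DecidableEq PrP] {e : ℕ × ℕ × ℕ} {t : Pr × Pr × Pr}
    (hp : ¬ (p : O) ∣ (t.1 : O) * t.2.1 * t.2.2) (h : Sm (insert p T) (ieuler_g p e t)) : Sm T t := by
  intro r hr
  rcases Finset.mem_insert.1 (h r (by rw [ieuler_prod]; exact hr.mul_left _)) with rfl | h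
  · exact absurd hr hp
  · exact h

theorem ieuler_empty {t : Pr × Pr × Pr} : Sm ∅ t ↔ t = 1 := by
  constructor
  · intro h
    have key : ∀ n : Pr, (n : O) ∣ (t.1 : O) * t.2.1 * t.2.2 → n = 1 := fun n hn => by
      by_contra hne
      obtain ⟨r, hr, hr', hd⟩ := (Pr_prim n).exists_prime_dvd fun c => hne (Subtype.ext c)
      exact Finset.notMem_empty _ (h ⟨r, hr, hr'⟩ (hd.trans hn))
    exact Prod.ext (key _ ((dvd_mul_right _ _).mul_right _))
      (Prod.ext (key _ ((dvd_mul_left _ _).mul_right _)) (key _ (dvd_mul_left _ _)))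
  · rintro rfl r hr
    exact absurd (isUnit_of_dvd_one (by simpa using hr)) r.2.1.not_isUnit

section
variable {F : O → O → O → ℂ} (h1 : F 1 1 1 = 1)
  (hm : ∀ l s n l' s' n' : O, Prim l → Prim s → Prim n → Prim l' → Prim s' → Prim n' →
    IsCoprime (l * s * n) (l' * s' * n') → F (l * l') (s * s') (n * n') = F l s n * F l' s' n')
  (hs : Summable fun t : Pr × Pr × Pr => F t.1 t.2.1 t.2.2)
include hs

/-- `Summable.comp_injective` -/
theorem euler_loc (p : PrP) :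
    Summable fun e : ℕ × ℕ × ℕ => F ((p : O) ^ e.1) ((p : O) ^ e.2.1) ((p : O) ^ e.2.2) := by
  have h1 : ¬ (p : O) ∣ ((1 : Pr × Pr × Pr).1 : O) * (1 : Pr × Pr × Pr).2.1 * (1 : Pr × Pr × Pr).2.2 :=
    fun h => p.2.1.not_isUnit (isUnit_of_dvd_one (by simpa using h))
  have := hs.comp_injective (i := fun e => ieuler_g p e 1) fun e e' h => (ieuler_inj p h1 h1 h).1
  simpa [Function.comp_def, ieuler_g] using this

omit hs in
include hm in
theorem ieuler_F (p : PrP) (e : ℕ × ℕ × ℕ) {t : Pr × Pr × Pr}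
    (hp : ¬ (p : O) ∣ (t.1 : O) * t.2.1 * t.2.2) :
    F (ieuler_g p e t).1 (ieuler_g p e t).2.1 (ieuler_g p e t).2.2 =
      F ((p : O) ^ e.1) ((p : O) ^ e.2.1) ((p : O) ^ e.2.2) * F t.1 t.2.1 t.2.2 := by
  refine hm _ _ _ _ _ _ (p.2.2.pow _) (p.2.2.pow _) (p.2.2.pow _) t.1.2 t.2.1.2 t.2.2.2 ?_
  rw [← pow_add, ← pow_add]
  exact (p.2.1.coprime_iff_not_dvd.2 hp).pow_left

open Classical in
theorem ieuler_summable (T : Finset PrP) :
    Summable fun t : Pr × Pr × Pr => ‖if Sm T t then F t.1 t.2.1 t.2.2 else 0‖ :=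
  Summable.of_nonneg_of_le (fun _ => norm_nonneg _) (fun t => by split_ifs <;> simp) hs.norm

include h1 hm

open Classical in
/-- induction on `T`: for `p ∉ T` the map `(e, t) ↦ (p^e.1 t.1, p^e.2.1 t.2.1, p^e.2.2 t.2.2)` is a
bijection from `ℕ³ × {t // Sm T t}` onto `{t // Sm (insert p T) t}` (`Prim.coprime_iff`);
`tsum_mul_tsum_of_summable_norm`; `Sm ∅ t ↔ t = 1` (`Prim.exists_prime_dvd`). -/
theorem euler_fin (T : Finset PrP) :
    ∑' t : Pr × Pr × Pr, (if Sm T t then F t.1 t.2.1 t.2.2 else 0) =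
      ∏ p ∈ T, ∑' e : ℕ × ℕ × ℕ, F ((p : O) ^ e.1) ((p : O) ^ e.2.1) ((p : O) ^ e.2.2) := by
  induction T using Finset.induction_on with
  | empty =>
    rw [Finset.prod_empty, tsum_eq_single 1 fun t ht => if_neg fun h => ht (ieuler_empty.1 h),
      if_pos (ieuler_empty.2 rfl)]
    simpa using h1
  | insert p T hp ih =>
    rw [Finset.prod_insert hp, ← ih,
      tsum_mul_tsum_of_summable_norm (euler_loc hs p).norm (ieuler_summable hs T)]
    have hsm : ∀ x : (ℕ × ℕ × ℕ) × Pr × Pr × Pr,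
        F ((p : O) ^ x.1.1) ((p : O) ^ x.1.2.1) ((p : O) ^ x.1.2.2) *
          (if Sm T x.2 then F x.2.1 x.2.2.1 x.2.2.2 else 0) ≠ 0 → Sm T x.2 := fun x hx => by
      by_contra hc
      exact hx (by rw [if_neg hc, mul_zero])
    refine tsum_eq_tsum_of_ne_zero_bij (fun x => ieuler_g p x.1.1 x.1.2) (fun x y hxy => ?_)
      (fun t ht => ?_) fun x => ?_
    · have := ieuler_inj p (fun c => hp (hsm _ x.2 p c)) (fun c => hp (hsm _ y.2 p c)) hxy
      exact Subtype.ext (Prod.ext this.1 this.2)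
    · obtain ⟨e, t', ht', rfl⟩ := ieuler_surj p t
      have h2 : Sm (insert p T) (ieuler_g p e t') := by
        by_contra hc
        exact ht (if_neg hc)
      refine ⟨⟨(e, t'), ?_⟩, rfl⟩
      rw [Function.mem_support, if_pos h2, ieuler_F hm p e ht'] at ht
      rwa [Function.mem_support, if_pos (ieuler_sm' ht' h2)]
    · have h2 := hsm _ x.2
      rw [if_pos (ieuler_sm _ h2), if_pos h2, ieuler_F hm p _ fun c => hp (h2 p c)]

/-- `tendsto_tsum_of_dominated_convergence` along `atTop : Filter (Finset PrP)`: every `t` is eventually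
`T`-smooth (finitely many primes divide it: `pfs`, `mem_pfs`). -/
theorem euler3 :
    HasProd (fun p : PrP =>
        ∑' e : ℕ × ℕ × ℕ, F ((p : O) ^ e.1) ((p : O) ^ e.2.1) ((p : O) ^ e.2.2))
      (∑' t : Pr × Pr × Pr, F t.1 t.2.1 t.2.2) := by
  classical
  have h := tendsto_tsum_of_dominated_convergence (𝓕 := (Filter.atTop : Filter (Finset PrP)))
    (f := fun (T : Finset PrP) (t : Pr × Pr × Pr) => if Sm T t then F t.1 t.2.1 t.2.2 else 0)
    (g := fun t : Pr × Pr × Pr => F t.1 t.2.1 t.2.2) hs.norm (fun t => ?_)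
    (Filter.Eventually.of_forall fun T t => by split_ifs <;> simp)
  · simp only [euler_fin h1 hm hs] at h
    exact h
  · have h0 : (t.1 : O) * t.2.1 * t.2.2 ≠ 0 :=
      (((Pr_prim _).mul (Pr_prim _)).mul (Pr_prim _)).ne_zero
    refine tendsto_const_nhds.congr' ?_
    filter_upwards [Filter.eventually_ge_atTop
      ((pfs ((t.1 : O) * t.2.1 * t.2.2)).subtype fun p => Prime p ∧ Prim p)] with T hT
    have h2 : Sm T t := fun r hr => hT (Finset.mem_subtype.2 ((mem_pfs h0).2 ⟨r.2.1, r.2.2, hr⟩))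
    rw [if_pos h2]

end

end Crest.Agent.R17.HI
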