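import Crest.Agent.R17.I.Xi

/-!
Row 17, block I (owner helper88): the complete sum `G0`: twisting, multiplicativity, the CRT step of Poisson summation.
-/

set_option autoImplicit false

namespace Crest.Agent.R17.HI

open scoped ComplexConjugate

theorem per_psi (s n : O) : Per (s * n) fun k => gs 5 (-k) s * conj (sx k n) := by
  intro a b hab
  have h1 : s ∣ -a - -b := by
    have : -a - -b = -(a - b) := by ring
    rw [this]
    exact ((dvd_mul_right s n).trans hab).neg_right
  have h2 : gs 5 (-a) s = gs 5 (-b) s := per_gs 5 s _ _ h1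
  have h3 : sx a n = sx b n := sx_congr ((dvd_mul_left n s).trans hab)
  show gs 5 (-a) s * conj (sx a n) = gs 5 (-b) s * conj (sx b n)
  rw [h2, h3]

theorem per_G0 (s n : O) : Per (s * n) fun m => G0 m s n := per_FT _ _

/-- `norm_FT_le`, `norm_gs_le`, `norm_sx_le` -/
theorem norm_G0_le (m : O) {s n : O} (hs : s ≠ 0) (hn : n ≠ 0) : ‖G0 m s n‖ ≤ nm s ^ 2 * nm n := by
  have h := norm_FT_le (mul_ne_zero hs hn) (Ψ := fun k => gs 5 (-k) s * conj (sx k n)) (B := nm s)
    (fun y => by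
      rw [norm_mul, Complex.norm_conj]
      calc _ ≤ nm s * 1 :=
            mul_le_mul (norm_gs_le 5 _ hs) (norm_sx_le _ _) (norm_nonneg _) (nm_nonneg _)
        _ = _ := mul_one _) m
  rw [nm_mul] at h
  calc _ ≤ _ := h
    _ = _ := by ring

theorem G0_one (m : O) : G0 m 1 1 = 1 := by
  have hu : IsUnit ((1 : O) * 1) := by simp
  unfold G0 FT
  rw [rsum_unit hu ((per_psi 1 1).mul (per_eQ m _)), gs_unit 5 _ isUnit_one]
  simp

/-- `gs_mul_arg`, `conj_sx`, `sx_pow_mod` (`conj χ ^ 5 = χ ^ 25 = χ`), `sx_mul_left` -/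
theorem psi_mul {c s : O} (hs : IsCoprime s 6) (hc : IsCoprime c s) (n k : O) :
    gs 5 (-(c * k)) s * conj (sx (c * k) n) =
      sx c s * conj (sx c n) * (gs 5 (-k) s * conj (sx k n)) := by
  have h1 : -(c * k) = c * (-k) := by ring
  have h2 : conj (sx c s) ^ 5 = sx c s := by
    rw [conj_sx, ← pow_mul, sx_pow_mod hs hc]
    norm_num
  rw [h1, gs_mul_arg 5 (gac_ne_zero hs) hc, h2, sx_mul_left, map_mul]
  ring

/-- `FT_mul_arg`, `psi_mul`, `sx_mul_conj` -/
theorem G0_arg {c s n : O} (hs : IsCoprime s 6) (hn : IsCoprime n 6) (hc : IsCoprime c (s * n))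
    (m : O) : G0 (c * m) s n = conj (sx c s) * sx c n * G0 m s n := by
  have hcs : IsCoprime c s := hc.of_mul_right_left
  have hcn : IsCoprime c n := hc.of_mul_right_right
  have h := FT_mul_arg (mul_ne_zero (gac_ne_zero hs) (gac_ne_zero hn)) hc (per_psi s n) m
  simp only [psi_mul hs hcs] at h
  rw [gsa_FT_const_mul] at h
  have h1 := sx_mul_conj c s
  have h2 := sx_mul_conj c n
  rw [if_pos ⟨hs, hcs⟩] at h1
  rw [if_pos ⟨hn, hcn⟩] at h2
  unfold G0
  rw [← h]
  generalize FT (s * n) _ (c * m) = X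
  linear_combination (-(X * (sx c n * conj (sx c n)))) * h1 - X * h2

/-- `G0_arg`, `sx_pow_left`, `sx_pow_six` -/
theorem G0_six {l s n : O} (hs : IsCoprime s 6) (hn : IsCoprime n 6) (hl : IsCoprime l (s * n))
    (m : O) : G0 (m * l ^ 6) s n = G0 m s n := by
  have h1 := sx_pow_six l s
  have h2 := sx_pow_six l n
  rw [if_pos ⟨hs, hl.of_mul_right_left⟩] at h1
  rw [if_pos ⟨hn, hl.of_mul_right_right⟩] at h2
  rw [mul_comm m, G0_arg hs hn hl.pow_left, sx_pow_left l s (by norm_num),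
    sx_pow_left l n (by norm_num), h1, h2]
  simp

/-- `gs_mul` and `sx_mul_right` split the summand into `sx s' s ^ 5 * sx s s' ^ 5 * Ψ k * Ψ' k`;
`FT_crt` for the moduli `s n`, `s' n'`; `psi_mul` twice gives
`χ_s(s'n') conj χ_n(s'n') χ_{s'}(sn) conj χ_{n'}(sn)`; `χ_s(s')^6 = 1`;
`sx_mul_conj_swap`/`sx_recip`, `sx_sq`, `cb_recip`.  (Checked numerically.) -/
theorem G0_mul {s n s' n' : O} (hs : Prim s) (hn : Prim n) (hs' : Prim s') (hn' : Prim n')
    (h2 : IsCoprime (s * n * (s' * n')) 2) (h : IsCoprime (s * n) (s' * n')) (m : O) :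
    G0 m (s * s') (n * n') =
      eps s n' * eps s' n * eps n n' * conj (cb n n') * (G0 m s n * G0 m s' n') := by
  have s2 : IsCoprime s 2 := h2.of_mul_left_left.of_mul_left_left
  have n2 : IsCoprime n 2 := h2.of_mul_left_left.of_mul_left_right
  have s2' : IsCoprime s' 2 := h2.of_mul_left_right.of_mul_left_left
  have n2' : IsCoprime n' 2 := h2.of_mul_left_right.of_mul_left_right
  have s6 := hs.coprime_six s2
  have s6' := hs'.coprime_six s2'
  have c1 : IsCoprime s (s' * n') := h.of_mul_left_left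
  have c2 : IsCoprime n (s' * n') := h.of_mul_left_right
  have css : IsCoprime s s' := c1.of_mul_right_left
  have csn : IsCoprime s n' := c1.of_mul_right_right
  have cns : IsCoprime n s' := c2.of_mul_right_left
  have c3 : IsCoprime (s * n) s' := h.of_mul_right_left
  have e1 : s * s' * (n * n') = s * n * (s' * n') := by ring
  have e2 : (fun k => gs 5 (-k) (s * s') * conj (sx k (n * n'))) = fun k =>
      sx s' s ^ 5 * sx s s' ^ 5 *
        (gs 5 (-k) s * conj (sx k n) * (gs 5 (-k) s' * conj (sx k n'))) := by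
    funext k
    rw [gs_mul 5 hs.ne_zero hs'.ne_zero css, sx_mul_right, map_mul]
    ring
  have e3 := FT_crt (mul_ne_zero hs.ne_zero hn.ne_zero) (mul_ne_zero hs'.ne_zero hn'.ne_zero) h
    (per_psi s n) (per_psi s' n') m
  simp only [psi_mul s6 c1.symm, psi_mul s6' c3] at e3
  rw [gsa_FT_const_mul, gsa_FT_const_mul] at e3
  have p1 := sx_pow_six s' s
  have p2 := sx_pow_six s s'
  rw [if_pos ⟨s6, css.symm⟩] at p1
  rw [if_pos ⟨s6', css⟩] at p2
  have p3 := sx_mul_conj_swap hn' hs n2' s2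
  have p4 := sx_mul_conj_swap hn hs' n2 s2'
  rw [if_pos csn.symm, eps_comm] at p3
  rw [if_pos cns, eps_comm] at p4
  have p5 : conj (sx n' n) * conj (sx n n') = eps n n' * conj (cb n n') := by
    rw [sx_recip hn' hn n2' n2, ← sx_sq n n2', map_mul, conj_eps n2' n2, eps_comm n' n, map_pow]
    ring
  unfold G0
  rw [e1, e2, gsa_FT_const_mul, e3]
  simp only [sx_mul_left, map_mul]
  generalize FT (s * n) _ m = X
  generalize FT (s' * n') _ m = Y
  calc _ = sx s' s ^ 6 * sx s s' ^ 6 * (sx n' s * conj (sx s n')) * (sx n s' * conj (sx s' n)) *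
        (conj (sx n' n) * conj (sx n n')) * (X * Y) := by ring
    _ = _ := by rw [p1, p2, p3, p4, p5]; ring

/-- `FT_crt`, `Xi_mul`, `FT_Xi`, `psi_mul` -/
theorem FT_psi {q s n : O} (hq : Lev q) (hs : Prim s) (hn : Prim n) (hsq : IsCoprime s q)
    (hnq : IsCoprime n q) (m : O) :
    FT (q * (s * n)) (fun k => Xi q k * (gs 5 (-k) s * conj (sx k n))) m =
      ph q m * (sx q s * conj (sx q n) * G0 m s n) := by
  have hc : IsCoprime (s * n) q := hsq.mul_left hnq
  rw [FT_crt hq.1 (mul_ne_zero hs.ne_zero hn.ne_zero) hc.symm (per_Xi q) (per_psi s n) m]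
  simp only [Xi_mul hq (hs.mul hn) hc, psi_mul (hq.coprime_six hsq) hsq.symm]
  rw [gsa_FT_const_mul]
  exact congrArg₂ (· * ·) (FT_Xi hq m) rfl

end Crest.Agent.R17.HI
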