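import Crest.Agent.R17.I.Def
import Crest.Agent.R17.B.Gamma

/-!
Row 17, block I (owner helper88): the triple Mellin transform, abstractly.
-/

set_option autoImplicit false

namespace Crest.Agent.R17.HI

open scoped ComplexConjugate
open MeasureTheory
open Complex (I)

theorem imellina_mp : MeasurePreserving
    (fun t : ℝ × ℝ × ℝ => ((t.1 + t.2.2, t.2.1 + t.2.2, t.2.2) : ℝ × ℝ × ℝ)) volume volume := by
  have h1 : MeasurePreserving (fun p : (ℝ × ℝ) × ℝ => (id p.1, p.2 + p.1.2))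
      ((volume : Measure (ℝ × ℝ)).prod volume) ((volume : Measure (ℝ × ℝ)).prod volume) := by
    refine MeasurePreserving.skew_product (g := fun (a : ℝ × ℝ) (c : ℝ) => c + a.2)
      (MeasurePreserving.id _) (by fun_prop) (Filter.Eventually.of_forall fun a => ?_)
    exact map_add_right_eq_self _ _
  have h2 : MeasurePreserving (Prod.map (id : ℝ → ℝ) (fun z : ℝ × ℝ => (z.1 + z.2, z.2)))
      ((volume : Measure ℝ).prod ((volume : Measure ℝ).prod volume))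
      ((volume : Measure ℝ).prod ((volume : Measure ℝ).prod volume)) :=
    (MeasurePreserving.id _).prod (measurePreserving_add_prod volume volume)
  have h3 := (Measure.measurePreserving_swap.comp h1).comp Measure.measurePreserving_swap
  exact h3.comp h2

/-- the shear `(t₁, t₂, t₃) ↦ (t₁ + t₃, t₂ + t₃, t₃)` preserves the measure
(`MeasurePreserving.skew_product`/`measurePreserving_prod_add`-type lemmas, or `integrable_prod_iff'`
with `integral_add_right_eq_self`); then `Integrable.mul_prod`, `integral_prod_mul`. -/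
theorem shear3 {f g h : ℝ → ℂ} (hf : Integrable f) (hg : Integrable g) (hh : Integrable h) :
    Integrable (fun t : ℝ × ℝ × ℝ => f (t.1 + t.2.2) * g (t.2.1 + t.2.2) * h t.2.2) ∧
    ∫ t : ℝ × ℝ × ℝ, f (t.1 + t.2.2) * g (t.2.1 + t.2.2) * h t.2.2 =
      (∫ y, f y) * (∫ y, g y) * ∫ y, h y := by
  have hF : Integrable (fun t : ℝ × ℝ × ℝ => f t.1 * (g t.2.1 * h t.2.2)) volume :=
    hf.mul_prod (hg.mul_prod hh)
  have e : (fun t : ℝ × ℝ × ℝ => f (t.1 + t.2.2) * g (t.2.1 + t.2.2) * h t.2.2) =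
      (fun t : ℝ × ℝ × ℝ => f t.1 * (g t.2.1 * h t.2.2)) ∘
        (fun t : ℝ × ℝ × ℝ => ((t.1 + t.2.2, t.2.1 + t.2.2, t.2.2) : ℝ × ℝ × ℝ)) := by
    funext t
    simp only [Function.comp_apply, mul_assoc]
  refine ⟨e ▸ imellina_mp.integrable_comp_of_integrable hF, ?_⟩
  have h1 := integral_map (μ := (volume : Measure (ℝ × ℝ × ℝ))) imellina_mp.measurable.aemeasurable
    (f := fun t : ℝ × ℝ × ℝ => f t.1 * (g t.2.1 * h t.2.2))
    (by rw [imellina_mp.map_eq]; exact hF.aestronglyMeasurable)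
  rw [imellina_mp.map_eq] at h1
  have h2 : ∫ t : ℝ × ℝ × ℝ, f t.1 * (g t.2.1 * h t.2.2) =
      (∫ y, f y) * ∫ t : ℝ × ℝ, g t.1 * h t.2 :=
    integral_prod_mul (μ := volume) (ν := (volume : Measure (ℝ × ℝ))) f
      (fun t : ℝ × ℝ => g t.1 * h t.2)
  have h3 : ∫ t : ℝ × ℝ, g t.1 * h t.2 = (∫ y, g y) * ∫ y, h y :=
    integral_prod_mul (μ := volume) (ν := volume) g h
  rw [mul_assoc, ← h3, ← h2, h1]
  simp only [mul_assoc]

/-- the archimedean factor -/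
noncomputable def k3 (a : ℝ) (x w z : ℂ) : ℂ :=
  LNt a (x + z - 1 / 2) * LNt a (w + z - 1 / 2) * Complex.Gamma z

/-- the monomial -/
noncomputable def m3 (α β γ : ℝ) (x w z : ℂ) : ℂ :=
  (α : ℂ) ^ (-(x + z - 1 / 2)) * (β : ℂ) ^ (-(w + z - 1 / 2)) * (γ : ℂ) ^ (-z)

theorem norm_m3 {α β γ : ℝ} (hα : 0 < α) (hβ : 0 < β) (hγ : 0 < γ) (x w z : ℂ) :
    ‖m3 α β γ x w z‖ = α ^ (-(x.re + z.re - 1 / 2)) * β ^ (-(w.re + z.re - 1 / 2)) * γ ^ (-z.re) := by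
  unfold m3
  rw [norm_mul, norm_mul, Complex.norm_cpow_eq_rpow_re_of_pos hα,
    Complex.norm_cpow_eq_rpow_re_of_pos hβ, Complex.norm_cpow_eq_rpow_re_of_pos hγ]
  have e : ((1 / 2 : ℂ)).re = 1 / 2 := by norm_num
  simp only [Complex.neg_re, Complex.sub_re, Complex.add_re, e]

/-- one term: `shear3`, `LN_eq_VI` (with `Y = 1`, `t = 0`) on the lines `X + Z - 1/2`, `W + Z - 1/2`,
`exp_neg_eq_VI` -/
theorem mellin1 {a α β γ : ℝ} (ha : 0 < a) (hα : 0 < α) (hβ : 0 < β) (hγ : 0 < γ) (X W : ℝ) {Z : ℝ}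
    (hZ : 0 < Z) :
    Integrable (fun t : ℝ × ℝ × ℝ => k3 a (X + t.1 * I) (W + t.2.1 * I) (Z + t.2.2 * I) *
      m3 α β γ (X + t.1 * I) (W + t.2.1 * I) (Z + t.2.2 * I)) ∧
    ∫ t : ℝ × ℝ × ℝ, k3 a (X + t.1 * I) (W + t.2.1 * I) (Z + t.2.2 * I) *
        m3 α β γ (X + t.1 * I) (W + t.2.1 * I) (Z + t.2.2 * I) =
      (((2 * Real.pi) ^ 3 : ℝ) : ℂ) *
        (LN a 1 0 α * LN a 1 0 β * ((Real.exp (-γ) : ℝ) : ℂ)) := by
  obtain ⟨f1, f2⟩ := LN_eq_VI ha one_pos hα 0 (X + Z - 1 / 2)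
  obtain ⟨g1, g2⟩ := LN_eq_VI ha one_pos hβ 0 (W + Z - 1 / 2)
  obtain ⟨h1, h2⟩ := exp_neg_eq_VI hZ hγ
  obtain ⟨s1, s2⟩ := shear3 f1 g1 h1
  have e : ∀ t : ℝ × ℝ × ℝ, k3 a (X + t.1 * I) (W + t.2.1 * I) (Z + t.2.2 * I) *
      m3 α β γ (X + t.1 * I) (W + t.2.1 * I) (Z + t.2.2 * I) =
      LNt a (((X + Z - 1 / 2 : ℝ) : ℂ) + ((t.1 + t.2.2 : ℝ) : ℂ) * I + I * ((0 : ℝ) : ℂ)) *
        (((1 : ℝ) : ℂ)) ^ (((X + Z - 1 / 2 : ℝ) : ℂ) + ((t.1 + t.2.2 : ℝ) : ℂ) * I) *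
        (α : ℂ) ^ (-(((X + Z - 1 / 2 : ℝ) : ℂ) + ((t.1 + t.2.2 : ℝ) : ℂ) * I)) *
      (LNt a (((W + Z - 1 / 2 : ℝ) : ℂ) + ((t.2.1 + t.2.2 : ℝ) : ℂ) * I + I * ((0 : ℝ) : ℂ)) *
        (((1 : ℝ) : ℂ)) ^ (((W + Z - 1 / 2 : ℝ) : ℂ) + ((t.2.1 + t.2.2 : ℝ) : ℂ) * I) *
        (β : ℂ) ^ (-(((W + Z - 1 / 2 : ℝ) : ℂ) + ((t.2.1 + t.2.2 : ℝ) : ℂ) * I))) *
      (Complex.Gamma ((Z : ℂ) + t.2.2 * I) * (γ : ℂ) ^ (-((Z : ℂ) + t.2.2 * I))) := by
    intro t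
    have e1 : ((X + Z - 1 / 2 : ℝ) : ℂ) + ((t.1 + t.2.2 : ℝ) : ℂ) * I =
        (X + t.1 * I) + (Z + t.2.2 * I) - 1 / 2 := by push_cast; ring
    have e2 : ((W + Z - 1 / 2 : ℝ) : ℂ) + ((t.2.1 + t.2.2 : ℝ) : ℂ) * I =
        (W + t.2.1 * I) + (Z + t.2.2 * I) - 1 / 2 := by push_cast; ring
    rw [e1, e2]
    simp only [Complex.ofReal_zero, mul_zero, add_zero, Complex.ofReal_one, Complex.one_cpow,
      mul_one, k3, m3]
    ring
  simp only [e]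
  refine ⟨s1, s2.trans ?_⟩
  rw [f2, g2, h2]
  unfold VI
  have hp : ((Real.pi : ℝ) : ℂ) ≠ 0 := Complex.ofReal_ne_zero.2 Real.pi_ne_zero
  have k : (((2 * Real.pi) ^ 3 : ℝ) : ℂ) * (((1 / (2 * Real.pi) : ℝ) : ℂ) *
      ((1 / (2 * Real.pi) : ℝ) : ℂ) * ((1 / (2 * Real.pi) : ℝ) : ℂ)) = 1 := by
    push_cast
    field_simp
  have key : ∀ A B C c d : ℂ, d * (c * c * c) = 1 → A * B * C = d * (c * A * (c * B) * (c * C)) := by
    intro A B C c d hd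
    linear_combination (-(A * B * C)) * hd
  exact key _ _ _ _ _ k

/-- `hasSum_integral_of_summable_integral_norm` (or `integral_tsum`); the norm of the `i`-th term is
`‖c i‖ · (constant) · ‖k3‖` by `norm_m3`, `k3` is integrable by `mellin1` with `α = β = γ = 1`;
integrability of the sum: `MeasureTheory.integrable_of_summable_norm_integral`-type lemma, or
`AEStronglyMeasurable` of a countable sum and the majorant `‖k3‖ · ∑' …`. -/
theorem mellin3 {ι : Type} [Countable ι] {a : ℝ} (ha : 0 < a) (c : ι → ℂ) {α β γ : ι → ℝ}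
    (hα : ∀ i, 0 < α i) (hβ : ∀ i, 0 < β i) (hγ : ∀ i, 0 < γ i) (X W : ℝ) {Z : ℝ} (hZ : 0 < Z)
    (hs : Summable fun i =>
      ‖c i‖ * (α i ^ (-(X + Z - 1 / 2)) * β i ^ (-(W + Z - 1 / 2)) * γ i ^ (-Z))) :
    Integrable (fun t : ℝ × ℝ × ℝ => k3 a (X + t.1 * I) (W + t.2.1 * I) (Z + t.2.2 * I) *
      ∑' i, c i * m3 (α i) (β i) (γ i) (X + t.1 * I) (W + t.2.1 * I) (Z + t.2.2 * I)) ∧
    ∫ t : ℝ × ℝ × ℝ, k3 a (X + t.1 * I) (W + t.2.1 * I) (Z + t.2.2 * I) *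
        ∑' i, c i * m3 (α i) (β i) (γ i) (X + t.1 * I) (W + t.2.1 * I) (Z + t.2.2 * I) =
      (((2 * Real.pi) ^ 3 : ℝ) : ℂ) *
        ∑' i, c i * (LN a 1 0 (α i) * LN a 1 0 (β i) * ((Real.exp (-γ i) : ℝ) : ℂ)) := by
  have h1 := fun i => mellin1 ha (hα i) (hβ i) (hγ i) X W hZ
  have h0 := (mellin1 ha one_pos one_pos one_pos X W hZ).1.norm
  simp only [norm_mul, norm_m3 one_pos one_pos one_pos, Real.one_rpow, mul_one] at h0
  simp only [← tsum_mul_left, mul_left_comm _ (c _)]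
  have hn : ∀ i (t : ℝ × ℝ × ℝ), ‖c i * (k3 a (X + t.1 * I) (W + t.2.1 * I) (Z + t.2.2 * I) *
      m3 (α i) (β i) (γ i) (X + t.1 * I) (W + t.2.1 * I) (Z + t.2.2 * I))‖ =
      ‖c i‖ * (α i ^ (-(X + Z - 1 / 2)) * β i ^ (-(W + Z - 1 / 2)) * γ i ^ (-Z)) *
        ‖k3 a (X + t.1 * I) (W + t.2.1 * I) (Z + t.2.2 * I)‖ := fun i t => by
    rw [norm_mul, norm_mul, norm_m3 (hα i) (hβ i) (hγ i), mul_assoc ‖c i‖, mul_comm ‖k3 _ _ _ _‖]
    simp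
  have h2 := fun i => (h1 i).1.const_mul (c i)
  refine ⟨(h0.const_mul _).mono' (AEStronglyMeasurable.tsum fun i => (h2 i).1)
    (ae_of_all _ fun t => tsum_of_norm_bounded (hs.hasSum.mul_right _) fun i => (hn i t).le), ?_⟩
  rw [← integral_tsum_of_summable_integral_norm h2
    (by simpa only [hn, integral_const_mul] using hs.mul_right _)]
  exact tsum_congr fun i => by rw [integral_const_mul, (h1 i).2]

end Crest.Agent.R17.HI
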