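import Crest.Agent.R17.I.Mult
import Crest.Agent.R17.I.Mellin

/-!
Row 17, block I (owner helper88): Mellin representation of one row of `I0`.
-/

set_option autoImplicit false

namespace Crest.Agent.R17.HI

open scoped ComplexConjugate
open MeasureTheory
open Complex (I)

/-- the integrand of one row of `I0` -/
noncomputable def rowInt (q : O) (η : O → ℂ) (a N R K : ℝ) (r u : O) (x w z : ℂ) : ℂ :=
  ph q u * (kerH a (cc q) N R K x w z * (nm u : ℂ) ^ (-z) *
    ((nm r : ℂ) ^ (x + z - 1 / 2) * D3 q η u r x w z))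

theorem LN_div (a Y y : ℝ) : LN a Y 0 y = LN a 1 0 (y / Y) := by
  simp only [LN, div_one]

instance countable_O : Countable O := crd.symm.injective.countable

/-- powers of positive reals: write every `cpow` as `cexp (log · * ·)` (`Complex.cpow_def_of_ne_zero`,
`← Complex.ofReal_log`, `Real.log_mul`, `Real.log_div`, `Real.log_pow`, `√y = exp (log y / 2)`),
collect with `← Complex.exp_add`, `congr 1`, `ring` -/
theorem m3_eq {c₁ N R K U r l s n : ℝ} (hc : 0 < c₁) (hN : 0 < N) (hR : 0 < R) (hK : 0 < K)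
    (hU : 0 < U) (hr : 0 < r) (hl : 0 < l) (hs : 0 < s) (hn : 0 < n) (x w z : ℂ) :
    ((K / (s * Real.sqrt s * n) : ℝ) : ℂ) *
        m3 (n / (N * r)) (s / R) (c₁ * K * (U * l ^ 6) / (s * n)) x w z =
      (c₁ : ℂ) ^ (-z) * (N : ℂ) ^ (x + z - 1 / 2) * (R : ℂ) ^ (w + z - 1 / 2) * (K : ℂ) ^ (1 - z) *
        (U : ℂ) ^ (-z) * (r : ℂ) ^ (x + z - 1 / 2) *
        ((l : ℂ) ^ (-(6 * z)) * (s : ℂ) ^ (-(1 + w)) * (n : ℂ) ^ (-(1 / 2 + x))) := by
  have e0 : ((K / (s * Real.sqrt s * n) : ℝ) : ℂ) =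
      Complex.exp ((Real.log K : ℂ) - 3 / 2 * Real.log s - Real.log n) := by
    have h1 : K / (s * Real.sqrt s * n) =
        Real.exp (Real.log K - 3 / 2 * Real.log s - Real.log n) := by
      have hsq := Real.sqrt_pos.2 hs
      rw [← Real.exp_log (x := K / (s * Real.sqrt s * n)) (by positivity),
        Real.log_div hK.ne' (by positivity), Real.log_mul (by positivity) hn.ne',
        Real.log_mul hs.ne' hsq.ne', Real.log_sqrt hs.le]
      congr 1
      ring
    rw [h1]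
    push_cast
    rfl
  have l1 : Real.log (n / (N * r)) = Real.log n - Real.log N - Real.log r := by
    rw [Real.log_div hn.ne' (by positivity), Real.log_mul hN.ne' hr.ne']
    ring
  have l2 : Real.log (s / R) = Real.log s - Real.log R := Real.log_div hs.ne' hR.ne'
  have l3 : Real.log (c₁ * K * (U * l ^ 6) / (s * n)) = Real.log c₁ + Real.log K + Real.log U +
      6 * Real.log l - Real.log s - Real.log n := by
    rw [Real.log_div (by positivity) (by positivity), Real.log_mul (by positivity) (by positivity),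
      Real.log_mul hc.ne' hK.ne', Real.log_mul hU.ne' (by positivity), Real.log_pow,
      Real.log_mul hs.ne' hn.ne']
    push_cast
    ring
  rw [e0, m3, LNa_cpow (x := n / (N * r)) (by positivity), LNa_cpow (x := s / R) (by positivity),
    LNa_cpow (x := c₁ * K * (U * l ^ 6) / (s * n)) (by positivity), l1, l2, l3]
  simp only [LNa_cpow hc, LNa_cpow hN, LNa_cpow hR, LNa_cpow hK, LNa_cpow hU, LNa_cpow hr,
    LNa_cpow hl, LNa_cpow hs, LNa_cpow hn, ← Complex.exp_add]
  congr 1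
  push_cast
  ring

/-- `mellin3` over `Pr × Pr × Pr` with `c t = ph q u * F3 … * (mark) * K / (N s √(N s) N n)`
(`ph_mul`, `one_pow_six`); the summability hypothesis is `summable_F3_real` after taking norms in
`m3_eq` (`norm_m3` at real points), `tsum_mul_left`. -/
theorem Ir_eq {q : O} {η : O → ℂ} (hq : Lev q) (hη : IsTw q η) {a N R K : ℝ} (ha : 0 < a)
    (hN : 0 < N) (hR : 0 < R) (hK : 0 < K) {r u : O} (hr : r ≠ 0) (hu : u ≠ 0) {X W Z : ℝ}
    (hX : 3 ≤ X) (hW : 3 ≤ W) (hZ : 17 / 50 ≤ Z) :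
    Integrable (fun t : ℝ × ℝ × ℝ =>
      rowInt q η a N R K r u (X + t.1 * I) (W + t.2.1 * I) (Z + t.2.2 * I)) ∧
    (((2 * Real.pi) ^ 3 : ℝ) : ℂ) * Ir q η a N R K r u = ∫ t : ℝ × ℝ × ℝ,
      rowInt q η a N R K r u (X + t.1 * I) (W + t.2.1 * I) (Z + t.2.2 * I) := by
  classical
  have hc := cc_pos hq.1
  have hr' := nm_pos hr
  have hu' := nm_pos hu
  have hp : ∀ n : Pr, 0 < nm (n : O) := fun n => nm_pos (Pr_prim n).ne_zero
  set g : O → ℂ := fun n => if r ∣ n then 1 else 0 with hg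
  set c : Pr × Pr × Pr → ℂ := fun t => ph q u * (F3 q η u t.1 t.2.1 t.2.2 * g t.2.2) *
    ((K / (nm t.2.1 * Real.sqrt (nm t.2.1) * nm t.2.2) : ℝ) : ℂ) with hcdef
  set α : Pr × Pr × Pr → ℝ := fun t => nm t.2.2 / (N * nm r) with hα
  set β : Pr × Pr × Pr → ℝ := fun t => nm t.2.1 / R with hβ
  set γ : Pr × Pr × Pr → ℝ := fun t => cc q * K * (nm u * nm t.1 ^ 6) / (nm t.2.1 * nm t.2.2)
    with hγ
  have hα0 : ∀ t, 0 < α t := fun t => by have := hp t.2.2; positivity
  have hβ0 : ∀ t, 0 < β t := fun t => by have := hp t.2.1; positivity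
  have hγ0 : ∀ t, 0 < γ t := fun t => by
    have := hp t.1; have := hp t.2.1; have := hp t.2.2; positivity
  set A : ℂ → ℂ → ℂ → ℂ := fun x w z => ph q u * ((cc q : ℂ) ^ (-z) * (N : ℂ) ^ (x + z - 1 / 2) *
    (R : ℂ) ^ (w + z - 1 / 2) * (K : ℂ) ^ (1 - z) * (nm u : ℂ) ^ (-z) *
    (nm r : ℂ) ^ (x + z - 1 / 2)) with hA
  have key : ∀ (t : Pr × Pr × Pr) (x w z : ℂ), c t * m3 (α t) (β t) (γ t) x w z =
      A x w z * (F3 q η u t.1 t.2.1 t.2.2 * g t.2.2 * mono x w z t.1 t.2.1 t.2.2) := by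
    intro t x w z
    have := m3_eq hc hN hR hK hu' hr' (hp t.1) (hp t.2.1) (hp t.2.2) x w z
    simp only [hcdef, hα, hβ, hγ, hA, mono]
    rw [mul_assoc (ph q u * _), this]
    ring
  have hs : Summable fun t => ‖c t‖ *
      (α t ^ (-(X + Z - 1 / 2)) * β t ^ (-(W + Z - 1 / 2)) * γ t ^ (-Z)) := by
    have h1 := (summable_F3 hq hη u (x := X) (w := W) (z := Z) (by simpa using hX)
      (by simpa using hW) (by simpa using hZ) (g := g) (M := 1) (fun n => by
        simp only [hg]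
        split_ifs <;> simp)).mul_left (A X W Z)
    refine h1.norm.congr fun t => ?_
    rw [← key, norm_mul, norm_m3 (hα0 t) (hβ0 t) (hγ0 t)]
    simp only [Complex.ofReal_re]
  have hm := mellin3 ha c hα0 hβ0 hγ0 X W (Z := Z) (by linarith) hs
  have e1 : ∀ x w z : ℂ, k3 a x w z * ∑' t, c t * m3 (α t) (β t) (γ t) x w z =
      rowInt q η a N R K r u x w z := by
    intro x w z
    simp only [key, tsum_mul_left, hA, rowInt, kerH, k3, D3, hg]
    ring
  have e2 : ∑' t, c t * (LN a 1 0 (α t) * LN a 1 0 (β t) * ((Real.exp (-γ t) : ℝ) : ℂ)) =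
      Ir q η a N R K r u := by
    refine tsum_congr fun t => ?_
    simp only [tm, hcdef, hα, hβ, hγ, hg, F3, ← LN_div, ph_mul ((Pr_prim t.1).pow 6), one_pow_six,
      nm_mul, nm_pow]
    ring
  simp only [e1, e2] at hm
  exact ⟨hm.1, hm.2.symm⟩

end Crest.Agent.R17.HI
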