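import Crest.Agent.R17.I.Smd

/-!
Row 17, block I (owner helper88): Poisson summation and the row decomposition.
-/

set_option autoImplicit false

namespace Crest.Agent.R17.HI

open scoped ComplexConjugate

variable {q : O} {η : O → ℂ} {a N R K : ℝ} {r : O}

/-- one pair `(s, n)`.  Not prime to `q`: both sides vanish (`smd_zero`, `Fc_zero_left`,
`Fc_zero_right`).  Else `poisson` modulo `q * (s * n)` for `Xi q k * (gs 5 (-k) s * conj (sx k n))`,
`FT_psi`, `exp_eq_gw`; `sx (q ^ 5) s * sx q s = 1`, `sx (16 * q) n * conj (sx q n) = sx 16 n`. -/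
theorem pois_pair (hq : Lev q) (hη : IsTw q η) (hK : 0 < K) {s n : O} (hs : Prim s) (hn : Prim n) :
    (nm q : ℂ) * ∑' k : O, Xi q k * gw K k * smd q η a N R r k s n =
      ∑' m : O, tm q η a N R K r m s n := by
  by_cases hc : IsCoprime s q ∧ IsCoprime n q
  swap
  · have h1 : ∀ m, tm q η a N R K r m s n = 0 := fun m => by
      have : Fc q η m s n = 0 := by
        rcases not_and_or.1 hc with h | h
        · exact Fc_zero_left η m n h
        · exact Fc_zero_right hη m s h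
      rw [tm, this]
      simp
    simp [smd_zero hη _ hc, h1]
  classical
  obtain ⟨hsq, hnq⟩ := hc
  have hs0 := hs.ne_zero
  have hn0 := hn.ne_zero
  have hQ : q * (s * n) ≠ 0 := mul_ne_zero hq.1 (mul_ne_zero hs0 hn0)
  have hper : Per (q * (s * n)) fun k => Xi q k * (gs 5 (-k) s * conj (sx k n)) :=
    ((per_Xi q).mono (dvd_mul_right _ _)).mul ((per_psi s n).mono (dvd_mul_left _ _))
  set A : ℂ := Wt s n * (rc (one q) (q ^ 5) s * LN a R 0 (nm s) / (Real.sqrt (nm s) : ℂ)) *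
    (if r ∣ n then tau0 n * al n * rc η (16 * q) n * LN a (N * nm r) 0 (nm n) else 0) with hA
  have e1 : ∀ k : O, Xi q k * gw K k * smd q η a N R r k s n =
      A * (Xi q k * (gs 5 (-k) s * conj (sx k n)) * gw K k) := fun k => by
    rw [smd, hA]
    split_ifs <;> ring
  simp only [e1]
  rw [tsum_mul_left, poisson hQ hper hK, ← tsum_mul_left, ← tsum_mul_left, ← tsum_mul_left]
  refine tsum_congr fun m => ?_
  have k1 : sx (q ^ 5) s * sx q s = 1 := by
    rw [sx_pow_left _ _ (by norm_num), ← pow_succ, sx_pow_six,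
      if_pos ⟨hq.coprime_six hsq, hsq.symm⟩]
  have k2 : sx q n * conj (sx q n) = 1 := by
    rw [sx_mul_conj, if_pos ⟨hq.coprime_six hnq, hnq.symm⟩]
  have n1 : (nm q : ℂ) ≠ 0 := by exact_mod_cast (nm_pos hq.1).ne'
  have n2 : (nm s : ℂ) ≠ 0 := by exact_mod_cast (nm_pos hs0).ne'
  have n3 : (nm n : ℂ) ≠ 0 := by exact_mod_cast (nm_pos hn0).ne'
  have n4 := gsa_sqrt_ne hs0
  rw [FT_psi hq hs hn hsq hnq, tm, exp_eq_gw hq.1 hK m hs0 hn0, hA, Fc]
  simp only [rc]
  rw [sx_mul_left]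
  generalize (gw (nm (q * (s * n)) / K) m : ℂ) = g
  rw [nm_mul, nm_mul]
  push_cast
  split_ifs
  · have k3 : sx (q ^ 5) s * sx q s * (sx q n * conj (sx q n)) = 1 := by rw [k1, k2, one_mul]
    field_simp
    linear_combination (Wt s n * one q s * LN a R 0 (nm s) * tau0 n * al n * η n * sx 16 n *
      LN a (N * nm r) 0 (nm n) * K * ph q m * G0 m s n * g) * k3
  · simp

/-- `Summable.tsum_prod`, `Summable.tsum_comm` on both sides -/
theorem pois (hq : Lev q) (hη : IsTw q η) (ha : 0 < a) (hN : 0 < N) (hR : 0 < R) (hK : 0 < K)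
    (hr : r ≠ 0) :
    (nm q : ℂ) * I0 q η a N R K r = ∑' t : O × Pr × Pr, tm q η a N R K r t.1 t.2.1 t.2.2 := by
  have h1 := summable_smd₃ (K := K) hq hη ha hN hR hK hr
  have h2 := summable_tm (K := K) hq hη ha hN hR hK hr
  rw [I0, h2.tsum_prod, ← Summable.tsum_comm (f := fun (m : O) (t : Pr × Pr) =>
    tm q η a N R K r m t.1 t.2) h2]
  simp only [← tsum_mul_left]
  rw [← Summable.tsum_comm (f := fun (k : O) (t : Pr × Pr) =>
    (nm q : ℂ) * (Xi q k * gw K k * smd q η a N R r k t.1 t.2)) (h1.mul_left _)]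
  refine tsum_congr fun t => ?_
  rw [tsum_mul_left]
  exact pois_pair hq hη hK t.1.2 t.2.2

/-- `hasSum_rows`, `ph_of_not_coprime` -/
theorem hasSum_Ir (hq : Lev q) (hη : IsTw q η) (ha : 0 < a) (hN : 0 < N) (hR : 0 < R) (hK : 0 < K)
    (hr : r ≠ 0) :
    HasSum (fun u : {u : O // Row q u} => Ir q η a N R K r u) (nm q * I0 q η a N R K r) := by
  rw [pois hq hη ha hN hR hK hr]
  exact hasSum_rows hq (f := fun t : O × Pr × Pr => tm q η a N R K r t.1 t.2.1 t.2.2)
    (summable_tm hq hη ha hN hR hK hr) (fun m b h => by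
      simp only [tm, ph_of_not_coprime h, zero_mul])

theorem nS_pos {S : Finset O} (h : ∀ p ∈ S, p ≠ 0) : 0 < nS S := by
  exact Finset.prod_pos fun p hp => nm_pos (h p hp)

/-- field `rows` of `High`: `hasSum_sum`, `HasSum.mul_left` -/
theorem rows_Iu (hq : Lev q) (hη : IsTw q η) (ha : 0 < a) (J : ℕ) {P : ℝ} {Ps : Finset O}
    {ω : O → ℂ} (hS : Slots q P Ps ω) (hN : 0 < N) (hR : 0 < R) (hK : 0 < K) :
    HasSum (fun u : {u : O // Row q u} => Iu q η a J Ps ω N R K u) (II q η a J Ps ω N R K) := by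
  classical
  unfold Iu II prb
  refine hasSum_sum fun A hA => hasSum_sum fun S hSA => ?_
  have hAP : A ⊆ Ps := (Finset.mem_powersetCard.1 hA).1
  have h0 : ∀ p ∈ A, p ≠ 0 := fun p hp => (hS.2.1 p (hAP hp)).1.ne_zero
  have h1 : 0 < nS S := nS_pos fun p hp => h0 p (Finset.mem_powerset.1 hSA hp)
  refine HasSum.mul_left _ (HasSum.mul_left _ (hasSum_Ir hq hη ha hN (div_pos hR h1)
    (div_pos hK (pow_pos h1 2)) ?_))
  exact Finset.prod_ne_zero_iff.2 fun p hp => h0 p (Finset.sdiff_subset hp)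

end Crest.Agent.R17.HI
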