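import Crest.Agent.R17.I.Ident
import Crest.Agent.R17.I.MelRow
import Crest.Agent.R17.I.Pois

/-!
Row 17, block I (owner helper88): the high side.
-/

set_option autoImplicit false

namespace Crest.Agent.R17.HI

open scoped ComplexConjugate
open MeasureTheory

variable {q u : O} {η : O → ℂ} {x w z : ℂ}

theorem ihi_cpow {y : ℝ} (hy : 0 < y) (s : ℂ) : (y : ℂ) ^ s = Complex.exp (Real.log y * s) := by
  rw [Complex.cpow_def_of_ne_zero (by exact_mod_cast hy.ne'), Complex.ofReal_log hy.le]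

theorem ker_scale (a c₁ N : ℝ) {R K D : ℝ} (hR : 0 < R) (hK : 0 < K) (hD : 0 < D) (x w z : ℂ) :
    kerH a c₁ N (R / D) (K / D ^ 2) x w z = kerH a c₁ N R K x w z * (D : ℂ) ^ (z - w - 3 / 2) := by
  unfold kerH
  rw [ihi_cpow (div_pos hR hD), ihi_cpow (div_pos hK (pow_pos hD 2)), ihi_cpow hR, ihi_cpow hK,
    ihi_cpow hD, Real.log_div hR.ne' hD.ne', Real.log_div hK.ne' (pow_pos hD 2).ne', Real.log_pow]
  simp only [mul_assoc, ← Complex.exp_add]
  congr 6
  push_cast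
  ring

theorem cpow_prod {S : Finset O} (s : ℂ) :
    ((∏ p ∈ S, nm p : ℝ) : ℂ) ^ s = ∏ p ∈ S, (nm p : ℂ) ^ s := by
  classical
  induction S using Finset.induction_on with
  | empty => simp
  | insert p S hp ih =>
    rw [Finset.prod_insert hp, Finset.prod_insert hp, Complex.ofReal_mul,
      Complex.mul_cpow_ofReal_nonneg (nm_nonneg _) (Finset.prod_nonneg fun _ _ => nm_nonneg _), ih]

theorem prod_dvd_iff {B : Finset O} (hB : ∀ p ∈ B, Prime p ∧ Prim p) (n : O) :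
    (∏ p ∈ B, p) ∣ n ↔ ∀ p ∈ B, p ∣ n := by
  refine ⟨fun h p hp => (Finset.dvd_prod_of_mem _ hp).trans h, fun h => ?_⟩
  refine Finset.prod_dvd_of_coprime (fun p hp p' hp' hne => ?_) h
  exact Prim.coprime_of_ne (hB p hp).2 (hB p' hp').2 (hB p hp).1 (hB p' hp').1 hne

open Classical in
/-- `Finset.prod_add` (with `S` = the set where the summand `β p` is chosen), `cpow_prod`, `nm_prod`,
`prod_dvd_iff`, `Finset.prod_ite_zero`/`Finset.prod_boole` -/
theorem slots_pt {A : Finset O} (hA : ∀ p ∈ A, Prime p ∧ Prim p) (η ω : O → ℂ) (x w z : ℂ) (n : O) :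
    ∑ S ∈ A.powerset, co η ω A S * (nS S : ℂ) ^ (z - w - 3 / 2) *
        ((nm (∏ p ∈ A \ S, p) : ℂ) ^ (x + z - 1 / 2) * if (∏ p ∈ A \ S, p) ∣ n then 1 else 0) =
      (∏ p ∈ A, -(ω p * (nm p : ℂ) ^ (z - 1 / 2 - w))) * mk η A x w n := by
  have h0 : ∀ p ∈ A, (nm p : ℂ) ≠ 0 := fun p hp => by
    exact_mod_cast (nm_pos (hA p hp).1.ne_zero).ne'
  unfold mk
  rw [← Finset.prod_mul_distrib]
  simp only [mul_add, mul_one]
  rw [Finset.prod_add]
  refine Finset.sum_congr rfl fun S hS => ?_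
  have hSA := Finset.mem_powerset.1 hS
  have hB : ∀ p ∈ A \ S, Prime p ∧ Prim p := fun p hp => hA p (Finset.mem_sdiff.1 hp).1
  have e1 : (if (∏ p ∈ A \ S, p) ∣ n then (1 : ℂ) else 0) =
      ∏ p ∈ A \ S, if p ∣ n then (1 : ℂ) else 0 := by
    rw [Finset.prod_boole]
    simp only [prod_dvd_iff hB]
  unfold co nS
  rw [e1, nm_prod, cpow_prod, cpow_prod]
  have e2 : (∏ p ∈ S, -(ω p * nm p)) * ∏ p ∈ S, (nm p : ℂ) ^ (z - w - 3 / 2) =
      ∏ p ∈ S, -(ω p * (nm p : ℂ) ^ (z - 1 / 2 - w)) := by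
    rw [← Finset.prod_mul_distrib]
    refine Finset.prod_congr rfl fun p hp => ?_
    rw [show z - 1 / 2 - w = 1 + (z - w - 3 / 2) by ring, Complex.cpow_add _ _ (h0 p (hSA hp)),
      Complex.cpow_one]
    ring
  have e3 : (∏ p ∈ A \ S, ω p * conj (η p)) * ((∏ p ∈ A \ S, (nm p : ℂ) ^ (x + z - 1 / 2)) *
      ∏ p ∈ A \ S, if p ∣ n then (1 : ℂ) else 0) =
      ∏ p ∈ A \ S, -(ω p * (nm p : ℂ) ^ (z - 1 / 2 - w)) * if p ∣ n then gm η p x w else 0 := by
    rw [← Finset.prod_mul_distrib, ← Finset.prod_mul_distrib]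
    refine Finset.prod_congr rfl fun p hp => ?_
    split_ifs
    · rw [gm, show x + z - 1 / 2 = (z - 1 / 2 - w) + (x + w) by ring,
        Complex.cpow_add _ _ (h0 p (Finset.mem_sdiff.1 hp).1)]
      ring
    · simp
  rw [← e2, ← e3]
  ring

theorem yp_eq {p : O} (hp : p ≠ 0) (q : O) (η ω : O → ℂ) (u : O) (x w z : ℂ) :
    -(ω p * (nm p : ℂ) ^ (z - 1 / 2 - w)) * (Hp q η u p x w z + gm η p x w * Hs q η u p x w z) =
      yp q η ω u p x w z := by
  have h0 : (nm p : ℂ) ≠ 0 := by exact_mod_cast (nm_pos hp).ne'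
  have e1 : (nm p : ℂ) ^ (z - 1 / 2 - w) = (nm p : ℂ) ^ (z - 1 / 2) * (nm p : ℂ) ^ (-w) := by
    rw [← Complex.cpow_add _ _ h0, sub_eq_add_neg (z - 1 / 2)]
  have e2 : (nm p : ℂ) ^ x = (nm p : ℂ) ^ (-w) * (nm p : ℂ) ^ (x + w) := by
    rw [← Complex.cpow_add _ _ h0]; congr 1; ring
  unfold yp HI.hp gm
  rw [e1, e2]
  ring

/-- the integrands agree: `ker_scale`, `slots_pt` under the sum (`summable_F3`,
`Summable.tsum_finsetSum`, `tsum_mul_left`), `series_eq`, `yp_eq` -/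
theorem prb_rowInt (hq : Lev q) (hη : IsTw q η) (hu : Row q u) (a : ℝ) (J : ℕ) {P N R K : ℝ}
    {Ps : Finset O} {ω : O → ℂ} (hS : Slots q P Ps ω) (hR : 0 < R) (hK : 0 < K) (hx : 3 ≤ x.re)
    (hw : 3 ≤ w.re) (hz : 17 / 50 ≤ z.re) :
    prb (fun R K r => rowInt q η a N R K r u x w z) η ω Ps J R K =
      intH q η a (cc q) N R K (HH q η J Ps ω u) u x w z := by
  classical
  have hPs : ∀ p ∈ Ps, Prime p ∧ Prim p := fun p hp => ⟨(hS.2.1 p hp).1, (hS.2.1 p hp).2.1⟩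
  unfold prb intH HH Es
  simp only [Finset.sum_mul, Finset.mul_sum]
  refine Finset.sum_congr rfl fun A hA => ?_
  have hAP : A ⊆ Ps := (Finset.mem_powersetCard.1 hA).1
  have hAp : ∀ p ∈ A, Prime p ∧ Prim p := fun p hp => hPs p (hAP hp)
  have hsum : ∀ r : O, Summable fun t : Pr × Pr × Pr => F3 q η u t.1 t.2.1 t.2.2 *
      (if r ∣ (t.2.2 : O) then 1 else 0) * mono x w z t.1 t.2.1 t.2.2 := fun r =>
    summable_F3 hq hη u hx hw hz (g := fun n => if r ∣ n then 1 else 0) (M := 1) fun n => by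
      split_ifs <;> simp
  have key : ∑ S ∈ A.powerset, co η ω A S * (nS S : ℂ) ^ (z - w - 3 / 2) *
      ((nm (∏ p ∈ A \ S, p) : ℂ) ^ (x + z - 1 / 2) * D3 q η u (∏ p ∈ A \ S, p) x w z) =
      (∏ p ∈ A, -(ω p * (nm p : ℂ) ^ (z - 1 / 2 - w))) * ∑' t : Pr × Pr × Pr,
        F3 q η u t.1 t.2.1 t.2.2 * mk η A x w t.2.2 * mono x w z t.1 t.2.1 t.2.2 := by
    unfold D3
    simp only [← tsum_mul_left]
    rw [← Summable.tsum_finsetSum fun S _ => ((hsum _).mul_left _).mul_left _]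
    refine tsum_congr fun t => ?_
    have := slots_pt hAp η ω x w z t.2.2
    calc _ = F3 q η u t.1 t.2.1 t.2.2 * mono x w z t.1 t.2.1 t.2.2 * ∑ S ∈ A.powerset,
          co η ω A S * (nS S : ℂ) ^ (z - w - 3 / 2) *
          ((nm (∏ p ∈ A \ S, p) : ℂ) ^ (x + z - 1 / 2) *
            if (∏ p ∈ A \ S, p) ∣ (t.2.2 : O) then 1 else 0) := by
          rw [Finset.mul_sum]
          exact Finset.sum_congr rfl fun S _ => by ring
      _ = _ := by rw [this]; ring
  have hy : (∏ p ∈ A, yp q η ω u p x w z) = (∏ p ∈ A, -(ω p * (nm p : ℂ) ^ (z - 1 / 2 - w))) *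
      ∏ p ∈ A, (Hp q η u p x w z + gm η p x w * Hs q η u p x w z) := by
    rw [← Finset.prod_mul_distrib]
    exact Finset.prod_congr rfl fun p hp => (yp_eq (hAp p hp).1.ne_zero q η ω u x w z).symm
  rw [series_eq hq hη hu hAP hPs hx hw hz] at key
  calc _ = ph q u * (kerH a (cc q) N R K x w z * (nm u : ℂ) ^ (-z)) * ∑ S ∈ A.powerset,
        co η ω A S * (nS S : ℂ) ^ (z - w - 3 / 2) *
        ((nm (∏ p ∈ A \ S, p) : ℂ) ^ (x + z - 1 / 2) * D3 q η u (∏ p ∈ A \ S, p) x w z) := by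
        rw [Finset.mul_sum]
        refine Finset.sum_congr rfl fun S hS' => ?_
        have hD : 0 < nS S := nS_pos fun p hp =>
          (hAp p (Finset.mem_powerset.1 hS' hp)).1.ne_zero
        unfold rowInt
        rw [ker_scale a _ N hR hK hD]
        ring
    _ = _ := by rw [key, hy]; ring

/-- field `high` of `High`: `Ir_eq` for every pair `(A, S)`, `integrable_finset_sum`,
`integral_finset_sum`, `integral_const_mul`, `prb_rowInt` -/
theorem high (hq : Lev q) (hη : IsTw q η) {a : ℝ} (ha : 0 < a) (J : ℕ) :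
    ∀ (P : ℝ) (Ps : Finset O) (ω : O → ℂ) (N R K : ℝ) (u : O) (X W Z : ℝ), Slots q P Ps ω →
    0 < N → 0 < R → 0 < K → Row q u → 3 ≤ X → 3 ≤ W → 17 / 50 ≤ Z →
    Integrable (fun t : ℝ × ℝ × ℝ => intH q η a (cc q) N R K (HH q η J Ps ω u) u
      (X + t.1 * Complex.I) (W + t.2.1 * Complex.I) (Z + t.2.2 * Complex.I)) ∧
    Iu q η a J Ps ω N R K u = ∫ t : ℝ × ℝ × ℝ, intH q η a (cc q) N R K (HH q η J Ps ω u) u
      (X + t.1 * Complex.I) (W + t.2.1 * Complex.I) (Z + t.2.2 * Complex.I) := by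
  classical
  intro P Ps ω N R K u X W Z hS hN hR hK hu hX hW hZ
  have hPs : ∀ p ∈ Ps, Prime p ∧ Prim p := fun p hp => ⟨(hS.2.1 p hp).1, (hS.2.1 p hp).2.1⟩
  have hI : ∀ A ∈ Ps.powersetCard J, ∀ S ∈ A.powerset, _ := fun A hA S hS' =>
    Ir_eq hq hη ha hN (R := R / nS S) (K := K / nS S ^ 2) (r := ∏ p ∈ A \ S, p) (u := u)
      (div_pos hR (nS_pos fun p hp => (hPs p ((Finset.mem_powersetCard.1 hA).1
        (Finset.mem_powerset.1 hS' hp))).1.ne_zero))
      (div_pos hK (pow_pos (nS_pos fun p hp => (hPs p ((Finset.mem_powersetCard.1 hA).1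
        (Finset.mem_powerset.1 hS' hp))).1.ne_zero) 2))
      (Finset.prod_ne_zero_iff.2 fun p hp => (hPs p ((Finset.mem_powersetCard.1 hA).1
        (Finset.mem_sdiff.1 hp).1)).1.ne_zero) (Row.ne_zero hu) hX hW hZ
  have hE : (fun t : ℝ × ℝ × ℝ => intH q η a (cc q) N R K (HH q η J Ps ω u) u
      (X + t.1 * Complex.I) (W + t.2.1 * Complex.I) (Z + t.2.2 * Complex.I)) =
      fun t : ℝ × ℝ × ℝ => ∑ A ∈ Ps.powersetCard J, ∑ S ∈ A.powerset, co η ω A S *
        rowInt q η a N (R / nS S) (K / nS S ^ 2) (∏ p ∈ A \ S, p) u (X + t.1 * Complex.I)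
          (W + t.2.1 * Complex.I) (Z + t.2.2 * Complex.I) := by
    funext t
    rw [← prb_rowInt hq hη hu a J hS hR hK (by simpa using hX) (by simpa using hW)
      (by simpa using hZ)]
    rfl
  rw [hE]
  refine ⟨integrable_finsetSum _ fun A hA => integrable_finsetSum _ fun S hS' =>
    (hI A hA S hS').1.const_mul _, ?_⟩
  rw [integral_finsetSum _ fun A hA => integrable_finsetSum _ fun S hS' =>
    (hI A hA S hS').1.const_mul _]
  unfold Iu prb
  refine Finset.sum_congr rfl fun A hA => ?_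
  rw [integral_finsetSum _ fun S hS' => (hI A hA S hS').1.const_mul _]
  refine Finset.sum_congr rfl fun S hS' => ?_
  rw [integral_const_mul, ← (hI A hA S hS').2]

end Crest.Agent.R17.HI
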