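import Crest.Agent.R17.I.Prod

/-!
Row 17, block I (owner helper88): holomorphy.
-/

set_option autoImplicit false

namespace Crest.Agent.R17.HI

open scoped ComplexConjugate

/-- jointly continuous and holomorphic along entire curves -/
structure Hol (F : ℂ → ℂ → ℂ → ℂ) (Ω : Set (ℂ × ℂ × ℂ)) : Prop where
  cont : ContinuousOn (fun v : ℂ × ℂ × ℂ => F v.1 v.2.1 v.2.2) Ω
  holo : ∀ x w z : ℂ → ℂ, Differentiable ℂ x → Differentiable ℂ w → Differentiable ℂ z →
    DifferentiableOn ℂ (fun t => F (x t) (w t) (z t)) {t | (x t, w t, z t) ∈ Ω}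

variable {Ω Ω' : Set (ℂ × ℂ × ℂ)} {F G : ℂ → ℂ → ℂ → ℂ}

theorem Hol.of_diff (h : DifferentiableOn ℂ (fun v : ℂ × ℂ × ℂ => F v.1 v.2.1 v.2.2) Ω) :
    Hol F Ω := by
  refine ⟨h.continuousOn, fun x w z hx hw hz => ?_⟩
  exact h.comp (f := fun t => (x t, w t, z t)) (hx.prodMk (hw.prodMk hz)).differentiableOn
    fun t ht => ht

theorem Hol.mono (h : Hol F Ω) (h' : Ω' ⊆ Ω) : Hol F Ω' := by
  exact ⟨h.cont.mono h', fun x w z hx hw hz => (h.holo x w z hx hw hz).mono fun t ht => h' ht⟩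

theorem Hol.mul (hF : Hol F Ω) (hG : Hol G Ω) : Hol (fun x w z => F x w z * G x w z) Ω := by
  exact ⟨hF.cont.mul hG.cont, fun x w z hx hw hz =>
    (hF.holo x w z hx hw hz).mul (hG.holo x w z hx hw hz)⟩

theorem ihol_lim {ι α : Type} [TopologicalSpace α] [LocallyCompactSpace α] {f : ι → α → ℂ}
    {K : Set α} (hK : IsOpen K) {b : ι → ℝ} (hb : Summable b) (h : ∀ i, ∀ x ∈ K, ‖f i x - 1‖ ≤ b i)
    (hc : ∀ i, ContinuousOn (f i) K) :
    TendstoLocallyUniformlyOn (fun (s : Finset ι) x => ∏ i ∈ s, f i x) (fun x => ∏' i, f i x)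
      Filter.atTop K := by
  have h1 := hb.hasProdLocallyUniformlyOn_one_add (f := fun i x => f i x - 1) hK
    (Filter.Eventually.of_forall h) fun i => (hc i).sub continuousOn_const
  rw [hasProdLocallyUniformlyOn_iff_tendstoLocallyUniformlyOn] at h1
  simpa only [add_sub_cancel] using h1

/-- `Summable.hasProdLocallyUniformlyOn_one_add` on `Ω` (continuity:
`TendstoLocallyUniformlyOn.continuousOn`) and on the open set `{t | (x t, w t, z t) ∈ Ω}`
(`TendstoLocallyUniformlyOn.differentiableOn`) -/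
theorem Hol.tprod {ι : Type} {f : ι → ℂ → ℂ → ℂ → ℂ} (hΩ : IsOpen Ω) (hf : ∀ i, Hol (f i) Ω)
    {b : ι → ℝ} (hb : Summable b) (h : ∀ i x w z, (x, w, z) ∈ Ω → ‖f i x w z - 1‖ ≤ b i) :
    Hol (fun x w z => ∏' i, f i x w z) Ω := by
  refine ⟨?_, fun x w z hx hw hz => ?_⟩
  · refine (ihol_lim (f := fun i (v : ℂ × ℂ × ℂ) => f i v.1 v.2.1 v.2.2) hΩ hb
      (fun i v hv => h i _ _ _ hv) fun i => (hf i).cont).continuousOn ?_
    exact (Filter.Eventually.of_forall fun s =>
      continuousOn_finsetProd s fun i _ => (hf i).cont).frequently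
  · have ho : IsOpen {t | (x t, w t, z t) ∈ Ω} :=
      hΩ.preimage (hx.continuous.prodMk (hw.continuous.prodMk hz.continuous))
    refine (ihol_lim (f := fun i t => f i (x t) (w t) (z t)) ho hb (fun i t ht => h i _ _ _ ht)
      fun i => ((hf i).holo x w z hx hw hz).continuousOn).differentiableOn ?_ ho
    exact Filter.Eventually.of_forall fun s =>
      DifferentiableOn.fun_finsetProd fun i _ => (hf i).holo x w z hx hw hz

theorem isOpen_Og (c : ℝ) : IsOpen (Og c) := by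
  unfold Og
  simp only [Set.ofPred_and]
  refine IsOpen.inter ?_ (IsOpen.inter ?_ (IsOpen.inter ?_ (IsOpen.inter ?_ (IsOpen.inter ?_
    (IsOpen.inter ?_ ?_))))) <;> exact isOpen_lt (by fun_prop) (by fun_prop)

variable {q : O} {η : O → ℂ} {c : ℝ}

theorem ihol_cpow {p : O} (hp : p ≠ 0) {f : ℂ × ℂ × ℂ → ℂ} (hf : Differentiable ℂ f) :
    Differentiable ℂ fun v => (nm p : ℂ) ^ f v :=
  hf.const_cpow (.inl (by exact_mod_cast (nm_pos hp).ne'))

theorem ihol_lV {p : O} (hp : p ≠ 0) : Differentiable ℂ fun v : ℂ × ℂ × ℂ => lV q p v.2.2 :=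
  (ihol_cpow hp (by fun_prop)).const_mul _

theorem ihol_lW (u : O) {p : O} (hp : p ≠ 0) :
    Differentiable ℂ fun v : ℂ × ℂ × ℂ => lW q u p v.2.1 :=
  (ihol_cpow hp (by fun_prop)).const_mul _

theorem ihol_lD (u : O) {p : O} (hp : p ≠ 0) :
    Differentiable ℂ fun v : ℂ × ℂ × ℂ => lD η u p v.1 :=
  (ihol_cpow hp (by fun_prop)).const_mul _

theorem ihol_lρ {p : O} (hp : p ≠ 0) :
    Differentiable ℂ fun v : ℂ × ℂ × ℂ => lρ η p v.1 v.2.2 :=
  (ihol_cpow hp (by fun_prop)).const_mul _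

theorem ihol_lS {p : O} (hp : p ≠ 0) : Differentiable ℂ fun v : ℂ × ℂ × ℂ => lS p v.2.1 :=
  ihol_cpow hp (by fun_prop)

theorem ihol_lY {p : O} (hp : p ≠ 0) : Differentiable ℂ fun v : ℂ × ℂ × ℂ => lY p v.1 :=
  ihol_cpow hp (by fun_prop)

theorem ihol_Nn (u : O) {p : O} (hp : p ≠ 0) :
    Differentiable ℂ fun v : ℂ × ℂ × ℂ => Nn q η u p v.1 v.2.1 v.2.2 := by
  have hV := ihol_lV (q := q) hp
  have hS := ihol_lS hp
  have hY := ihol_lY hp
  unfold Nn fin36
  refine Differentiable.fun_sum fun σ _ => Differentiable.fun_sum fun ν _ => ?_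
  fun_prop

theorem ihol_div {S : Set (ℂ × ℂ × ℂ)} {f g : ℂ × ℂ × ℂ → ℂ} (hf : DifferentiableOn ℂ f S)
    (hg : DifferentiableOn ℂ g S) (h : ∀ v ∈ S, g v ≠ 0) :
    DifferentiableOn ℂ (fun v => f v / g v) S := by
  simp only [div_eq_mul_inv]
  exact hf.mul (hg.inv h)

theorem ihol_prod {ι : Type} {S : Set (ℂ × ℂ × ℂ)} {f : ι → ℂ × ℂ × ℂ → ℂ} {T : Finset ι}
    (hf : ∀ i ∈ T, DifferentiableOn ℂ (f i) S) :
    DifferentiableOn ℂ (fun v => ∏ i ∈ T, f i v) S := by
  classical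
  exact fun v hv => (HasFDerivWithinAt.finsetProd fun i hi =>
    (hf i hi v hv).hasFDerivWithinAt).differentiableWithinAt

theorem ihol_ne {a : ℂ} (h : ‖a‖ ≤ 1 / 2) : 1 - a ≠ 0 := by
  intro h0
  rw [← sub_eq_zero.1 h0] at h
  norm_num at h

/-- unfold; `Differentiable.const_cpow`; the denominators do not vanish by `small` -/
theorem diff_Hs (hq : Lev q) (hη : IsTw q η) (u : O) {p : O} (hp : Prime p) :
    DifferentiableOn ℂ (fun v : ℂ × ℂ × ℂ => Hs q η u p v.1 v.2.1 v.2.2) (Og c) := by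
  have h0 := hp.ne_zero
  refine ihol_div ((ihol_Nn u h0).mul ((ihol_lW u h0).const_sub 1)).differentiableOn
    (((ihol_lρ h0).const_sub 1).mul ((ihol_lD u h0).const_sub 1)).differentiableOn fun v hv => ?_
  obtain ⟨-, h1, h2⟩ := small (x := v.1) (w := v.2.1) (z := v.2.2) hq hη hp u hv
  exact mul_ne_zero (ihol_ne h2) (ihol_ne h1)

theorem diff_Hp (hq : Lev q) (hη : IsTw q η) (u : O) {p : O} (hp : Prime p) :
    DifferentiableOn ℂ (fun v : ℂ × ℂ × ℂ => Hp q η u p v.1 v.2.1 v.2.2) (Og c) := by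
  have h0 := hp.ne_zero
  refine DifferentiableOn.add (ihol_div
    (((ihol_lW u h0).mul (ihol_lV h0)).const_sub 1).differentiableOn
    ((ihol_lD u h0).const_sub 1).differentiableOn fun v hv => ?_) (diff_Hs hq hη u hp)
  exact ihol_ne (small (x := v.1) (w := v.2.1) (z := v.2.2) hq hη hp u hv).2.1

theorem diff_yp (hq : Lev q) (hη : IsTw q η) (ω : O → ℂ) (u : O) {p : O} (hp : Prime p) :
    DifferentiableOn ℂ (fun v : ℂ × ℂ × ℂ => yp q η ω u p v.1 v.2.1 v.2.2) (Og c) := by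
  have h0 := hp.ne_zero
  refine DifferentiableOn.mul ((ihol_cpow h0 (by fun_prop)).const_mul _).differentiableOn ?_
  exact (DifferentiableOn.mul ((ihol_cpow h0 (by fun_prop)).const_mul _).differentiableOn
    (diff_Hs hq hη u hp)).sub
    (DifferentiableOn.mul (ihol_cpow h0 (by fun_prop)).differentiableOn (diff_Hp hq hη u hp))

/-- `DifferentiableOn.fun_sum`, `DifferentiableOn.fun_finset_prod`, `Hol.tprod` with `exists_maj` -/
theorem hol_HH (hq : Lev q) (hη : IsTw q η) (J : ℕ) {Ps : Finset O} (h : ∀ p ∈ Ps, Prime p)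
    (ω : O → ℂ) {u : O} (hu : Row q u) (hc : 0 < c) (hc' : c ≤ 1 / 50) :
    Hol (HH q η J Ps ω u) (Og c) := by
  classical
  have h1 : Hol (fun x w z => Es Ps J (fun p => yp q η ω u p x w z) (fun p => Hp q η u p x w z))
      (Og c) := by
    refine Hol.of_diff ?_
    unfold Es
    refine DifferentiableOn.fun_sum fun A hA => DifferentiableOn.mul ?_ ?_
    · exact ihol_prod fun p hp =>
        diff_yp hq hη ω u (h p ((Finset.mem_powersetCard.1 hA).1 hp))
    · exact ihol_prod fun p hp =>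
        diff_Hp hq hη u (h p (Finset.mem_sdiff.1 hp).1)
  obtain ⟨b, hb, hb'⟩ := exists_maj hq hη hu hc hc'
  have h2 : Hol (Hout q η Ps u) (Og c) := by
    refine Hol.tprod (f := fun (p : PrP) x w z => if (p : O) ∈ Ps then 1 else Hp q η u p x w z)
      (isOpen_Og c) (fun p => Hol.of_diff ?_) hb fun p x w z hv => ?_
    · split_ifs
      · exact differentiableOn_const _
      · exact diff_Hp hq hη u p.2.1
    · split_ifs
      · rw [sub_self, norm_zero]
        exact (norm_nonneg _).trans (hb' p x w z hv)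
      · exact hb' p x w z hv
  exact (Hol.of_diff (F := fun _ _ _ => ph q u) (differentiableOn_const _)).mul (h1.mul h2)

/-- `Hol.tprod` along the curve `t ↦ (t, 1, 1/6)`, `c = 1/50`, `row_one` -/
theorem H0_holo (hq : Lev q) (hη : IsTw q η) :
    DifferentiableOn ℂ (H0 q η) {x | 43 / 50 < x.re} := by
  obtain ⟨b, hb, hb'⟩ := exists_maj (c := 1 / 50) hq hη (row_one q) (by norm_num) le_rfl
  have h1 := Hol.tprod (f := fun (p : PrP) x w z => Hp q η 1 p x w z) (isOpen_Og (1 / 50))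
    (fun p => Hol.of_diff (diff_Hp hq hη 1 p.2.1)) hb hb'
  refine (h1.holo (fun t => t) (fun _ => 1) (fun _ => 1 / 6) differentiable_id
    (differentiable_const _) (differentiable_const _)).mono fun t ht => ?_
  have ht' : 43 / 50 < t.re := ht
  have e : (1 / 6 : ℂ).re = 1 / 6 := by norm_num
  simp only [Og, Set.mem_ofPred_eq, e, Complex.one_re]
  refine ⟨?_, ?_, ?_, ?_, ?_, ?_, ?_⟩ <;> linarith

end Crest.Agent.R17.HI
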