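import Crest.Agent.R17.I.LocBd

/-!
Row 17, block I (owner helper88): infinite products over the primary primes.
-/

set_option autoImplicit false

namespace Crest.Agent.R17.HI

open scoped ComplexConjugate

/-- `Finset.norm_prod_one_add_sub_one_le`, `multipliable_one_add_of_summable`, pass to the limit -/
theorem tprod_near {ι : Type} {f : ι → ℂ} {b : ι → ℝ} (hb : Summable b) (h : ∀ i, ‖f i - 1‖ ≤ b i) :
    Multipliable f ∧ ‖∏' i, f i - 1‖ ≤ Real.exp (∑' i, b i) - 1 ∧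
      ‖∏' i, f i‖ ≤ Real.exp (∑' i, b i) := by
  have hs : Summable fun i => ‖f i - 1‖ := Summable.of_nonneg_of_le (fun _ => norm_nonneg _) h hb
  have hm : Multipliable f := by simpa using multipliable_one_add_of_summable hs
  have h1 : ‖∏' i, f i - 1‖ ≤ Real.exp (∑' i, b i) - 1 := by
    refine le_of_tendsto' (hm.hasProd.sub_const 1).norm fun s => ?_
    have h2 := Finset.norm_prod_one_add_sub_one_le s fun i => f i - 1
    simp only [add_sub_cancel] at h2
    refine h2.trans (sub_le_sub_right (Real.exp_le_exp.2 ?_) 1)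
    exact (Finset.sum_le_sum fun i _ => h i).trans
      (hb.sum_le_tsum s fun i _ => (norm_nonneg _).trans (h i))
  refine ⟨hm, h1, ?_⟩
  have h3 := norm_add_le (∏' i, f i - 1) 1
  rw [sub_add_cancel, norm_one] at h3
  linarith

open Classical in
/-- replacing finitely many factors.  `S = A.subtype _`; `Multipliable.tprod_mul`,
`tprod_eq_prod`/`hasProd_prod_of_ne_finset_one`, `Finset.prod_subtype_of_mem` -/
theorem hasProd_replace {A : Finset O} (hA : ∀ p ∈ A, Prime p ∧ Prim p) (g : O → ℂ) {f : PrP → ℂ}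
    {a : ℂ} (h : HasProd (fun p : PrP => if (p : O) ∈ A then 1 else f p) a) :
    HasProd (fun p : PrP => if (p : O) ∈ A then g p else f p) ((∏ p ∈ A, g p) * a) := by
  have h1 : HasProd (fun p : PrP => if (p : O) ∈ A then g p else 1)
      (∏ p ∈ A.subtype fun p => Prime p ∧ Prim p, if (p : O) ∈ A then g p else 1) :=
    hasProd_prod_of_ne_finset_one fun p hp => if_neg fun h => hp (Finset.mem_subtype.2 h)
  rw [Finset.prod_subtype_of_mem (fun p => if p ∈ A then g p else 1) hA,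
    Finset.prod_congr rfl fun p hp => if_pos hp] at h1
  convert h1.mul h using 2 with p
  split_ifs <;> simp

theorem summable_PrP {σ : ℝ} (hσ : 1 < σ) : Summable fun p : PrP => nm p ^ (-σ) := by
  exact (summable_nm_rpow hσ).comp_injective Subtype.val_injective

/-- `∑_{p ∈ Ps} Q^(s - 1) ≤ C P^(s + ε)`: `Q^(s-1) = Q^(s+ε) Q^(-(1+ε))`, `summable_nm_rpow` -/
theorem sum_rpow_le {ε : ℝ} (hε : 0 < ε) : ∃ C : ℝ, 1 ≤ C ∧ ∀ (P s : ℝ) (T : Finset O), 1 ≤ P →
    0 ≤ s → (∀ p ∈ T, p ≠ 0 ∧ nm p ≤ P) → ∑ p ∈ T, nm p ^ (s - 1) ≤ C * P ^ (s + ε) := by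
  have hs := summable_nm_rpow (σ := 1 + ε) (by linarith)
  have h0 : ∀ n : O, 0 ≤ nm n ^ (-(1 + ε)) := fun n => Real.rpow_nonneg (nm_nonneg n) _
  refine ⟨1 + ∑' n : O, nm n ^ (-(1 + ε)), le_add_of_nonneg_right (tsum_nonneg h0),
    fun P s T hP hs0 hT => ?_⟩
  have hP0 : 0 ≤ P ^ (s + ε) := Real.rpow_nonneg (by linarith) _
  calc ∑ p ∈ T, nm p ^ (s - 1) ≤ ∑ p ∈ T, nm p ^ (-(1 + ε)) * P ^ (s + ε) := by
        refine Finset.sum_le_sum fun p hp => ?_
        have h1 := nm_pos (hT p hp).1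
        rw [show s - 1 = -(1 + ε) + (s + ε) by ring, Real.rpow_add h1]
        exact mul_le_mul_of_nonneg_left (Real.rpow_le_rpow h1.le (hT p hp).2 (by linarith)) (h0 p)
    _ ≤ _ := by
        rw [← Finset.sum_mul]
        exact mul_le_mul_of_nonneg_right
          ((hs.sum_le_tsum T fun n _ => h0 n).trans (le_add_of_nonneg_left zero_le_one)) hP0

/-- what a large `B₀` buys -/
structure Good (q : O) : Prop where
  lev : Lev q
  half : ∀ (η : O → ℂ) (u p : O) (c : ℝ) (x w z : ℂ), IsTw q η → Prime p → Prim p → ¬ p ∣ u → 0 < c →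
    c ≤ 1 / 50 → (x, w, z) ∈ Og c → ‖Hp q η u p x w z - 1‖ ≤ 1 / 2
  near : ∀ (η : O → ℂ) (x : ℂ), IsTw q η → 43 / 50 < x.re → ‖H0 q η x - 1‖ ≤ 1 / 2

/-- `Hp_near`, `Hp_of_dvd`; for `near` use `c = 1/50`, `tprod_near` with
`b p = if B₀ < N p then C Q^(-(51/50)) else 0`, `sum_nm_rpow_tail`, `exp (1/4) - 1 ≤ 1/2` -/
theorem exists_good : ∃ B₀ : ℝ, ∀ q : O, Lev q → (∀ p : O, Prime p → nm p ≤ B₀ → p ∣ q) → Good q := by
  classical
  obtain ⟨C, hC, h₁⟩ := Hp_near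
  obtain ⟨C', hC', h₂⟩ := sum_nm_rpow_tail (σ := 1 + 1 / 50) (by norm_num)
  have hlim : Filter.Tendsto (fun X : ℝ => C * (C' * X ^ (-(1 / 50) : ℝ))) Filter.atTop
      (nhds (C * (C' * 0))) :=
    ((tendsto_rpow_neg_atTop (by norm_num)).const_mul C').const_mul C
  rw [mul_zero, mul_zero] at hlim
  obtain ⟨B₀, hB₁, hB₂⟩ := ((hlim.eventually (ge_mem_nhds (show (0 : ℝ) < 1 / 4 by norm_num))).and
    (Filter.eventually_ge_atTop (2 * C))).exists
  have hB0 : 0 < B₀ := by linarith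
  refine ⟨B₀, fun q hq hB => ⟨hq, fun η u p c x w z hη hp hp' hu hc hc' hx => ?_,
    fun η x hη hx => ?_⟩⟩
  · by_cases hpq : p ∣ q
    · rw [Hp_of_dvd hη hp hpq]
      norm_num
    · have h3 : B₀ < nm p := not_le.1 fun h => hpq (hB p hp h)
      refine (h₁ q η u p c x w z hq hη hp hp' hu hc hc' hx).trans ?_
      have h4 : nm p ^ (-(1 + c)) ≤ nm p ^ (-1 : ℝ) :=
        Real.rpow_le_rpow_of_exponent_le (by linarith) (by linarith)
      rw [Real.rpow_neg_one] at h4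
      calc C * nm p ^ (-(1 + c)) ≤ C * (nm p)⁻¹ := by gcongr
        _ ≤ C * (2 * C)⁻¹ := by gcongr; linarith
        _ = 1 / 2 := by field_simp
  · have hO : (x, (1 : ℂ), (1 / 6 : ℂ)) ∈ Og (1 / 50) := by
      have h6 : (1 / 6 : ℂ).re = 1 / 6 := by norm_num
      refine ⟨?_, ?_, ?_, ?_, ?_, ?_, ?_⟩ <;> simp only [h6, Complex.one_re] <;> linarith
    have hb0 : ∀ p : PrP, 0 ≤ C * nm p ^ (-(1 + 1 / 50) : ℝ) := fun p =>
      mul_nonneg (by linarith) (Real.rpow_nonneg (nm_nonneg _) _)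
    have hb0' : ∀ p : PrP, 0 ≤ if B₀ < nm p then C * nm p ^ (-(1 + 1 / 50) : ℝ) else 0 := by
      intro p
      split_ifs
      · exact hb0 p
      · exact le_rfl
    have hs : Summable fun p : PrP =>
        if B₀ < nm p then C * nm p ^ (-(1 + 1 / 50) : ℝ) else 0 := by
      refine Summable.of_nonneg_of_le hb0' (fun p => ?_)
        ((summable_PrP (σ := 1 + 1 / 50) (by norm_num)).mul_left C)
      split_ifs
      · exact le_rfl
      · exact hb0 p
    have h3 := (tprod_near (f := fun p : PrP => Hp q η 1 p x 1 (1 / 6)) hs fun p => by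
      split_ifs with h
      · exact h₁ q η 1 p _ x 1 (1 / 6) hq hη p.2.1 p.2.2
          (fun h => p.2.1.not_isUnit (isUnit_of_dvd_one h)) (by norm_num) le_rfl hO
      · rw [Hp_of_dvd hη p.2.1 (hB p p.2.1 (not_lt.1 h))]
        simp).2.1
    have h4 : (∑' p : PrP, if B₀ < nm p then C * nm p ^ (-(1 + 1 / 50) : ℝ) else 0) ≤ 1 / 4 := by
      refine Real.tsum_le_of_sum_le hb0' fun S => ?_
      rw [← Finset.sum_filter, ← Finset.mul_sum]
      refine le_trans ?_ hB₁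
      have h5 := h₂ B₀ ((S.filter fun p : PrP => B₀ < nm p).map (Function.Embedding.subtype _)) hB0
        fun n hn => by
          obtain ⟨p, hp, rfl⟩ := Finset.mem_map.1 hn
          exact (Finset.mem_filter.1 hp).2.le
      rw [Finset.sum_map, show (1 - (1 + 1 / 50) : ℝ) = -(1 / 50) by norm_num] at h5
      exact mul_le_mul_of_nonneg_left h5 (by linarith)
    have h5 : Real.exp (1 / 4) ≤ 1 / (1 - 1 / 4) :=
      Real.exp_bound_div_one_sub_of_interval (by norm_num) (by norm_num)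
    have h6 := Real.exp_le_exp.2 h4
    refine h3.trans ?_
    linarith

open Classical in
theorem multipliable_Hout {q u : O} {η : O → ℂ} {c : ℝ} (hq : Lev q) (hη : IsTw q η) (hu : Row q u)
    (hc : 0 < c) (hc' : c ≤ 1 / 50) (Ps : Finset O) {x w z : ℂ} (h : (x, w, z) ∈ Og c) :
    Multipliable fun p : PrP => if (p : O) ∈ Ps then 1 else Hp q η u p x w z := by
  obtain ⟨b, hb, hb'⟩ := exists_maj hq hη hu hc hc'
  refine (tprod_near hb fun p => ?_).1
  split_ifs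
  · rw [sub_self, norm_zero]
    exact (norm_nonneg _).trans (hb' p x w z h)
  · exact hb' p x w z h

open Classical in
/-- `T ⊆ Ps` consists of primes not dividing `u`.  Majorant `C Q^(-(1+c))` off `u`; the factors at
`p ∣ u`, `p ∉ Ps` are at most `C` each (`Hp_dvd`, `hasProd_replace` with `A = (pfs u) \ Ps`,
`pow_card_pfs_le`). -/
theorem norm_prod_Hout_le {c ε : ℝ} (hc : 0 < c) (hc' : c ≤ 1 / 50) (hε : 0 < ε) : ∃ C : ℝ, 0 < C ∧
    ∀ (q u : O) (η : O → ℂ) (Ps T : Finset O) (x w z : ℂ), Lev q → IsTw q η → Row q u → T ⊆ Ps →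
    (∀ p ∈ T, Prime p ∧ Prim p ∧ ¬ p ∣ u) → (x, w, z) ∈ Og c →
    ‖∏ p ∈ T, Hp q η u p x w z‖ * ‖Hout q η Ps u x w z‖ ≤ C * nm u ^ ε := by
  obtain ⟨C₁, hC₁, h₁⟩ := Hp_near
  obtain ⟨C₂, hC₂, h₂⟩ := Hp_dvd
  obtain ⟨C₃, hC₃, h₃⟩ := pow_card_pfs_le C₂ hε
  have hs := (summable_nm_rpow (σ := 1 + c) (by linarith)).mul_left C₁
  have hs' := (summable_PrP (σ := 1 + c) (by linarith)).mul_left C₁
  have hb0 : ∀ p : O, 0 ≤ C₁ * nm p ^ (-(1 + c)) := fun p =>
    mul_nonneg (by linarith) (Real.rpow_nonneg (nm_nonneg _) _)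
  refine ⟨Real.exp (∑' p : O, C₁ * nm p ^ (-(1 + c))) *
    (C₃ * Real.exp (∑' p : PrP, C₁ * nm p ^ (-(1 + c)))), by positivity,
    fun q u η Ps T x w z hq hη hu _ hT hx => ?_⟩
  have hu0 := Row.ne_zero hu
  have hT' : ‖∏ p ∈ T, Hp q η u p x w z‖ ≤ Real.exp (∑' p : O, C₁ * nm p ^ (-(1 + c))) := by
    rw [norm_prod]
    calc ∏ p ∈ T, ‖Hp q η u p x w z‖ ≤ ∏ p ∈ T, (1 + C₁ * nm p ^ (-(1 + c))) := by
          refine Finset.prod_le_prod (fun p _ => norm_nonneg _) fun p hp => ?_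
          have h4 := h₁ q η u p c x w z hq hη (hT p hp).1 (hT p hp).2.1 (hT p hp).2.2 hc hc' hx
          have h5 := norm_sub_norm_le (Hp q η u p x w z) 1
          rw [norm_one] at h5
          linarith
      _ ≤ Real.exp (∑ p ∈ T, C₁ * nm p ^ (-(1 + c))) := Real.prod_one_add_le_exp_sum _ hb0
      _ ≤ _ := Real.exp_le_exp.2 (hs.sum_le_tsum T fun p _ => hb0 p)
  have hA : ∀ p ∈ pfs u \ Ps, Prime p ∧ Prim p ∧ p ∣ u := fun p hp =>
    (mem_pfs hu0).1 (Finset.mem_sdiff.1 hp).1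
  obtain ⟨hm, -, hle⟩ := tprod_near
    (f := fun p : PrP => if (p : O) ∈ pfs u \ Ps then 1 else
      if (p : O) ∈ Ps then 1 else Hp q η u p x w z) hs' fun p => by
      split_ifs with h4 h5
      · simpa using hb0 p
      · simpa using hb0 p
      · exact h₁ q η u p c x w z hq hη p.2.1 p.2.2
          (fun h => h4 (Finset.mem_sdiff.2 ⟨(mem_pfs hu0).2 ⟨p.2.1, p.2.2, h⟩, h5⟩)) hc hc' hx
  have h4 := hasProd_replace (fun p hp => ⟨(hA p hp).1, (hA p hp).2.1⟩)
    (fun p => Hp q η u p x w z) hm.hasProd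
  have h5 : Hout q η Ps u x w z = (∏ p ∈ pfs u \ Ps, Hp q η u p x w z) *
      ∏' p : PrP, if (p : O) ∈ pfs u \ Ps then 1 else
        if (p : O) ∈ Ps then 1 else Hp q η u p x w z := by
    rw [← h4.tprod_eq]
    refine tprod_congr fun p => ?_
    by_cases h6 : (p : O) ∈ pfs u \ Ps
    · rw [if_pos h6, if_neg (Finset.mem_sdiff.1 h6).2]
    · rw [if_neg h6]
  have h6 : ‖∏ p ∈ pfs u \ Ps, Hp q η u p x w z‖ ≤ C₃ * nm u ^ ε := by
    rw [norm_prod]
    calc ∏ p ∈ pfs u \ Ps, ‖Hp q η u p x w z‖ ≤ ∏ _p ∈ pfs u \ Ps, C₂ := by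
          refine Finset.prod_le_prod (fun p _ => norm_nonneg _) fun p hp => ?_
          obtain ⟨h7, h8, h9⟩ := hA p hp
          exact (h₂ q η u p c x w z hq hη h7 h8
            (fun h => h7.not_isUnit (hu.1.isUnit_of_dvd' h9 h)) h9 (hu.2 p h7) hc hx).1
      _ = C₂ ^ (pfs u \ Ps).card := Finset.prod_const _
      _ ≤ C₂ ^ (pfs u).card := pow_le_pow_right₀ hC₂ (Finset.card_le_card Finset.sdiff_subset)
      _ ≤ C₃ * nm u ^ ε := by
        have := h₃ u hu0
        rwa [abs_of_nonneg (by linarith)] at this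
  rw [h5, norm_mul]
  have h7 : 0 ≤ nm u ^ ε := Real.rpow_nonneg (nm_nonneg _) _
  calc _ ≤ Real.exp (∑' p : O, C₁ * nm p ^ (-(1 + c))) * (C₃ * nm u ^ ε *
        Real.exp (∑' p : PrP, C₁ * nm p ^ (-(1 + c)))) := by gcongr
    _ = _ := by ring

/-- `hasProd_replace` -/
theorem H0_eq {q : O} {η : O → ℂ} (hq : Lev q) (hη : IsTw q η) {Ps : Finset O}
    (h : ∀ p ∈ Ps, Prime p ∧ Prim p) {x : ℂ} (hx : 43 / 50 < x.re) :
    H0 q η x = (∏ p ∈ Ps, Hp q η 1 p x 1 (1 / 6)) * Hout q η Ps 1 x 1 (1 / 6) := by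
  classical
  have hO : (x, (1 : ℂ), (1 / 6 : ℂ)) ∈ Og (1 / 50) := by
    have e : (1 / 6 : ℂ).re = 1 / 6 := by norm_num
    simp only [Og, Set.mem_ofPred_eq, e, Complex.one_re]
    refine ⟨?_, ?_, ?_, ?_, ?_, ?_, ?_⟩ <;> linarith
  have h1 := hasProd_replace h (fun p => Hp q η 1 p x 1 (1 / 6))
    (multipliable_Hout hq hη (row_one q) (by norm_num) le_rfl Ps hO).hasProd
  simp only [ite_self] at h1
  exact h1.tprod_eq

end Crest.Agent.R17.HI
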