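import Crest.Agent.R17.I.Euler
import Crest.Agent.R17.I.Prod
import Crest.Agent.R17.C.Euler

/-!
Row 17, block I (owner helper88): the Euler product of the marked series.
-/

set_option autoImplicit false

namespace Crest.Agent.R17.HI

open scoped ComplexConjugate

variable {q u : O} {η : O → ℂ} {x w z : ℂ}

/-- the weight of a mark -/
noncomputable def gm (η : O → ℂ) (p : O) (x w : ℂ) : ℂ := -(conj (η p) * (nm p : ℂ) ^ (x + w))

open Classical in
/-- the multiplicative marking function -/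
noncomputable def mk (η : O → ℂ) (A : Finset O) (x w : ℂ) (n : O) : ℂ :=
  ∏ p ∈ A, (1 + if p ∣ n then gm η p x w else 0)

theorem mk_one {A : Finset O} (hA : ∀ p ∈ A, Prime p) (η : O → ℂ) (x w : ℂ) : mk η A x w 1 = 1 := by
  unfold mk
  refine Finset.prod_eq_one fun p hp => ?_
  rw [if_neg (fun h => (hA p hp).not_isUnit (isUnit_of_dvd_one h)), add_zero]

theorem mk_mul {A : Finset O} (hA : ∀ p ∈ A, Prime p) (η : O → ℂ) (x w : ℂ) {n n' : O}
    (h : IsCoprime n n') : mk η A x w (n * n') = mk η A x w n * mk η A x w n' := by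
  unfold mk
  rw [← Finset.prod_mul_distrib]
  refine Finset.prod_congr rfl fun p hp => ?_
  have hp' := hA p hp
  by_cases h1 : p ∣ n
  · have h2 : ¬ p ∣ n' := fun h2 => hp'.not_isUnit (h.isUnit_of_dvd' h1 h2)
    rw [if_pos h1, if_neg h2, if_pos (h1.mul_right _)]; ring
  · by_cases h2 : p ∣ n'
    · rw [if_neg h1, if_pos h2, if_pos (h2.mul_left _)]; ring
    · rw [if_neg h1, if_neg h2, if_neg (fun h3 => (hp'.dvd_or_dvd h3).elim h1 h2)]; ring

open Classical in
theorem mk_pow {A : Finset O} (hA : ∀ p ∈ A, Prime p ∧ Prim p) (η : O → ℂ) (x w : ℂ) (p : PrP)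
    (ν : ℕ) : mk η A x w ((p : O) ^ ν) =
      1 + if ν = 0 then 0 else if (p : O) ∈ A then gm η p x w else 0 := by
  have key : ∀ p' ∈ A, p' ≠ p → ¬ p' ∣ (p : O) ^ ν := fun p' hp' hne h =>
    (hA p' hp').1.not_isUnit ((Prim.coprime_of_ne (hA p' hp').2 p.2.2 (hA p' hp').1 p.2.1
      hne).isUnit_of_dvd' dvd_rfl ((hA p' hp').1.dvd_of_dvd_pow h))
  by_cases hν : ν = 0
  · subst hν
    rw [pow_zero, mk_one (fun p hp => (hA p hp).1), if_pos rfl, add_zero]
  rw [if_neg hν]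
  unfold mk
  by_cases hp : (p : O) ∈ A
  · rw [if_pos hp, Finset.prod_eq_single_of_mem (p : O) hp, if_pos (dvd_pow_self _ hν)]
    intro p' hp' hne
    rw [if_neg (key p' hp' hne), add_zero]
  · rw [if_neg hp, add_zero]
    refine Finset.prod_eq_one fun p' hp' => ?_
    rw [if_neg (key p' hp' fun e => hp (e ▸ hp')), add_zero]

theorem mk_bdd (η : O → ℂ) (A : Finset O) (x w : ℂ) : ∃ M : ℝ, ∀ n, ‖mk η A x w n‖ ≤ M := by
  refine ⟨∏ p ∈ A, (1 + ‖gm η p x w‖), fun n => ?_⟩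
  unfold mk
  rw [norm_prod]
  refine Finset.prod_le_prod (fun _ _ => norm_nonneg _) fun p _ => ?_
  refine (norm_add_le _ _).trans ?_
  rw [norm_one]
  split_ifs
  · exact le_rfl
  · simp

/-- `C.hasProd_euler` for `n ↦ ψ n * N(n)^(-s)`, `C.summable_norm_DS`, `C.DS_mul_DS_mu` -/
theorem euler_DS {ψ : O → ℂ} (h1 : ψ 1 = 1) (hm : ∀ a b, ψ (a * b) = ψ a * ψ b)
    (hb : ∀ a, ‖ψ a‖ ≤ 1) {s : ℂ} (hs : 1 < s.re) :
    HasProd (fun p : PrP => (1 - ψ p * (nm p : ℂ) ^ (-s))⁻¹) (DS ψ s) ∧ DS ψ s ≠ 0 := by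
  refine ⟨C.hasProd_euler (fun n => ψ n * (nm n : ℂ) ^ (-s)) (by simp [h1]) (fun a b => ?_)
    (C.summable_norm_DS (fun n => hb n) hs), ?_⟩
  · rw [hm, nm_mul, Complex.ofReal_mul, Complex.mul_cpow_ofReal_nonneg (nm_nonneg _) (nm_nonneg _)]
    ring
  · exact left_ne_zero_of_mul_eq_one (C.DS_mul_DS_mu h1 (fun a b => hm a b) (fun n => hb n) hs)

theorem iidb_rc {ψ : O → ℂ} (hq : q ≠ 0) (hψ : IsTw q ψ) (u : O) :
    rc ψ u 1 = 1 ∧ (∀ a b, rc ψ u (a * b) = rc ψ u a * rc ψ u b) ∧ ∀ a, ‖rc ψ u a‖ ≤ 1 := by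
  refine ⟨by simp [rc, hψ.one], fun a b => ?_, fun a => ?_⟩
  · simp only [rc, hψ.mul, sx_mul_right]; ring
  · rw [rc, norm_mul]
    exact mul_le_one₀ (hψ.norm_le hq a) (norm_nonneg _) (norm_sx_le _ _)

theorem mem_Og (hx : 3 ≤ x.re) (hw : 3 ≤ w.re) (hz : 17 / 50 ≤ z.re) : (x, w, z) ∈ Og (1 / 50) := by
  refine ⟨?_, ?_, ?_, ?_, ?_, ?_, ?_⟩ <;> simp only <;> linarith

open Classical in
/-- `euler3` for `F l s n = F3 q η u l s n * mk η A x w n * mono x w z l s n`; multiply by the Euler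
product of `DS (rc η u) x` (`HasProd.mul`); `loc_sum` (summability: `euler_loc` with `A = ∅`; `small`,
`norm_lW_le`) turns the local factor into `(Hp + γ Hs) (1 - V)⁻¹ (1 - W)⁻¹`; the other side is
`hasProd_replace` (twice: `A`, then `Ps \ A`; `multipliable_Hout`) times two Euler products;
`HasProd.unique`. -/
theorem series_eq (hq : Lev q) (hη : IsTw q η) (hu : Row q u) {A Ps : Finset O} (hA : A ⊆ Ps)
    (hPs : ∀ p ∈ Ps, Prime p ∧ Prim p) (hx : 3 ≤ x.re) (hw : 3 ≤ w.re) (hz : 17 / 50 ≤ z.re) :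
    ∑' t : Pr × Pr × Pr, F3 q η u t.1 t.2.1 t.2.2 * mk η A x w t.2.2 * mono x w z t.1 t.2.1 t.2.2 =
      DS (one q) (6 * z) * DS (rc (one q) (u ^ 5)) w / DS (rc η u) x *
        ((∏ p ∈ A, (Hp q η u p x w z + gm η p x w * Hs q η u p x w z)) *
          (∏ p ∈ Ps \ A, Hp q η u p x w z) * Hout q η Ps u x w z) := by
  have hAp : ∀ p ∈ A, Prime p ∧ Prim p := fun p hp => hPs p (hA hp)
  have hA1 : ∀ p ∈ A, Prime p := fun p hp => (hAp p hp).1
  have hOg := mem_Og hx hw hz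
  obtain ⟨M, hM⟩ := mk_bdd η A x w
  have E := euler3 (F := fun l s n => F3 q η u l s n * mk η A x w n * mono x w z l s n)
    (by simp only [F3_one hη, mk_one hA1, mono_one, mul_one])
    (fun l s n l' s' n' _ hs hn _ hs' hn' h => by
      simp only [F3_mul hq hη u hs hn hs' hn' h,
        mk_mul hA1 η x w (h.of_mul_left_right.of_mul_right_right), mono_mul]
      ring)
    (summable_F3 hq hη u hx hw hz hM)
  have S1 := summable_F3 hq hη u hx hw hz (g := fun _ => 1) (M := 1) (by simp)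
  have hloc : ∀ p : PrP, Summable fun e : ℕ × ℕ × ℕ =>
      F3 q η u ((p : O) ^ e.1) ((p : O) ^ e.2.1) ((p : O) ^ e.2.2) *
        mono x w z ((p : O) ^ e.1) ((p : O) ^ e.2.1) ((p : O) ^ e.2.2) := fun p => by
    have := euler_loc (F := fun l s n => F3 q η u l s n * 1 * mono x w z l s n) S1 p
    simpa only [mul_one] using this
  obtain ⟨EV, -⟩ := euler_DS (ψ := one q) (isTw_one q).one (isTw_one q).mul
    ((isTw_one q).norm_le hq.1) (s := 6 * z) (by simp; linarith)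
  obtain ⟨w1, w2, w3⟩ := iidb_rc hq.1 (isTw_one q) (u ^ 5)
  obtain ⟨EW, -⟩ := euler_DS w1 w2 w3 (s := w) (by linarith)
  obtain ⟨d1, d2, d3⟩ := iidb_rc hq.1 hη u
  obtain ⟨ED, hD0⟩ := euler_DS d1 d2 d3 (s := x) (by linarith)
  have H1 := (multipliable_Hout hq hη hu (c := 1 / 50) (by norm_num) le_rfl Ps hOg).hasProd
  have H2 := hasProd_replace hPs (fun p => if p ∈ A then
    Hp q η u p x w z + gm η p x w * Hs q η u p x w z else Hp q η u p x w z) H1
  have hprod : (∏ p ∈ Ps, if p ∈ A then Hp q η u p x w z + gm η p x w * Hs q η u p x w z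
      else Hp q η u p x w z) = (∏ p ∈ A, (Hp q η u p x w z + gm η p x w * Hs q η u p x w z)) *
        ∏ p ∈ Ps \ A, Hp q η u p x w z := by
    rw [← Finset.prod_sdiff hA, mul_comm]
    congr 1
    · exact Finset.prod_congr rfl fun p hp => if_pos hp
    · exact Finset.prod_congr rfl fun p hp => if_neg (Finset.mem_sdiff.1 hp).2
  rw [hprod] at H2
  have key := (E.mul ED).unique (((H2.mul EV).mul EW).congr_fun fun p => ?_)
  · rw [div_mul_eq_mul_div, eq_div_iff hD0, key]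
    unfold Hout
    ring
  obtain ⟨s1, s2, s3⟩ := small hq hη p.2.1 u hOg
  have hW : ‖lW q u p w‖ < 1 := by
    refine (norm_lW_le p.2.1.ne_zero q u w).trans_lt ?_
    exact Real.rpow_lt_one_of_one_lt_of_neg (by linarith [two_le_nm p.2.1]) (by linarith)
  have hρ : lρ η p x z ≠ 1 := fun h => by rw [h, norm_one] at s3; norm_num at s3
  have hD : lD η u p x ≠ 1 := fun h => by rw [h, norm_one] at s2; norm_num at s2
  have L := loc_sum hq hη p.2.1 p.2.2 (hu.2 p p.2.1) x w z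
    (if (p : O) ∈ A then gm η p x w else 0) (hloc p) (by linarith) hW hρ hD
  simp only [mk_pow hAp]
  refine L.trans ?_
  unfold lV lW
  congr 2
  by_cases h1 : (p : O) ∈ A
  · rw [if_pos h1, if_pos (hA h1), if_pos h1]
  · simp only [if_neg h1, zero_mul, add_zero, ite_self]

end Crest.Agent.R17.HI
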