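import Crest.Agent.R17.I.Mult

/-!
Row 17, block I (owner helper88): `G0` and `Fc` at powers of one prime: structure.
-/

set_option autoImplicit false

namespace Crest.Agent.R17.HI

open scoped ComplexConjugate

variable {q p : O} {η : O → ℂ}

/-- `FT_FT` (`gs 5 · s = FT s (sx · s ^ 5)`), `rsum_neg_arg` -/
theorem G0_right_one {s : O} (hs : s ≠ 0) (m : O) : G0 m s 1 = nm s * sx m s ^ 5 := by
  have h1 := FT_mul_arg hs (a := -1) isCoprime_one_left.neg_left (per_gs 5 s) (-m)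
  have h2 := FT_FT hs (gsa_per 5 s) (-m)
  simp only [neg_mul, one_mul, neg_neg] at h1 h2
  simp only [G0, mul_one, sx_one_right, map_one]
  exact h1.trans h2

/-- `gs_unit`, `conj_sx` -/
theorem G0_left_one (m n : O) : G0 m 1 n = gs 5 m n := by
  simp only [G0, one_mul, gs_unit _ _ isUnit_one, conj_sx]
  rfl

/-- the summand vanishes: `p ∣ k` kills `sx k (p ^ ν)`, `p ∤ k` kills the Gauss sum
(`gs_pow_succ_zero`) -/
theorem G0_big (hp : Prime p) (m : O) (σ ν : ℕ) : G0 m (p ^ (σ + 2)) (p ^ (ν + 1)) = 0 := by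
  have h : ∀ k, gs 5 (-k) (p ^ (σ + 2)) * conj (sx k (p ^ (ν + 1))) = 0 := by
    intro k
    by_cases hk : p ∣ k
    · rw [sx_pow_right, sx_eq_zero_of_not_coprime fun hh => (hp.coprime_iff_not_dvd.1 hh.symm) hk]
      simp
    · rw [gs_pow_succ_zero 5 (σ + 1) hp.ne_zero fun hh =>
        hk ((dvd_pow_self p (Nat.succ_ne_zero σ)).trans (dvd_neg.1 hh)), zero_mul]
  simp only [G0, h, FT, zero_mul, rsum_zero]

/-- `gs_sqfree`: `gs 5 (-k) p = sx (-1) p * sx k p * gs 5 1 p` -/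
theorem G0_p (hp : Prime p) (h6 : IsCoprime p 6) (m : O) (ν : ℕ) :
    G0 m p (p ^ ν) =
      sx (-1) p * gs 5 1 p * FT (p * p ^ ν) (fun k => sx k p ^ (5 * ν + 1)) m := by
  have h : ∀ k, gs 5 (-k) p * conj (sx k (p ^ ν)) =
      sx (-1) p * gs 5 1 p * sx k p ^ (5 * ν + 1) := by
    intro k
    have h1 : conj (sx (-k) p) ^ 5 = sx (-1) p * sx k p := by
      rw [conj_sx, ← pow_mul, show 5 * 5 = 19 + 6 from rfl, sx_pow_add_six _ _ (by norm_num),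
        show 19 = 13 + 6 from rfl, sx_pow_add_six _ _ (by norm_num), show 13 = 7 + 6 from rfl,
        sx_pow_add_six _ _ (by norm_num), show 7 = 1 + 6 from rfl, sx_pow_add_six _ _ (by norm_num),
        pow_one, ← sx_mul_left, neg_one_mul]
    rw [gs_sqfree hp.squarefree (by norm_num), h1, conj_sx, sx_pow_right]
    ring
  simp only [G0, h]
  exact gsa_FT_const_mul _ _ _ _

/-- `FT_lift` -/
theorem G0_p_dvd (hp : Prime p) (h6 : IsCoprime p 6) (m : O) (ν : ℕ) :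
    G0 (p ^ ν * m) p (p ^ ν) =
      sx (-1) p * gs 5 1 p * ((nm p : ℂ) ^ ν * gs (5 * ν + 1) m p) := by
  rw [G0_p hp h6, FT_lift hp.ne_zero (pow_ne_zero ν hp.ne_zero) (gsa_per _ p), nm_pow, gs]
  push_cast
  rfl

/-- `FT_lift_zero` -/
theorem G0_p_not_dvd (hp : Prime p) (h6 : IsCoprime p 6) {m : O} {ν : ℕ} (h : ¬ p ^ ν ∣ m) :
    G0 m p (p ^ ν) = 0 := by
  rw [G0_p hp h6, FT_lift_zero hp.ne_zero (pow_ne_zero ν hp.ne_zero) (gsa_per _ p) h, mul_zero]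

theorem iloca_far (p m : O) (σ ν : ℕ) : G0 m (p ^ σ) (p ^ (ν + 7)) =
    FT (p ^ σ * p ^ (ν + 1) * p ^ 6) (fun k => gs 5 (-k) (p ^ σ) * conj (sx k (p ^ (ν + 1)))) m := by
  have h : ∀ k, sx k (p ^ (ν + 7)) = sx k (p ^ (ν + 1)) := fun k => by
    rw [sx_pow_right, sx_pow_right]
    exact sx_pow_add_six _ _ (Nat.succ_ne_zero ν)
  simp only [G0, h]
  rw [mul_assoc, ← pow_add p (ν + 1)]

/-- `sx k (p ^ (ν + 7)) = sx k (p ^ (ν + 1))` (`sx_pow_right`, `sx_pow_add_six`), `FT_lift`, `per_psi` -/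
theorem G0_shift (hp : Prime p) (m : O) (σ ν : ℕ) :
    G0 (m * p ^ 6) (p ^ σ) (p ^ (ν + 7)) = (nm p : ℂ) ^ 6 * G0 m (p ^ σ) (p ^ (ν + 1)) := by
  rw [iloca_far, mul_comm m, FT_lift (mul_ne_zero (pow_ne_zero _ hp.ne_zero)
    (pow_ne_zero _ hp.ne_zero)) (pow_ne_zero _ hp.ne_zero) (per_psi _ _), nm_pow, G0]
  push_cast
  rfl

/-- as `G0_shift` with `FT_lift_zero` -/
theorem G0_far (hp : Prime p) {m : O} (h : ¬ p ^ 6 ∣ m) (σ ν : ℕ) :
    G0 m (p ^ σ) (p ^ (ν + 7)) = 0 := by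
  rw [iloca_far, FT_lift_zero (mul_ne_zero (pow_ne_zero _ hp.ne_zero)
    (pow_ne_zero _ hp.ne_zero)) (pow_ne_zero _ hp.ne_zero) (per_psi _ _) h]

/-- `p ^ (ν + 7) = p ^ (ν + 1) * (p ^ 2) ^ 3`: `tau0_mul_cube`; `gam_mul_sq`; `eps_mul_right`,
`eps_pow_right`, `eps_mul_self`; `sx 16 p ^ 6 = 1` -/
theorem Fc_shift (hq : Lev q) (hη : IsTw q η) (hp : Prime p) (hp' : Prim p) (hpq : ¬ p ∣ q) (m : O)
    (σ ν : ℕ) : Fc q η (m * p ^ 6) (p ^ σ) (p ^ (ν + 7)) =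
      (al p * η p) ^ 6 * (nm p : ℂ) ^ 7 * Fc q η m (p ^ σ) (p ^ (ν + 1)) := by
  have hc : IsCoprime p q := (hp.irreducible.coprime_iff_not_dvd).2 hpq
  have h2 : IsCoprime p 2 := hq.coprime_two hc
  have e : p ^ (ν + 7) = p ^ (ν + 1) * (p ^ 2) ^ 3 := by ring
  have e' : p ^ (ν + 7) = p ^ (ν + 1) * (p ^ 3) ^ 2 := by ring
  have e'' : p ^ (ν + 7) = p ^ (ν + 1) * p ^ 6 := by ring
  have h1 : tau0 (p ^ (ν + 7)) = tau0 (p ^ (ν + 1)) * (nm p : ℂ) := by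
    rw [e, tau0_mul_cube _ (hp'.pow 2), nm_pow, Real.sqrt_sq (nm_nonneg p)]
  have h3 : gam (p ^ (ν + 7)) = gam (p ^ (ν + 1)) := by
    rw [e', gam_mul_sq h2.pow_left h2.pow_left]
  have h4 : eps (p ^ σ) (p ^ (ν + 7)) = eps (p ^ σ) (p ^ (ν + 1)) := by
    rw [e', eps_mul_right h2.pow_left h2.pow_left h2.pow_left.pow_left,
      eps_pow_right h2.pow_left h2.pow_left, sq, eps_mul_self h2.pow_left h2.pow_left, mul_one]
  have h5 : al (p ^ (ν + 7)) = al (p ^ (ν + 1)) * al p ^ 6 := by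
    rw [e'', al_mul, al_pow p 6]
  have h6 : sx 16 p ^ 6 = 1 := by
    rw [sx_pow_six, if_pos]
    refine ⟨hq.coprime_six hc, ?_⟩
    rw [show (16 : O) = 2 ^ 4 by norm_num]
    exact h2.symm.pow_left
  have h7 : rc η 16 (p ^ (ν + 7)) = rc η 16 (p ^ (ν + 1)) * η p ^ 6 := by
    rw [e'', rc, rc, hη.mul, sx_mul_right, hη.map_pow p 6, sx_pow_right 16 p 6, h6]
    ring
  rw [Fc, Fc, Wt, Wt, h1, h3, h4, h5, h7, G0_shift hp]
  ring

theorem Fc_far (hp : Prime p) {m : O} (h : ¬ p ^ 6 ∣ m) (σ ν : ℕ) :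
    Fc q η m (p ^ σ) (p ^ (ν + 7)) = 0 := by
  rw [Fc, G0_far hp h, mul_zero]

theorem Fc_big (hp : Prime p) (m : O) (σ ν : ℕ) : Fc q η m (p ^ (σ + 2)) (p ^ (ν + 1)) = 0 := by
  rw [Fc, G0_big hp, mul_zero]

/-- `per_G0` -/
theorem Fc_congr {m m' s n : O} (h : s * n ∣ m - m') : Fc q η m s n = Fc q η m' s n := by
  rw [Fc, Fc, show G0 m s n = G0 m' s n from per_G0 s n m m' h]

theorem Fc_right_one (hq : Lev q) (hη : IsTw q η) {s : O} (hs : IsCoprime s q) (m : O) :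
    Fc q η m s 1 = nm s * sx m s ^ 5 := by
  have h0 : s ≠ 0 := by
    rintro rfl
    exact coprime_two_iff.mp (hq.coprime_two hs) (dvd_zero _)
  rw [Fc, G0_right_one h0, one, if_pos hs, Wt, eps_one_right (hq.coprime_two hs), gam_one, tau0_one,
    al_one, rc, hη.one, sx_one_right, map_one]
  ring

end Crest.Agent.R17.HI
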