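import Crest.Agent.R17.I.Loc

/-!
Row 17, block I (owner helper88): the local factor in closed form.
-/

set_option autoImplicit false

namespace Crest.Agent.R17.HI

open scoped ComplexConjugate

variable {q p u : O} {η : O → ℂ}

/-- reversal of a triple -/
def ilocsuma_rev : ℕ × ℕ × ℕ ≃ ℕ × ℕ × ℕ where
  toFun x := (x.2.2, x.2.1, x.1)
  invFun x := (x.2.2, x.2.1, x.1)
  left_inv _ := rfl
  right_inv _ := rfl

/-- ABSTRACT LOCAL SUM.  Put `T e = a e.1 e.2.1 e.2.2 * (V ^ e.1 * S ^ e.2.1 * Y ^ e.2.2)`,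
`U = ∑_{ν = 0} T = 1/(1-V) + W/(1-W)` and `M = ∑_{ν ≥ 1} T`.  Split `M` into `1 ≤ ν ≤ 6` and `ν ≥ 7`;
the second part is `ρ M` (`hfar`, `hshift`), the first one is `fin36 a V S Y / (1 - V)` (`hbig`,
`hstab`, geometric series).  Use iterated sums (`Summable.tsum_prod`, `Summable.tsum_comm`,
`Summable.sum_add_tsum_nat_add`) or injections `ℕ × ℕ × ℕ → ℕ × ℕ × ℕ`. -/
theorem abs_sum (a : ℕ → ℕ → ℕ → ℂ) (V S Y W ρ γ : ℂ)
    (hs : Summable fun e : ℕ × ℕ × ℕ => a e.1 e.2.1 e.2.2 * (V ^ e.1 * S ^ e.2.1 * Y ^ e.2.2))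
    (hV : ‖V‖ < 1) (hW : ‖W‖ < 1) (h00 : ∀ ι, a ι 0 0 = 1) (h0 : ∀ σ, a 0 σ 0 * S ^ σ = W ^ σ)
    (h0' : ∀ ι σ, a (ι + 1) (σ + 1) 0 = 0) (hbig : ∀ ι σ ν, a ι (σ + 2) (ν + 1) = 0)
    (hshift : ∀ ι σ ν, a (ι + 1) σ (ν + 7) * (V * Y ^ 6) = ρ * a ι σ (ν + 1))
    (hfar : ∀ σ ν, a 0 σ (ν + 7) = 0)
    (hstab : ∀ ι σ ν, σ ≤ 1 → ν ≤ 6 → a (ι + 2) σ ν = a 2 σ ν) :
    (∑' e : ℕ × ℕ × ℕ, a e.1 e.2.1 e.2.2 * (1 + if e.2.2 = 0 then 0 else γ) *
        (V ^ e.1 * S ^ e.2.1 * Y ^ e.2.2)) * ((1 - V) * (1 - W) * (1 - ρ)) =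
      (1 - W * V) * (1 - ρ) + (1 + γ) * fin36 a V S Y * (1 - W) := by
  have hV1 : 1 - V ≠ 0 := fun h => by
    rw [← sub_eq_zero.1 h, norm_one] at hV
    exact lt_irrefl _ hV
  have hW1 : 1 - W ≠ 0 := fun h => by
    rw [← sub_eq_zero.1 h, norm_one] at hW
    exact lt_irrefl _ hW
  obtain ⟨T, hT⟩ : ∃ T : ℕ → ℕ → ℕ → ℂ,
      T = fun ν σ ι => a ι σ ν * (V ^ ι * S ^ σ * Y ^ ν) := ⟨_, rfl⟩
  have s0 : Summable fun x : ℕ × ℕ × ℕ => T x.1 x.2.1 x.2.2 := by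
    rw [hT]
    exact (ilocsuma_rev.summable_iff.2 hs :)
  have s1 : ∀ ν, Summable fun x : ℕ × ℕ => T ν x.1 x.2 := fun ν => s0.prod_factor ν
  have s2 : ∀ ν σ, Summable fun ι => T ν σ ι := fun ν σ => (s1 ν).prod_factor σ
  obtain ⟨G, hG⟩ : ∃ G : ℕ → ℕ → ℂ, G = fun ν σ => ∑' ι, T ν σ ι := ⟨_, rfl⟩
  obtain ⟨R, hR⟩ : ∃ R : ℕ → ℂ, R = fun ν => ∑' σ, G ν σ := ⟨_, rfl⟩
  have s3 : ∀ ν, Summable (G ν) := fun ν => by
    rw [hG]
    exact (s1 ν).prod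
  have e1 : ∀ ν, ∑' x : ℕ × ℕ, T ν x.1 x.2 = R ν := fun ν => by
    rw [hR, hG]
    exact (s1 ν).tsum_prod
  have s4 : Summable R := by
    have := s0.prod
    simpa only [e1] using this
  have g1 : G 0 0 = (1 - V)⁻¹ := by
    rw [hG, hT]
    simp only [h00, pow_zero, mul_one, one_mul]
    exact tsum_geometric_of_norm_lt_one hV
  have g2 : ∀ σ, G 0 (σ + 1) = W * W ^ σ := fun σ => by
    rw [hG]
    dsimp only
    rw [tsum_eq_single 0 fun ι hι => ?_]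
    · rw [hT, ← pow_succ', ← h0]
      simp only [pow_zero, mul_one, one_mul]
    · obtain ⟨k, rfl⟩ := Nat.exists_eq_succ_of_ne_zero hι
      rw [hT]
      simp only [Nat.succ_eq_add_one, h0', zero_mul]
  have g3 : ∀ ν σ, G (ν + 1) (σ + 2) = 0 := fun ν σ => by
    rw [hG, hT]
    simp only [hbig, zero_mul, tsum_zero]
  have g4 : ∀ ν σ, G (ν + 6 + 1) σ = ρ * G (ν + 1) σ := fun ν σ => by
    rw [hG]
    dsimp only
    rw [(s2 _ _).tsum_eq_zero_add, ← tsum_mul_left, hT]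
    dsimp only
    rw [hfar, zero_mul, zero_add]
    refine tsum_congr fun ι => ?_
    linear_combination (V ^ ι * S ^ σ * Y ^ (ν + 1)) * hshift ι σ ν
  have g5 : ∀ ν σ, σ ≤ 1 → ν ≤ 6 → G ν σ * (1 - V) =
      (a 0 σ ν * (1 - V) + a 1 σ ν * (V * (1 - V)) + a 2 σ ν * V ^ 2) * (S ^ σ * Y ^ ν) :=
    fun ν σ hσ hν => by
      rw [hG]
      dsimp only
      rw [← (s2 _ _).sum_add_tsum_nat_add 2, hT]
      dsimp only
      have h1 : ∀ ι, a (ι + 2) σ ν * (V ^ (ι + 2) * S ^ σ * Y ^ ν) =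
          a 2 σ ν * V ^ 2 * (S ^ σ * Y ^ ν) * V ^ ι := fun ι => by
        rw [hstab ι σ ν hσ hν]
        ring
      simp only [h1, tsum_mul_left, tsum_geometric_of_norm_lt_one hV, Finset.sum_range_succ,
        Finset.sum_range_zero]
      field_simp
      ring
  have r1 : R 0 = (1 - V)⁻¹ + W * (1 - W)⁻¹ := by
    rw [hR]
    dsimp only
    rw [(s3 0).tsum_eq_zero_add, g1]
    simp only [g2, tsum_mul_left, tsum_geometric_of_norm_lt_one hW]
  have r2 : ∀ ν, R (ν + 6 + 1) = ρ * R (ν + 1) := fun ν => by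
    rw [hR]
    simp only [g4, tsum_mul_left]
  have r3 : ∀ ν, R (ν + 1) = ∑ σ ∈ Finset.range 2, G (ν + 1) σ := fun ν => by
    rw [hR]
    refine tsum_eq_sum fun σ hσ => ?_
    obtain ⟨k, rfl⟩ : ∃ k, σ = k + 2 := ⟨σ - 2, by rw [Finset.mem_range] at hσ; omega⟩
    exact g3 ν k
  have s5 : Summable fun ν => R (ν + 1) := (summable_nat_add_iff 1).2 s4
  have m1 : ∑' ν, R (ν + 1) = ∑ ν ∈ Finset.range 6, R (ν + 1) + ρ * ∑' ν, R (ν + 1) := by
    conv_lhs => rw [← s5.sum_add_tsum_nat_add 6]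
    simp only [r2, tsum_mul_left]
  have m2 : (∑ ν ∈ Finset.range 6, R (ν + 1)) * (1 - V) = fin36 a V S Y := by
    rw [fin36, Finset.sum_comm, Finset.sum_mul]
    refine Finset.sum_congr rfl fun ν hν => ?_
    rw [r3, Finset.sum_mul]
    refine Finset.sum_congr rfl fun σ hσ => ?_
    rw [Finset.mem_range] at hν hσ
    exact g5 _ _ (by omega) (by omega)
  have s6 : Summable fun x : ℕ × ℕ × ℕ => (1 + if x.1 = 0 then 0 else γ) * T x.1 x.2.1 x.2.2 := by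
    refine Summable.of_norm_bounded (s0.norm.mul_left (1 + ‖γ‖)) fun x => ?_
    rw [norm_mul]
    refine mul_le_mul_of_nonneg_right ((norm_add_le _ _).trans ?_) (norm_nonneg _)
    split_ifs <;> simp
  have e2 : (∑' e : ℕ × ℕ × ℕ, a e.1 e.2.1 e.2.2 * (1 + if e.2.2 = 0 then 0 else γ) *
      (V ^ e.1 * S ^ e.2.1 * Y ^ e.2.2)) = R 0 + (1 + γ) * ∑' ν, R (ν + 1) := by
    rw [← ilocsuma_rev.tsum_eq]
    have h1 : ∀ x : ℕ × ℕ × ℕ, a (ilocsuma_rev x).1 (ilocsuma_rev x).2.1 (ilocsuma_rev x).2.2 *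
        (1 + if (ilocsuma_rev x).2.2 = 0 then 0 else γ) * (V ^ (ilocsuma_rev x).1 *
          S ^ (ilocsuma_rev x).2.1 * Y ^ (ilocsuma_rev x).2.2) =
        (1 + if x.1 = 0 then 0 else γ) * T x.1 x.2.1 x.2.2 := fun x => by
      rw [hT, mul_right_comm, mul_comm]
      rfl
    have s7 := s6.prod
    simp only [h1]
    rw [s6.tsum_prod, s7.tsum_eq_zero_add]
    simp only [if_true, add_zero, one_mul, Nat.add_one_ne_zero, if_false, tsum_mul_left, e1]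
  have r4 : R 0 * ((1 - V) * (1 - W)) = 1 - W * V := by
    rw [r1]
    field_simp
    ring
  rw [e2]
  linear_combination (1 - ρ) * r4 + (1 + γ) * (1 - V) * (1 - W) * m1 + (1 + γ) * (1 - W) * m2

theorem ilocsumb_nc (hp : Prime p) (h : p ∣ q) (k : ℕ) : ¬ IsCoprime (p ^ (k + 1)) q := fun hh =>
  hp.not_isUnit (hh.isUnit_of_dvd' (dvd_pow_self p (Nat.succ_ne_zero k)) h)

theorem ilocsumb_nc1 (hp : Prime p) (h : p ∣ q) : ¬ IsCoprime p q := fun hh =>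
  hp.not_isUnit (hh.isUnit_of_dvd' dvd_rfl h)

/-- at a prime dividing the level everything is trivial -/
theorem Hs_of_dvd (hη : IsTw q η) (hp : Prime p) (h : p ∣ q) (u : O) (x w z : ℂ) :
    Hs q η u p x w z = 0 := by
  have h0 : Nn q η u p x w z = 0 := by
    simp only [Nn, fin36, F3, Fc_zero_right hη _ _ (ilocsumb_nc hp h _), mul_zero, zero_mul,
      add_zero, Finset.sum_const_zero]
  rw [Hs, h0, zero_mul, zero_div]

theorem Hp_of_dvd (hη : IsTw q η) (hp : Prime p) (h : p ∣ q) (u : O) (x w z : ℂ) :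
    Hp q η u p x w z = 1 := by
  rw [Hp, Hs_of_dvd hη hp h, lV, lD, rc, (isTw_one q).zero p (ilocsumb_nc1 hp h),
    hη.zero p (ilocsumb_nc1 hp h)]
  simp

/-- `p ∣ q`: only `e = 0` contributes.  `p ∤ q`: `abs_sum` with `a ι σ ν = F3 q η u (p^ι) (p^σ) (p^ν)`,
`mono_pow`, `Fc_one`, `Fc_right_one`, `Fc_big`, `Fc_shift`, `Fc_far`, `Fc_congr`; then `field_simp`. -/
theorem loc_sum (hq : Lev q) (hη : IsTw q η) (hp : Prime p) (hp' : Prim p) (hu : ¬ p ^ 6 ∣ u)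
    (x w z γ : ℂ)
    (hs : Summable fun e : ℕ × ℕ × ℕ => F3 q η u (p ^ e.1) (p ^ e.2.1) (p ^ e.2.2) *
      mono x w z (p ^ e.1) (p ^ e.2.1) (p ^ e.2.2))
    (hV : ‖lV q p z‖ < 1) (hW : ‖lW q u p w‖ < 1) (hρ : lρ η p x z ≠ 1) (hD : lD η u p x ≠ 1) :
    (∑' e : ℕ × ℕ × ℕ, F3 q η u (p ^ e.1) (p ^ e.2.1) (p ^ e.2.2) *
        (1 + if e.2.2 = 0 then 0 else γ) * mono x w z (p ^ e.1) (p ^ e.2.1) (p ^ e.2.2)) *
        (1 - lD η u p x)⁻¹ =
      (Hp q η u p x w z + γ * Hs q η u p x w z) * (1 - lV q p z)⁻¹ * (1 - lW q u p w)⁻¹ := by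
  by_cases hpq : p ∣ q
  · rw [Hp_of_dvd hη hp hpq, Hs_of_dvd hη hp hpq, lV, lW, lD, rc, rc,
      (isTw_one q).zero p (ilocsumb_nc1 hp hpq), hη.zero p (ilocsumb_nc1 hp hpq),
      tsum_eq_single (0, 0, 0) ?_]
    · simp only [pow_zero, F3_one hη, mono_one]
      simp
    · rintro ⟨ι, σ, ν⟩ hne
      have h0 : F3 q η u (p ^ ι) (p ^ σ) (p ^ ν) = 0 := by
        rcases ι with _ | ι
        · rcases σ with _ | σ
          · rcases ν with _ | ν
            · exact absurd rfl hne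
            · rw [F3, Fc_zero_right hη _ _ (ilocsumb_nc hp hpq _), mul_zero]
          · rw [F3, Fc_zero_left η _ _ (ilocsumb_nc hp hpq _), mul_zero]
        · rw [F3, (isTw_one q).zero _ (ilocsumb_nc hp hpq _), zero_mul]
      simp only [h0, zero_mul]
  have hc : IsCoprime p q := hp.irreducible.coprime_iff_not_dvd.2 hpq
  have o1 : ∀ k : ℕ, one q (p ^ k) = 1 := fun k => by
    rw [one, if_pos (IsCoprime.pow_left hc)]
  have o2 : one q p = 1 := by simpa using o1 1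
  have hN : (nm p : ℂ) ≠ 0 := by exact_mod_cast (nm_pos hp.ne_zero).ne'
  have eV : lV q p z = (nm p : ℂ) ^ (-(6 * z)) := by rw [lV, o2, one_mul]
  simp only [mono_pow, ← eV] at hs ⊢
  have key := abs_sum (fun ι σ ν => F3 q η u (p ^ ι) (p ^ σ) (p ^ ν)) (lV q p z) (lS p w) (lY p x)
    (lW q u p w) (lρ η p x z) γ hs hV hW
    (fun ι => by simp only [F3, o1, pow_zero, Fc_one hη, mul_one])
    (fun σ => by
      have e1 : (nm p : ℂ) * (nm p : ℂ) ^ (-(1 + w)) = (nm p : ℂ) ^ (-w) := by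
        rw [show -w = 1 + -(1 + w) by ring, Complex.cpow_add _ _ hN, Complex.cpow_one]
      simp only [F3, o1]
      rw [pow_zero, Fc_right_one hq hη (IsCoprime.pow_left hc), lW, rc, o2, lS, ← e1, one_pow,
        mul_one, sx_pow_right, sx_pow_left _ _ (by norm_num : (5 : ℕ) ≠ 0), nm_pow]
      push_cast
      ring)
    (fun ι σ => by
      simp only [F3]
      rw [pow_zero, Fc_right_one hq hη (IsCoprime.pow_left hc), sx_eq_zero_of_not_coprime]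
      · simp
      · intro hh
        refine hp.not_isUnit (hh.isUnit_of_dvd' (Dvd.dvd.mul_left ?_ u)
          (dvd_pow_self p (Nat.succ_ne_zero σ)))
        exact (dvd_pow_self p (Nat.succ_ne_zero ι)).trans (dvd_pow_self _ (by norm_num)))
    (fun ι σ ν => by simp only [F3, Fc_big hp, mul_zero])
    (fun ι σ ν => by
      have e1 : (nm p : ℂ) ^ (4 - 6 * x - 6 * z) =
          (nm p : ℂ) ^ 7 * ((nm p : ℂ) ^ (-(6 * z)) * ((nm p : ℂ) ^ (-(1 / 2 + x))) ^ 6) := by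
        rw [← Complex.cpow_nat_mul, ← Complex.cpow_natCast, ← Complex.cpow_add _ _ hN,
          ← Complex.cpow_add _ _ hN]
        congr 1
        push_cast
        ring
      simp only [F3, o1]
      rw [show u * (p ^ (ι + 1)) ^ 6 = u * (p ^ ι) ^ 6 * p ^ 6 by ring, Fc_shift hq hη hp hp' hpq,
        lρ, e1, eV, lY]
      ring)
    (fun σ ν => by
      simp only [F3]
      rw [Fc_far hp (by simpa using hu), mul_zero])
    (fun ι σ ν hσ hν => by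
      simp only [F3, o1]
      rw [Fc_congr (m' := u * (p ^ 2) ^ 6)]
      rw [← pow_add, show u * (p ^ (ι + 2)) ^ 6 - u * (p ^ 2) ^ 6 =
        p ^ 12 * (u * (p ^ ι) ^ 6 - u) by ring]
      exact Dvd.dvd.mul_right (pow_dvd_pow p (by omega)) _)
  have hV1 : 1 - lV q p z ≠ 0 := fun h => by
    rw [← sub_eq_zero.1 h, norm_one] at hV
    exact lt_irrefl _ hV
  have hW1 : 1 - lW q u p w ≠ 0 := fun h => by
    rw [← sub_eq_zero.1 h, norm_one] at hW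
    exact lt_irrefl _ hW
  have hρ1 : 1 - lρ η p x z ≠ 0 := sub_ne_zero.2 hρ.symm
  have hD1 : 1 - lD η u p x ≠ 0 := sub_ne_zero.2 hD.symm
  rw [eq_div_of_mul_eq (mul_ne_zero (mul_ne_zero hV1 hW1) hρ1) key, Hp, Hs, Nn]
  field_simp
  ring

end Crest.Agent.R17.HI
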