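import Crest.Agent.R17.I.NnBd
import Crest.Agent.R17.I.LocSum

/-!
Row 17, block I (owner helper88): bounds for the local factors `Hp`, `hp`.
-/

set_option autoImplicit false

namespace Crest.Agent.R17.HI

open scoped ComplexConjugate

theorem ilocbda_inv {D : ℂ} (hD : ‖D‖ ≤ 1 / 2) : 1 - D ≠ 0 ∧ ‖(1 - D)⁻¹‖ ≤ 2 := by
  have h1 : 1 / 2 ≤ ‖1 - D‖ := by
    have := norm_sub_norm_le (1 : ℂ) D
    rw [norm_one] at this
    linarith
  refine ⟨norm_pos_iff.1 (by linarith), ?_⟩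
  rw [norm_inv]
  exact inv_le_of_inv_le₀ two_pos (by linarith)

/-- pure algebra: `H - 1 = (-W V + (D V + D W - D V W - D ρ + E (1 - W)) / (1 - ρ)) / (1 - D)` -/
theorem alg_H {V W D ρ E : ℂ} {δ : ℝ} (hD : ‖D‖ ≤ 1 / 2) (hρ : ‖ρ‖ ≤ 1 / 2) (h1 : ‖W * V‖ ≤ δ)
    (h2 : ‖D * V‖ ≤ δ) (h3 : ‖D * W‖ ≤ δ) (h4 : ‖D * V * W‖ ≤ δ) (h5 : ‖D * ρ‖ ≤ δ)
    (h6 : ‖E * (1 - W)‖ ≤ δ) :
    ‖(1 - W * V) / (1 - D) + (E - D * (1 - V)) * (1 - W) / ((1 - ρ) * (1 - D)) - 1‖ ≤ 22 * δ := by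
  obtain ⟨a0, a1⟩ := ilocbda_inv hD
  obtain ⟨b0, b1⟩ := ilocbda_inv hρ
  have e : (1 - W * V) / (1 - D) + (E - D * (1 - V)) * (1 - W) / ((1 - ρ) * (1 - D)) - 1 =
      (1 - D)⁻¹ * (-(W * V) + (1 - ρ)⁻¹ * (D * V + D * W - D * V * W - D * ρ + E * (1 - W))) := by
    field_simp
    ring
  have h7 : ‖D * V + D * W - D * V * W - D * ρ + E * (1 - W)‖ ≤ 5 * δ := by
    have c1 := norm_add_le (D * V + D * W - D * V * W - D * ρ) (E * (1 - W))
    have c2 := norm_sub_le (D * V + D * W - D * V * W) (D * ρ)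
    have c3 := norm_sub_le (D * V + D * W) (D * V * W)
    have c4 := norm_add_le (D * V) (D * W)
    linarith
  have h8 : ‖(1 - ρ)⁻¹ * (D * V + D * W - D * V * W - D * ρ + E * (1 - W))‖ ≤ 2 * (5 * δ) := by
    rw [norm_mul]
    exact mul_le_mul b1 h7 (norm_nonneg _) zero_le_two
  have h9 := (norm_add_le (-(W * V)) _).trans (add_le_add ((norm_neg _).trans_le h1) h8)
  rw [e, norm_mul]
  exact (mul_le_mul a1 h9 (norm_nonneg _) zero_le_two).trans (le_of_eq (by ring))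

/-- pure algebra: with `k D = χ`, `χ W = t`:
`h + χ = (χ - t) (V - ρ - D + ρ D) / den + k E (1 - W) / den - t (H - 1)`, `den = (1 - ρ)(1 - D)` -/
theorem alg_h {V W D ρ E H k χ t : ℂ} {δ : ℝ} (hD : ‖D‖ ≤ 1 / 2) (hρ : ‖ρ‖ ≤ 1 / 2)
    (hk : k * D = χ) (ht : χ * W = t) (h1 : ‖(χ - t) * V‖ ≤ δ) (h2 : ‖(χ - t) * ρ‖ ≤ δ)
    (h3 : ‖(χ - t) * D‖ ≤ δ) (h4 : ‖k * E * (1 - W)‖ ≤ δ) (h5 : ‖t * (H - 1)‖ ≤ δ) :
    ‖k * ((E - D * (1 - V)) * (1 - W) / ((1 - ρ) * (1 - D))) - t * H + χ‖ ≤ 21 * δ := by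
  obtain ⟨a0, a1⟩ := ilocbda_inv hD
  obtain ⟨b0, b1⟩ := ilocbda_inv hρ
  have hδ : 0 ≤ δ := (norm_nonneg _).trans h1
  have e : k * ((E - D * (1 - V)) * (1 - W) / ((1 - ρ) * (1 - D))) - t * H + χ =
      (1 - D)⁻¹ * ((1 - ρ)⁻¹ * ((χ - t) * V - (χ - t) * ρ - (χ - t) * D + (χ - t) * D * ρ +
        k * E * (1 - W))) - t * (H - 1) := by
    subst hk ht
    field_simp
    ring
  have h6 : ‖(χ - t) * D * ρ‖ ≤ δ := by
    rw [norm_mul]
    exact (mul_le_mul h3 hρ (norm_nonneg _) hδ).trans (by linarith)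
  have h7 : ‖(χ - t) * V - (χ - t) * ρ - (χ - t) * D + (χ - t) * D * ρ + k * E * (1 - W)‖ ≤
      5 * δ := by
    have c1 := norm_add_le ((χ - t) * V - (χ - t) * ρ - (χ - t) * D + (χ - t) * D * ρ)
      (k * E * (1 - W))
    have c2 := norm_add_le ((χ - t) * V - (χ - t) * ρ - (χ - t) * D) ((χ - t) * D * ρ)
    have c3 := norm_sub_le ((χ - t) * V - (χ - t) * ρ) ((χ - t) * D)
    have c4 := norm_sub_le ((χ - t) * V) ((χ - t) * ρ)
    linarith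
  have h8 := mul_le_mul a1 (mul_le_mul b1 h7 (norm_nonneg _) zero_le_two) (by positivity)
    zero_le_two
  rw [← norm_mul, ← norm_mul] at h8
  rw [e]
  exact (norm_sub_le _ _).trans (by linarith)

theorem ilocbdb_mul {a b : ℂ} {Q r s t : ℝ} (hQ : 1 ≤ Q) (ha : ‖a‖ ≤ Q ^ r) (hb : ‖b‖ ≤ Q ^ s)
    (h : r + s ≤ t) : ‖a * b‖ ≤ Q ^ t := by
  have hQ0 : 0 < Q := by linarith
  rw [norm_mul]
  calc ‖a‖ * ‖b‖ ≤ Q ^ r * Q ^ s :=
        mul_le_mul ha hb (norm_nonneg _) (Real.rpow_nonneg hQ0.le _)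
    _ = Q ^ (r + s) := (Real.rpow_add hQ0 _ _).symm
    _ ≤ Q ^ t := Real.rpow_le_rpow_of_exponent_le hQ h

theorem ilocbdb_mul' {a b : ℂ} {Q r s t A B : ℝ} (hQ : 1 ≤ Q) (hA : 0 ≤ A) (hB : 0 ≤ B)
    (ha : ‖a‖ ≤ A * Q ^ r) (hb : ‖b‖ ≤ B * Q ^ s) (h : r + s ≤ t) : ‖a * b‖ ≤ A * B * Q ^ t := by
  have hQ0 : 0 < Q := by linarith
  have h1 := Real.rpow_nonneg hQ0.le r
  rw [norm_mul]
  calc ‖a‖ * ‖b‖ ≤ A * Q ^ r * (B * Q ^ s) :=
        mul_le_mul ha hb (norm_nonneg _) (mul_nonneg hA h1)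
    _ = A * B * Q ^ (r + s) := by rw [Real.rpow_add hQ0]; ring
    _ ≤ A * B * Q ^ t :=
        mul_le_mul_of_nonneg_left (Real.rpow_le_rpow_of_exponent_le hQ h) (mul_nonneg hA hB)

theorem ilocbdb_one_sub {W : ℂ} {Q r : ℝ} (hQ : 1 ≤ Q) (hW : ‖W‖ ≤ Q ^ r) (hr : r ≤ 1 / 100) :
    ‖1 - W‖ ≤ 2 * Q ^ (1 / 100 : ℝ) := by
  have h1 : Q ^ r ≤ Q ^ (1 / 100 : ℝ) := Real.rpow_le_rpow_of_exponent_le hQ hr
  have h2 : 1 ≤ Q ^ (1 / 100 : ℝ) := Real.one_le_rpow hQ (by norm_num)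
  have h3 := norm_sub_le (1 : ℂ) W
  rw [norm_one] at h3
  linarith

theorem ilocbdb_sub_mul {a b c : ℂ} {Q r s t : ℝ} (hQ : 1 ≤ Q) (ha : ‖a‖ ≤ 1) (hb : ‖b‖ ≤ Q ^ r)
    (hc : ‖c‖ ≤ Q ^ s) (h1 : s ≤ t) (h2 : r + s ≤ t) : ‖(a - b) * c‖ ≤ 2 * Q ^ t := by
  have h3 : ‖a * c‖ ≤ Q ^ t :=
    ilocbdb_mul (r := 0) hQ (by rwa [Real.rpow_zero]) hc (by linarith)
  have h4 : ‖b * c‖ ≤ Q ^ t := ilocbdb_mul hQ hb hc h2
  have h5 := norm_sub_le (a * c) (b * c)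
  rw [sub_mul]
  linarith

theorem ilocbdb_cpow {p : O} (hp : p ≠ 0) (s : ℂ) : ‖(nm p : ℂ) ^ s‖ = nm p ^ s.re :=
  Complex.norm_cpow_eq_rpow_re_of_pos (nm_pos hp) s

/-- `p ∣ q`: `Hp_of_dvd`.  Else `alg_H` with `E = Nn + D (1 - V)`, `Nn_near` with
`μ = -(1 + c) - 1/100`, `‖1 - W‖ ≤ 2 Q^(1/100)`, `δ = 120 Q^(-(1+c))`. -/
theorem Hp_near : ∃ C : ℝ, 1 ≤ C ∧ ∀ (q : O) (η : O → ℂ) (u p : O) (c : ℝ) (x w z : ℂ), Lev q →
    IsTw q η → Prime p → Prim p → ¬ p ∣ u → 0 < c → c ≤ 1 / 50 → (x, w, z) ∈ Og c →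
    ‖Hp q η u p x w z - 1‖ ≤ C * nm p ^ (-(1 + c)) := by
  refine ⟨22 * 120, by norm_num, fun q η u p c x w z hq hη hp hp' hu hc hc' h => ?_⟩
  have hp0 := hp.ne_zero
  have hQ := one_le_nm hp0
  have hpos : 0 ≤ nm p ^ (-(1 + c)) := Real.rpow_nonneg (by linarith) _
  by_cases hpq : p ∣ q
  · rw [Hp_of_dvd hη hp hpq, sub_self, norm_zero]
    positivity
  obtain ⟨-, hD, hρ⟩ := small hq hη hp u h
  obtain ⟨o1, o2, o3, o4, o5, o6, o7⟩ := id h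
  dsimp only at o1 o2 o3 o4 o5 o6 o7
  have bV := norm_lV_le hp0 q z
  have bW := norm_lW_le hp0 q u w
  have bD := norm_lD_le hq.1 hη hp0 u x
  have bρ := norm_lρ_le hq.1 hη hp0 x z
  have bE := Nn_near hq hη hp hp' hpq hu h (μ := -(1 + c) - 1 / 100) (by linarith) (by linarith)
  have b1 := ilocbdb_one_sub hQ bW (by linarith)
  have k1 : ‖lW q u p w * lV q p z‖ ≤ nm p ^ (-(1 + c)) := ilocbdb_mul hQ bW bV (by linarith)
  have k2 : ‖lD η u p x * lV q p z‖ ≤ nm p ^ (-(1 + c)) := ilocbdb_mul hQ bD bV (by linarith)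
  have k3 : ‖lD η u p x * lW q u p w‖ ≤ nm p ^ (-(1 + c)) := ilocbdb_mul hQ bD bW (by linarith)
  have k4 : ‖lD η u p x * lV q p z * lW q u p w‖ ≤ nm p ^ (-(1 + c)) :=
    ilocbdb_mul hQ (ilocbdb_mul hQ bD bV le_rfl) bW (by linarith)
  have k5 : ‖lD η u p x * lρ η p x z‖ ≤ nm p ^ (-(1 + c)) := ilocbdb_mul hQ bD bρ (by linarith)
  have k6 := ilocbdb_mul' (t := -(1 + c)) hQ (by norm_num) (by norm_num) bE b1 (by linarith)
  have key := alg_H (δ := 120 * nm p ^ (-(1 + c))) hD hρ (by linarith) (by linarith) (by linarith)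
    (by linarith) (by linarith) (k6.trans (by norm_num))
  rw [add_sub_cancel_right] at key
  unfold Hp Hs
  linarith

/-- `alg_h` with `k = conj (η p) Q^x`, `χ = sx u p`, `t = Q^(-w)`; `Nn_near` with
`μ = -θ - X - 1/100`; `Hp_near` for the last term -/
theorem hp_near : ∃ C : ℝ, 1 ≤ C ∧ ∀ (q : O) (η : O → ℂ) (u p : O) (c θ : ℝ) (x w z : ℂ), Lev q →
    IsTw q η → Prime p → Prim p → ¬ p ∣ q → ¬ p ∣ u → 0 < c → c ≤ 1 / 50 → (x, w, z) ∈ Og c →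
    θ ≤ x.re → θ ≤ 6 * z.re → θ ≤ 5 * x.re + 6 * z.re - 402 / 100 →
    θ ≤ w.re + 6 * z.re - 101 / 100 → θ ≤ 99 / 100 →
    ‖hp q η u p x w z + sx u p‖ ≤ C * nm p ^ (-θ) := by
  obtain ⟨C, hC, hH⟩ := Hp_near
  refine ⟨21 * (120 + C), by linarith,
    fun q η u p c θ x w z hq hη hp hp' hpq hu hc hc' h t1 t2 t3 t4 t5 => ?_⟩
  have hp0 := hp.ne_zero
  have hQ := one_le_nm hp0
  have hpos : 0 ≤ nm p ^ (-θ) := Real.rpow_nonneg (by linarith) _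
  have hCpos : 0 ≤ C * nm p ^ (-θ) := mul_nonneg (by linarith) hpos
  have hcop : IsCoprime p q := hp.irreducible.coprime_iff_not_dvd.2 hpq
  have hcu : IsCoprime u p := (hp.irreducible.coprime_iff_not_dvd.2 hu).symm
  have hone : one q p = 1 := by unfold one; rw [if_pos hcop]
  have hn0 : (nm p : ℂ) ≠ 0 := by exact_mod_cast (nm_pos hp0).ne'
  obtain ⟨-, hD, hρ⟩ := small hq hη hp u h
  obtain ⟨o1, o2, o3, o4, o5, o6, o7⟩ := id h
  dsimp only at o1 o2 o3 o4 o5 o6 o7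
  have bV := norm_lV_le hp0 q z
  have bW := norm_lW_le hp0 q u w
  have bD := norm_lD_le hq.1 hη hp0 u x
  have bρ := norm_lρ_le hq.1 hη hp0 x z
  have bE := Nn_near hq hη hp hp' hpq hu h (μ := -θ - x.re - 1 / 100) (by linarith) (by linarith)
  have b1 := ilocbdb_one_sub hQ bW (by linarith)
  have bχ := norm_sx_le u p
  have bt : ‖(nm p : ℂ) ^ (-w)‖ ≤ nm p ^ (-w.re) := by rw [ilocbdb_cpow hp0, Complex.neg_re]
  have bk : ‖conj (η p) * (nm p : ℂ) ^ x‖ ≤ 1 * nm p ^ x.re := by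
    rw [norm_mul, ilocbdb_cpow hp0, Complex.norm_conj]
    exact mul_le_mul_of_nonneg_right (hη.norm_le hq.1 p) (Real.rpow_nonneg (by linarith) _)
  have hk : conj (η p) * (nm p : ℂ) ^ x * lD η u p x = sx u p := by
    have e1 := hη.mul_conj hq.1 p
    have e2 : (nm p : ℂ) ^ x * (nm p : ℂ) ^ (-x) = 1 := by
      rw [← Complex.cpow_add _ _ hn0, add_neg_cancel, Complex.cpow_zero]
    rw [hone] at e1
    unfold lD rc
    linear_combination ((nm p : ℂ) ^ x * (nm p : ℂ) ^ (-x) * sx u p) * e1 + sx u p * e2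
  have ht : sx u p * lW q u p w = (nm p : ℂ) ^ (-w) := by
    have e1 := sx_pow_six u p
    rw [if_pos ⟨hq.coprime_six hcop, hcu⟩] at e1
    unfold lW rc
    rw [hone, sx_pow_left u p (by norm_num)]
    linear_combination (nm p : ℂ) ^ (-w) * e1
  have k1 := ilocbdb_sub_mul (t := -θ) hQ bχ bt bV (by linarith) (by linarith)
  have k2 := ilocbdb_sub_mul (t := -θ) hQ bχ bt bρ (by linarith) (by linarith)
  have k3 := ilocbdb_sub_mul (t := -θ) hQ bχ bt bD (by linarith) (by linarith)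
  have k4 := ilocbdb_mul' (t := -θ) hQ (by norm_num) (by norm_num)
    (ilocbdb_mul' hQ (by norm_num) (by norm_num) bk bE le_rfl) b1 (by linarith)
  have k5 := ilocbdb_mul' (t := -θ) (A := 1) hQ (by norm_num) (by linarith)
    (bt.trans_eq (one_mul _).symm) (hH q η u p c x w z hq hη hp hp' hu hc hc' h) (by linarith)
  have key := alg_h (V := lV q p z) (δ := (120 + C) * nm p ^ (-θ)) hD hρ hk ht (by linarith) (by linarith)
    (by linarith) (k4.trans (by linarith)) (k5.trans (by linarith))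
  rw [add_sub_cancel_right] at key
  unfold HI.hp Hs
  linarith

open Classical in
/-- `p ∣ u`: `lW = lD = 0` (`sx_eq_zero_of_not_coprime`), `Hp = 1 + Nn / (1 - ρ)`; `Nn_le`, `Nn_le'` -/
theorem Hp_dvd : ∃ C : ℝ, 1 ≤ C ∧ ∀ (q : O) (η : O → ℂ) (u p : O) (c : ℝ) (x w z : ℂ), Lev q →
    IsTw q η → Prime p → Prim p → ¬ p ∣ q → p ∣ u → ¬ p ^ 6 ∣ u → 0 < c → (x, w, z) ∈ Og c →
    ‖Hp q η u p x w z‖ ≤ C ∧ ‖hp q η u p x w z‖ ≤
      C * nm p ^ (1 / 2 : ℝ) * if p ^ 2 ∣ u then nm p ^ max 0 (1 / 2 - w.re) else 1 := by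
  refine ⟨241, by norm_num, fun q η u p c x w z hq hη hp hp' hpq hu hu6 hc h => ?_⟩
  have hQ := one_le_nm hp.ne_zero
  have hQ0 : 0 < nm p := nm_pos hp.ne_zero
  have hW : lW q u p w = 0 := by
    rw [lW, rc, sx_eq_zero_of_not_coprime fun hh =>
      hp.coprime_iff_not_dvd.1 hh.symm (dvd_pow hu (by norm_num)), mul_zero, zero_mul]
  have hD : lD η u p x = 0 := by
    rw [lD, rc, sx_eq_zero_of_not_coprime fun hh => hp.coprime_iff_not_dvd.1 hh.symm hu, mul_zero,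
      zero_mul]
  have hρ := (ilocbda_inv (small hq hη hp u h).2.2).2
  have hs : ‖Hs q η u p x w z‖ ≤ 2 * ‖Nn q η u p x w z‖ := by
    rw [Hs, hW, hD, sub_zero, mul_one, mul_one, div_eq_inv_mul, norm_mul]
    exact mul_le_mul_of_nonneg_right hρ (norm_nonneg _)
  have h1 : ‖Hp q η u p x w z‖ ≤ 121 := by
    rw [Hp, hW, hD, zero_mul, sub_zero, div_one]
    have := norm_add_le 1 (Hs q η u p x w z)
    rw [norm_one] at this
    linarith [Nn_le hq hη hp hp' hpq hu hu6 hc h]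
  refine ⟨by linarith, ?_⟩
  set B : ℝ := if p ^ 2 ∣ u then nm p ^ max 0 (1 / 2 - w.re) else 1 with hB
  have hB1 : 1 ≤ B := by
    rw [hB]
    split_ifs
    · exact Real.one_le_rpow hQ (le_max_left _ _)
    · exact le_rfl
  have h2 : nm p ^ x.re *
      nm p ^ (1 / 2 - x.re + if p ^ 2 ∣ u then max 0 (1 / 2 - w.re) else 0) =
      nm p ^ (1 / 2 : ℝ) * B := by
    rw [hB, ← Real.rpow_add hQ0]
    split_ifs
    · rw [← Real.rpow_add hQ0]; congr 1; ring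
    · rw [mul_one]; congr 1; ring
  have h3 : ‖conj (η p) * (nm p : ℂ) ^ x * Hs q η u p x w z‖ ≤ 120 * (nm p ^ (1 / 2 : ℝ) * B) := by
    rw [norm_mul, norm_mul, Complex.norm_conj, Complex.norm_cpow_eq_rpow_re_of_pos hQ0, ← h2]
    have c1 := hη.norm_le hq.1 p
    have c2 := hs.trans (mul_le_mul_of_nonneg_left (Nn_le' hq hη hp hp' hpq hu hu6 hc h)
      zero_le_two)
    calc _ ≤ 1 * nm p ^ x.re * (2 * (60 * nm p ^ (1 / 2 - x.re +
          if p ^ 2 ∣ u then max 0 (1 / 2 - w.re) else 0))) := by gcongr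
      _ = _ := by ring
  have h4 : ‖(nm p : ℂ) ^ (-w) * Hp q η u p x w z‖ ≤ 121 * (nm p ^ (1 / 2 : ℝ) * B) := by
    rw [norm_mul, Complex.norm_cpow_eq_rpow_re_of_pos hQ0, mul_comm]
    refine mul_le_mul h1 ?_ (by positivity) (by norm_num)
    refine le_trans (Real.rpow_le_rpow_of_exponent_le hQ ?_)
      (le_mul_of_one_le_right (by positivity) hB1)
    have := h.2.1
    simp only [Complex.neg_re] at this ⊢
    linarith
  rw [HI.hp]
  exact (norm_sub_le _ _).trans (by linarith)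

/-- a summable majorant: `C Q^(-(1+c))`, plus `C + 1` at the finitely many primes dividing `u` -/
theorem exists_maj {q u : O} {η : O → ℂ} {c : ℝ} (hq : Lev q) (hη : IsTw q η) (hu : Row q u)
    (hc : 0 < c) (hc' : c ≤ 1 / 50) : ∃ b : PrP → ℝ, Summable b ∧
      ∀ (p : PrP) (x w z : ℂ), (x, w, z) ∈ Og c → ‖Hp q η u p x w z - 1‖ ≤ b p := by
  classical
  obtain ⟨C, hC, h1⟩ := Hp_near
  obtain ⟨C', hC', h2⟩ := Hp_dvd
  refine ⟨fun p => C * nm p ^ (-(1 + c)) + if (p : O) ∣ u then C' + 1 else 0, ?_, ?_⟩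
  · refine (((summable_nm_rpow (by linarith : 1 < 1 + c)).comp_injective
      Subtype.val_injective).mul_left C).add ?_
    refine summable_of_hasFiniteSupport ?_
    refine ((pfs u).finite_toSet.preimage Subtype.val_injective.injOn).subset fun p hp => ?_
    have : (p : O) ∣ u := by
      by_contra hn
      exact hp (if_neg hn)
    exact (mem_pfs (Row.ne_zero hu)).2 ⟨p.2.1, p.2.2, this⟩
  · intro p x w z h
    have h0 : 0 ≤ C * nm p ^ (-(1 + c)) :=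
      mul_nonneg (by linarith) (Real.rpow_nonneg (nm_nonneg _) _)
    by_cases hp : (p : O) ∣ u
    · have hpq : ¬ (p : O) ∣ q := fun hd => p.2.1.not_isUnit (hu.1.isUnit_of_dvd' hp hd)
      have h3 := (h2 q η u p c x w z hq hη p.2.1 p.2.2 hpq hp (hu.2 p p.2.1) hc h).1
      have h4 := norm_sub_le (Hp q η u p x w z) 1
      rw [norm_one] at h4
      simp only [if_pos hp]
      linarith
    · simp only [if_neg hp, add_zero]
      exact h1 q η u p c x w z hq hη p.2.1 p.2.2 hp hc hc' h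

end Crest.Agent.R17.HI
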