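import Crest.Agent.R17.I.Smd

/-!
Row 17, block I (owner helper88): the low side.
-/

set_option autoImplicit false

namespace Crest.Agent.R17.HI

open scoped ComplexConjugate

variable {q : O} {η : O → ℂ}

/-- `exists_Tw_expand₂` for `Wt` (`eps_congr`, `gam_congr`, `hq.four_dvd`, `norm_Wt`), enumerate
`Tw q ×ˢ Tw q` by `Fin m` (`Finset.equivFin`); `IsTw.rc_smooth`, `IsTw.mul'`. -/
theorem Wt_split (hq : Lev q) (hη : IsTw q η) : ∃ (m : ℕ) (ψ₁ ψ₂ : Fin m → O → ℂ) (c : Fin m → ℂ),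
    (∀ i, IsTw q (ψ₁ i)) ∧ (∀ i, IsTw q (ψ₂ i)) ∧ (∀ i, ‖c i‖ ≤ 1) ∧ ∀ s n : O,
      Wt s n * rc (one q) (q ^ 5) s * rc η (16 * q) n = ∑ i, c i * (ψ₁ i s * ψ₂ i n) := by
  have h4 := hq.four_dvd
  obtain ⟨c, hc, hW⟩ := exists_Tw_expand₂ hq.1 (F := Wt) (B := 1)
    (fun a a' b b' ha hb h1 h2 => by
      rw [Wt, Wt, eps_congr (hq.coprime_two ha) (hq.coprime_two hb) (h4.trans h1) (h4.trans h2),
        gam_congr (hq.coprime_two hb) (h4.trans h2)])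
    (fun a b ha hb => (norm_Wt (hq.coprime_two ha) (hq.coprime_two hb)).le)
  have h1 : IsTw q (rc (one q) (q ^ 5)) := (isTw_one q).rc_smooth hq dvd_rfl
  have h2 : IsTw q (rc η (16 * q)) := hη.rc_smooth (k := 3) hq (by
    rw [show (16 : O) * q = 4 * 4 * q by ring, show q ^ 3 = q * q * q by ring]
    exact mul_dvd_mul (mul_dvd_mul h4 h4) dvd_rfl)
  let e := (Tw q ×ˢ Tw q).equivFin.symm
  refine ⟨(Tw q ×ˢ Tw q).card, fun i s => (e i).1.1 s * rc (one q) (q ^ 5) s,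
    fun i n => (e i).1.2 n * rc η (16 * q) n, fun i => c (e i).1.1 (e i).1.2,
    fun i => ((mem_Tw hq.1).1 (Finset.mem_product.1 (e i).2).1).mul' h1,
    fun i => ((mem_Tw hq.1).1 (Finset.mem_product.1 (e i).2).2).mul' h2, fun i => hc _ _,
    fun s n => ?_⟩
  by_cases hs : IsCoprime s q
  · by_cases hn : IsCoprime n q
    · rw [e.sum_comp fun x => c x.1.1 x.1.2 *
          (x.1.1 s * rc (one q) (q ^ 5) s * (x.1.2 n * rc η (16 * q) n)),
        Finset.sum_coe_sort (Tw q ×ˢ Tw q) fun x => c x.1 x.2 *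
          (x.1 s * rc (one q) (q ^ 5) s * (x.2 n * rc η (16 * q) n)),
        Finset.sum_product, hW s n hs hn]
      simp only [Finset.sum_mul]
      exact Finset.sum_congr rfl fun _ _ => Finset.sum_congr rfl fun _ _ => by ring
    · simp only [h2.zero n hn, mul_zero, Finset.sum_const_zero]
  · simp only [h1.zero s hs, mul_zero, zero_mul, Finset.sum_const_zero]

/-- `‖CC‖` is bounded in `k` (`summable_LN`, `norm_gs_le`) -/
theorem CC_bdd {ψ : O → ℂ} (hq : q ≠ 0) (hψ : IsTw q ψ) {a R : ℝ} (ha : 0 < a) (hR : 0 < R) :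
    (∀ k, Summable fun s : Pr => ‖ψ s * LN a R 0 (nm s) / (Real.sqrt (nm s) : ℂ) * gs 5 (-k) s‖) ∧
    ∃ B : ℝ, ∀ k, ‖CC ψ a R k‖ ≤ B := by
  have hb : ∀ (k : O) (s : Pr), ‖ψ s * LN a R 0 (nm s) / (Real.sqrt (nm s) : ℂ) * gs 5 (-k) s‖ ≤
      nm s ^ (1 : ℝ) * ‖LN a R 0 (nm s)‖ := fun k s => by
    have h0 := (Pr_prim s).ne_zero
    have h1 : 1 ≤ ‖(Real.sqrt (nm s) : ℂ)‖ := by
      rw [Complex.norm_real, Real.norm_of_nonneg (Real.sqrt_nonneg _)]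
      exact Real.one_le_sqrt.2 (one_le_nm h0)
    rw [norm_mul, norm_div, norm_mul, Real.rpow_one, mul_comm (nm s)]
    refine mul_le_mul ((div_le_self (by positivity) h1).trans ?_) (norm_gs_le 5 (-k) h0)
      (norm_nonneg _) (norm_nonneg _)
    exact mul_le_of_le_one_left (norm_nonneg _) (hψ.norm_le hq _)
  have hs := summable_LN ha hR 1
  exact ⟨fun k => Summable.of_nonneg_of_le (fun _ => norm_nonneg _) (hb k) hs, _,
    fun k => tsum_of_norm_bounded hs.hasSum (hb k)⟩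

open Classical in
theorem TT_bdd {ψ : O → ℂ} (hq : q ≠ 0) (hψ : IsTw q ψ) {a N : ℝ} (ha : 0 < a) (hN : 0 < N) :
    (∀ k r : O, r ≠ 0 → Summable fun n : Pr => ‖if r ∣ (n : O) then
      tau0 n * al n * ψ n * conj (sx k n) * LN a (N * nm r) 0 (nm n) else 0‖) ∧
    ∀ (Rs : Finset O) (c : O → ℂ), (∀ r ∈ Rs, r ≠ 0) → ∃ B : ℝ, ∀ k, ‖TT ψ a N 0 Rs c k‖ ≤ B := by
  have hb : ∀ (k r : O) (n : Pr), ‖if r ∣ (n : O) then
      tau0 n * al n * ψ n * conj (sx k n) * LN a (N * nm r) 0 (nm n) else 0‖ ≤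
      nm n ^ (1 / 6 : ℝ) * ‖LN a (N * nm r) 0 (nm n)‖ := fun k r n => by
    have h0 : 0 ≤ nm n ^ (1 / 6 : ℝ) := Real.rpow_nonneg (nm_nonneg _) _
    split_ifs
    · rw [norm_mul, mul_assoc (tau0 n), mul_assoc (tau0 n), norm_mul]
      refine mul_le_mul_of_nonneg_right ((mul_le_of_le_one_right (norm_nonneg _) ?_).trans
        (norm_tau0_le _)) (norm_nonneg _)
      rw [norm_mul, norm_mul, Complex.norm_conj]
      exact mul_le_one₀ (mul_le_one₀ (norm_al_le _) (norm_nonneg _) (hψ.norm_le hq _))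
        (norm_nonneg _) (norm_sx_le _ _)
    · rw [norm_zero]
      positivity
  have hs : ∀ r : O, r ≠ 0 → Summable fun n : Pr => nm n ^ (1 / 6 : ℝ) *
      ‖LN a (N * nm r) 0 (nm n)‖ := fun r hr => summable_LN ha (mul_pos hN (nm_pos hr)) _
  refine ⟨fun k r hr => Summable.of_nonneg_of_le (fun _ => norm_nonneg _) (hb k r) (hs r hr),
    fun Rs c hR => ⟨∑ r ∈ Rs, ‖c r‖ * ∑' n : Pr, nm n ^ (1 / 6 : ℝ) * ‖LN a (N * nm r) 0 (nm n)‖,
      fun k => norm_sum_le_of_le _ fun r hr => ?_⟩⟩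
  rw [norm_mul]
  exact mul_le_mul_of_nonneg_left (tsum_of_norm_bounded (hs r (hR r hr)).hasSum (hb k r))
    (norm_nonneg _)

theorem ilowb_summable {K : ℝ} (hK : 0 < K) {f g : O → ℂ} {A B : ℝ} (hf : ∀ k, ‖f k‖ ≤ A)
    (hg : ∀ k, ‖g k‖ ≤ B) : Summable fun k : O => gw K k * (‖f k‖ * ‖g k‖) :=
  ((summable_gw hK).mul_right (A * B)).of_nonneg_of_le
    (fun k => mul_nonneg (Real.exp_pos _).le (by positivity))
    (fun k => mul_le_mul_of_nonneg_left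
      (mul_le_mul (hf k) (hg k) (norm_nonneg _) ((norm_nonneg _).trans (hf k))) (Real.exp_pos _).le)

open Classical in
theorem ilowb_norm (hq : Lev q) (K : ℝ) (k : O) {c : ℂ} (hc : ‖c‖ ≤ 1) (x y : ℂ) :
    ‖Xi q k * gw K k * (c * (x * y))‖ ≤ if k = 0 then 0 else gw K k * (‖x‖ * ‖y‖) := by
  split_ifs with h
  · rw [h, Xi_zero hq]; simp
  · have h0 : 0 ≤ gw K k := (Real.exp_pos _).le
    rw [norm_mul, norm_mul, norm_mul, norm_mul, Complex.norm_real, Real.norm_of_nonneg h0]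
    calc _ ≤ 1 * gw K k * (1 * (‖x‖ * ‖y‖)) := by gcongr; exact norm_Xi_le hq k
      _ = _ := by ring

open Classical in
theorem ilowb_ite {f : O → ℝ} (hf : Summable f) (h0 : ∀ k, 0 ≤ f k) :
    Summable fun k : O => if k = 0 then 0 else f k :=
  hf.of_nonneg_of_le (fun k => by split_ifs; exacts [le_rfl, h0 k])
    (fun k => by split_ifs; exacts [h0 k, le_rfl])

open Classical in
/-- for fixed `k`: `∑_r cr r ∑'_t smd = ∑_i c i CC TT` (`tsum_mul_tsum_of_summable_norm`,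
`Summable.tsum_finsetSum`); then sum over `k` (`Xi_zero`, `norm_Xi_le`, `summable_gw`,
`norm_tsum_le_tsum_norm`). -/
theorem I0_split (hq : Lev q) (hη : IsTw q η) : ∃ (m : ℕ) (ψ₁ ψ₂ : Fin m → O → ℂ),
    (∀ i, IsTw q (ψ₁ i)) ∧ (∀ i, IsTw q (ψ₂ i)) ∧
    ∀ (a N R K : ℝ) (Rs : Finset O) (cr : O → ℂ), 0 < a → 0 < N → 0 < R → 0 < K →
      (∀ r ∈ Rs, r ≠ 0) →
      (∀ i, Summable fun k : O => gw K k * (‖CC (ψ₁ i) a R k‖ * ‖TT (ψ₂ i) a N 0 Rs cr k‖)) ∧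
      ‖∑ r ∈ Rs, cr r * I0 q η a N R K r‖ ≤ ∑ i, ∑' k : O, if k = 0 then 0 else
        gw K k * (‖CC (ψ₁ i) a R k‖ * ‖TT (ψ₂ i) a N 0 Rs cr k‖) := by
  obtain ⟨m, ψ₁, ψ₂, c, h₁, h₂, hc, hW⟩ := Wt_split hq hη
  refine ⟨m, ψ₁, ψ₂, h₁, h₂, fun a N R K Rs cr ha hN hR hK hRs => ?_⟩
  have hC := fun i => CC_bdd hq.1 (h₁ i) ha hR
  have hT := fun i => TT_bdd hq.1 (h₂ i) ha hN
  have hS : ∀ (Rs : Finset O) (cr : O → ℂ), (∀ r ∈ Rs, r ≠ 0) → ∀ i, Summable fun k : O =>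
      gw K k * (‖CC (ψ₁ i) a R k‖ * ‖TT (ψ₂ i) a N 0 Rs cr k‖) := fun Rs cr hRs i => by
    obtain ⟨A, hA⟩ := (hC i).2
    obtain ⟨B, hB⟩ := (hT i).2 Rs cr hRs
    exact ilowb_summable hK hA hB
  have hS' := fun (Rs : Finset O) (cr : O → ℂ) (hRs : ∀ r ∈ Rs, r ≠ 0) i =>
    ilowb_ite (hS Rs cr hRs i) (fun k => mul_nonneg (Real.exp_pos _).le (by positivity))
  have hG : ∀ (Rs : Finset O) (cr : O → ℂ), (∀ r ∈ Rs, r ≠ 0) → ∀ i, Summable fun k : O =>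
      Xi q k * gw K k * (c i * (CC (ψ₁ i) a R k * TT (ψ₂ i) a N 0 Rs cr k)) := fun Rs cr hRs i =>
    Summable.of_norm_bounded (hS' Rs cr hRs i) (fun k => ilowb_norm hq K k (hc i) _ _)
  refine ⟨hS Rs cr hRs, ?_⟩
  have e1 : ∀ r ∈ Rs, ∀ k, ∑' t : Pr × Pr, smd q η a N R r k t.1 t.2 =
      ∑ i, c i * (CC (ψ₁ i) a R k * TT (ψ₂ i) a N 0 {r} (fun _ => 1) k) := fun r hr k => by
    have hs := fun i => summable_mul_of_summable_norm ((hC i).1 k) ((hT i).1 k r (hRs r hr))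
    simp only [TT, Finset.sum_singleton, one_mul, CC]
    rw [Finset.sum_congr rfl fun i _ => by
      rw [tsum_mul_tsum_of_summable_norm ((hC i).1 k) ((hT i).1 k r (hRs r hr)), ← tsum_mul_left],
      ← Summable.tsum_finsetSum fun i _ => (hs i).mul_left (c i)]
    refine tsum_congr fun t => ?_
    unfold smd
    split_ifs
    · calc _ = Wt t.1 t.2 * rc (one q) (q ^ 5) t.1 * rc η (16 * q) t.2 *
            (LN a R 0 (nm t.1) / (Real.sqrt (nm t.1) : ℂ) * gs 5 (-k) t.1 *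
              (tau0 t.2 * al t.2 * conj (sx k t.2) * LN a (N * nm r) 0 (nm t.2))) := by ring
        _ = _ := by
          rw [hW, Finset.sum_mul]
          exact Finset.sum_congr rfl fun i _ => by ring
    · simp
  have e2 : ∀ r ∈ Rs, cr r * I0 q η a N R K r = ∑ i, ∑' k : O, cr r * (Xi q k * gw K k *
      (c i * (CC (ψ₁ i) a R k * TT (ψ₂ i) a N 0 {r} (fun _ => 1) k))) := fun r hr => by
    have hr' : ∀ x ∈ ({r} : Finset O), x ≠ 0 := fun x hx => Finset.mem_singleton.1 hx ▸ hRs r hr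
    rw [← Summable.tsum_finsetSum fun i _ => (hG _ _ hr' i).mul_left (cr r), I0, ← tsum_mul_left]
    refine tsum_congr fun k => ?_
    rw [e1 r hr, Finset.mul_sum, Finset.mul_sum]
  rw [Finset.sum_congr rfl e2, Finset.sum_comm]
  refine (norm_sum_le _ _).trans (Finset.sum_le_sum fun i _ => ?_)
  rw [← Summable.tsum_finsetSum fun r hr => (hG _ _
    (fun x hx => Finset.mem_singleton.1 hx ▸ hRs r hr) i).mul_left (cr r)]
  refine tsum_of_norm_bounded (hS' Rs cr hRs i).hasSum fun k => ?_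
  refine le_trans (le_of_eq ?_) (ilowb_norm hq K k (hc i) _ _)
  congr 1
  simp only [TT, Finset.sum_singleton, one_mul, Finset.mul_sum]
  exact Finset.sum_congr rfl fun r _ => by ring

end Crest.Agent.R17.HI
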