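import Crest.Agent.R17.I.Low

/-!
Row 17, block I (owner helper88): regrouping the slots on the low side.
-/

set_option autoImplicit false

namespace Crest.Agent.R17.HI

open scoped ComplexConjugate

open Classical in
/-- the marks that go with the unmarked set `S` -/
noncomputable def RsS (Ps : Finset O) (J : ℕ) (S : Finset O) : Finset O :=
  ((Ps \ S).powersetCard (J - S.card)).image fun B => ∏ p ∈ B, p

/-- the coefficient of a mark -/
noncomputable def cr (η ω : O → ℂ) (r : O) : ℂ := ∏ p ∈ pfs r, ω p * conj (η p)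

theorem norm_cr_le {q : O} {η ω : O → ℂ} (hq : q ≠ 0) (hη : IsTw q η) (hω : ∀ p, ‖ω p‖ ≤ 1) (r : O) :
    ‖cr η ω r‖ ≤ 1 := by
  unfold cr
  rw [norm_prod]
  refine Finset.prod_le_one (fun p _ => norm_nonneg _) fun p _ => ?_
  rw [norm_mul, Complex.norm_conj]
  exact mul_le_one₀ (hω p) (norm_nonneg _) (hη.norm_le hq p)

/-- `prim_prod`, `squarefree_prod`, `IsCoprime.prod_left`, `nm_prod`, `Finset.prod_le_pow_card` -/
theorem mem_RsS {q : O} {P : ℝ} {Ps : Finset O} {ω : O → ℂ} (hS : Slots q P Ps ω) (J : ℕ)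
    (S : Finset O) : ∀ r ∈ RsS Ps J S,
      Prim r ∧ Squarefree r ∧ IsCoprime r q ∧ nm r ≤ P ^ (J - S.card) := by
  classical
  intro r hr
  unfold RsS at hr
  obtain ⟨B, hB, rfl⟩ := Finset.mem_image.1 hr
  obtain ⟨h1, h2⟩ := Finset.mem_powersetCard.1 hB
  have h3 := fun p (hp : p ∈ B) => hS.2.1 p (Finset.mem_sdiff.1 (h1 hp)).1
  refine ⟨prim_prod fun p hp => (h3 p hp).2.1,
    squarefree_prod fun p hp => ⟨(h3 p hp).1, (h3 p hp).2.1⟩,
    IsCoprime.prod_left fun p hp => (h3 p hp).2.2.1, ?_⟩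
  rw [nm_prod, ← h2, ← Finset.prod_const]
  exact Finset.prod_le_prod (fun p _ => nm_nonneg p) fun p hp => (h3 p hp).2.2.2

open Classical in
/-- pairs `(A, S)`, `S ⊆ A`, `|A| = J` ↔ pairs `(S, B)`, `B = A \ S ⊆ Ps \ S`, `|B| = J - |S|`
(`Finset.sum_sigma'`, `Finset.sum_nbij'`); `Finset.sum_image` with `pfs_prod` (injectivity and value of
`cr`). -/
theorem prb_regroup (F : ℝ → ℝ → O → ℂ) (η ω : O → ℂ) {Ps : Finset O}
    (h : ∀ p ∈ Ps, Prime p ∧ Prim p) (J : ℕ) (R K : ℝ) :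
    prb F η ω Ps J R K = ∑ S ∈ Ps.powerset with S.card ≤ J, (∏ p ∈ S, -(ω p * nm p)) *
      ∑ r ∈ RsS Ps J S, cr η ω r * F (R / nS S) (K / nS S ^ 2) r := by
  have hB : ∀ S, ∀ B ∈ (Ps \ S).powersetCard (J - S.card), pfs (∏ p ∈ B, p) = B := fun S B hB =>
    pfs_prod fun p hp => h p (Finset.mem_sdiff.1 ((Finset.mem_powersetCard.1 hB).1 hp)).1
  have e : ∀ S, ∑ r ∈ RsS Ps J S, cr η ω r * F (R / nS S) (K / nS S ^ 2) r =
      ∑ B ∈ (Ps \ S).powersetCard (J - S.card), (∏ p ∈ B, ω p * conj (η p)) *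
        F (R / nS S) (K / nS S ^ 2) (∏ p ∈ B, p) := by
    intro S
    unfold RsS
    rw [Finset.sum_image fun B h1 B' h2 h3 => by rw [← hB S B h1, ← hB S B' h2]; exact congrArg pfs h3]
    exact Finset.sum_congr rfl fun B h1 => by rw [cr, hB S B h1]
  simp only [e, Finset.mul_sum]
  unfold prb
  rw [Finset.sum_sigma', Finset.sum_sigma']
  refine Finset.sum_nbij' (fun x => ⟨x.2, x.1 \ x.2⟩) (fun x => ⟨x.1 ∪ x.2, x.1⟩) ?_ ?_ ?_ ?_ ?_
  · rintro ⟨A, S⟩ hx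
    simp only [Finset.mem_sigma, Finset.mem_powersetCard, Finset.mem_powerset,
      Finset.mem_filter] at hx ⊢
    obtain ⟨⟨h1, rfl⟩, h2⟩ := hx
    exact ⟨⟨h2.trans h1, Finset.card_le_card h2⟩, Finset.sdiff_subset_sdiff h1 subset_rfl,
      Finset.card_sdiff_of_subset h2⟩
  · rintro ⟨S, B⟩ hx
    simp only [Finset.mem_sigma, Finset.mem_powersetCard, Finset.mem_powerset,
      Finset.mem_filter] at hx ⊢
    obtain ⟨⟨h1, h2⟩, h3, h4⟩ := hx
    refine ⟨⟨Finset.union_subset h1 (h3.trans Finset.sdiff_subset), ?_⟩, Finset.subset_union_left⟩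
    rw [Finset.card_union_of_disjoint (Finset.disjoint_sdiff.mono_right h3)]
    omega
  · rintro ⟨A, S⟩ hx
    simp only [Finset.mem_sigma, Finset.mem_powerset] at hx
    simp only [Finset.union_sdiff_of_subset hx.2]
  · rintro ⟨S, B⟩ hx
    simp only [Finset.mem_sigma, Finset.mem_powersetCard] at hx
    simp only [Finset.union_sdiff_cancel_left (Finset.disjoint_sdiff.mono_right hx.2.1)]
  · rintro ⟨A, S⟩ -
    simp only [co]
    ring

open Classical in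
/-- field `low` of `High` (`C₁ = (2π)³ N q`); `I0_split`, `prb_regroup`.  Take
`Rs S = if S ⊆ Ps then RsS Ps J S else ∅` (then `TT … ∅ … = 0` makes the summability clause trivial for
`S ⊄ Ps`; for `S ⊆ Ps` one has `0 < nS S`), `c = cr η ω`. -/
theorem low {q : O} {η : O → ℂ} (hq : Lev q) (hη : IsTw q η) {a : ℝ} (ha : 0 < a) (J : ℕ) :
    ∃ (m : ℕ) (ψ₁ ψ₂ : Fin m → O → ℂ) (C₁ : ℝ), 0 ≤ C₁ ∧ (∀ i, IsTw q (ψ₁ i)) ∧
    (∀ i, IsTw q (ψ₂ i)) ∧
    ∀ (P : ℝ) (Ps : Finset O) (ω : O → ℂ) (N R K : ℝ), Slots q P Ps ω → 0 < N → 0 < R → 0 < K →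
    ∃ (Rs : Finset O → Finset O) (c : O → ℂ), (∀ r, ‖c r‖ ≤ 1) ∧
      (∀ S, ∀ r ∈ Rs S, Prim r ∧ Squarefree r ∧ IsCoprime r q ∧ nm r ≤ P ^ (J - S.card)) ∧
      (∀ S i, Summable fun k : O => gw (K / (∏ p ∈ S, nm p) ^ 2) k *
        (‖CC (ψ₁ i) a (R / ∏ p ∈ S, nm p) k‖ * ‖TT (ψ₂ i) a N 0 (Rs S) c k‖)) ∧
      ‖II q η a J Ps ω N R K‖ ≤ C₁ * ∑ S ∈ Ps.powerset with S.card ≤ J, (∏ p ∈ S, ‖ω p‖ * nm p) *
        ∑ i, ∑' k : O, if k = 0 then 0 else gw (K / (∏ p ∈ S, nm p) ^ 2) k *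
          (‖CC (ψ₁ i) a (R / ∏ p ∈ S, nm p) k‖ * ‖TT (ψ₂ i) a N 0 (Rs S) c k‖) := by
  obtain ⟨m, ψ₁, ψ₂, h1, h2, h3⟩ := I0_split hq hη
  have hq0 := nm_nonneg q
  refine ⟨m, ψ₁, ψ₂, (2 * Real.pi) ^ 3 * nm q, by positivity, h1, h2, ?_⟩
  intro P Ps ω N R K hS hN hR hK
  have h4 : ∀ S ⊆ Ps, 0 < nS S := fun S hs =>
    Finset.prod_pos fun p hp => nm_pos (hS.2.1 p (hs hp)).1.ne_zero
  have h5 := fun S (hs : S ⊆ Ps) => h3 a N (R / nS S) (K / nS S ^ 2) (RsS Ps J S) (cr η ω) ha hN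
    (div_pos hR (h4 S hs)) (div_pos hK (pow_pos (h4 S hs) 2))
    fun r hr => (mem_RsS hS J S r hr).1.ne_zero
  refine ⟨fun S => if S ⊆ Ps then RsS Ps J S else ∅, cr η ω, norm_cr_le hq.1 hη hS.2.2,
    fun S r hr => ?_, fun S i => ?_, ?_⟩
  · beta_reduce at hr
    split_ifs at hr
    · exact mem_RsS hS J S r hr
    · exact absurd hr (Finset.notMem_empty r)
  · beta_reduce
    split_ifs with hs
    · exact (h5 S hs).1 i
    · simp only [TT, Finset.sum_empty, norm_zero, mul_zero]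
      exact summable_zero
  · unfold II
    rw [prb_regroup _ η ω (fun p hp => ⟨(hS.2.1 p hp).1, (hS.2.1 p hp).2.1⟩), Finset.mul_sum]
    refine norm_sum_le_of_le _ fun S hs => ?_
    have hs' := Finset.mem_powerset.1 (Finset.mem_filter.1 hs).1
    have e : ∑ r ∈ RsS Ps J S, cr η ω r * ((((2 * Real.pi) ^ 3 : ℝ) : ℂ) *
        (nm q * I0 q η a N (R / nS S) (K / nS S ^ 2) r)) =
        (((2 * Real.pi) ^ 3 * nm q : ℝ) : ℂ) *
          ∑ r ∈ RsS Ps J S, cr η ω r * I0 q η a N (R / nS S) (K / nS S ^ 2) r := by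
      rw [Finset.mul_sum]
      exact Finset.sum_congr rfl fun r _ => by push_cast; ring
    have e2 : ‖∏ p ∈ S, -(ω p * (nm p : ℂ))‖ = ∏ p ∈ S, ‖ω p‖ * nm p := by
      rw [norm_prod]
      exact Finset.prod_congr rfl fun p _ => by
        rw [norm_neg, norm_mul, Complex.norm_of_nonneg (nm_nonneg p)]
    simp only [if_pos hs']
    rw [e, norm_mul, norm_mul, e2, Complex.norm_of_nonneg (by positivity), mul_left_comm]
    exact mul_le_mul_of_nonneg_left (mul_le_mul_of_nonneg_left (h5 S hs').2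
      (Finset.prod_nonneg fun p _ => mul_nonneg (norm_nonneg _) (nm_nonneg p))) (by positivity)

end Crest.Agent.R17.HI
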