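import Crest.Agent.R17.I.High
import Crest.Agent.R17.I.Low2
import Crest.Agent.R17.I.Hol
import Crest.Agent.R17.I.Bound2

/-!
Row 17, block I (owner helper88): assembly.
-/

set_option autoImplicit false

namespace Crest.Agent.R17

open HI

theorem stHigh : StHigh := by
  obtain ⟨B₀, hB⟩ := exists_good
  refine ⟨B₀, fun q η a J hq hη hb ha => ?_⟩
  have hg := hB q hq hb
  obtain ⟨m, ψ₁, ψ₂, C₁, hC, h₁, h₂, hlow⟩ := low hq hη ha J
  have hol : ∀ (P : ℝ) (Ps : Finset O) (ω : O → ℂ) (u : O) (e : ℝ), Slots q P Ps ω → Row q u →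
      0 < e → Hol (HH q η J Ps ω u) (Om1 e ∪ Om2) := fun P Ps ω u e hS hu he =>
    (hol_HH hq hη J (fun p hp => (hS.2.1 p hp).1) ω hu (lt_min he (by norm_num))
      (min_le_right _ _)).mono sub_Og
  exact ⟨{
    c₁ := cc q
    H := HH q η J
    H₀ := H0 q η
    I := II q η a J
    Iu := Iu q η a J
    m := m
    ψ₁ := ψ₁
    ψ₂ := ψ₂
    C₁ := C₁
    c₁_pos := cc_pos hq.1
    C₁_nonneg := hC
    tw₁ := h₁
    tw₂ := h₂
    low := hlow
    rows := fun P Ps ω N R K hS hN hR hK => rows_Iu hq hη ha J hS hN hR hK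
    high := high hq hη ha J
    cont := fun P Ps ω u e hS hu he => (hol P Ps ω u e hS hu he).cont
    holo := fun P Ps ω u e x w z hS hu he => (hol P Ps ω u e hS hu he).holo x w z
    bound₁ := bound₁ hg hη J
    bound₂ := bound₂ hg hη J
    H₀_holo := H0_holo hq hη
    H₀_near := fun x hx => hg.near η x hη hx
    main := main_term hg hη J }⟩

end Crest.Agent.R17
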