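import Crest.Agent.R17.I.G0

/-!
Row 17, block I (owner helper88): multiplicativity and trivial bounds of `Fc`, `F3`, `mono`.
-/

set_option autoImplicit false

namespace Crest.Agent.R17.HI

open scoped ComplexConjugate

variable {q : O} {η : O → ℂ}

theorem norm_Wt {s n : O} (hs : IsCoprime s 2) (hn : IsCoprime n 2) : ‖Wt s n‖ = 1 := by
  rw [Wt, norm_mul, Complex.norm_conj, norm_eps hs hn, norm_gam hn, mul_one]

/-- `eps_mul_left`, `eps_mul_right`, `gam_mul`, `conj_eps` -/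
theorem Wt_mul {s n s' n' : O} (hs : IsCoprime s 2) (hn : IsCoprime n 2) (hs' : IsCoprime s' 2)
    (hn' : IsCoprime n' 2) :
    Wt (s * s') (n * n') = eps s n' * eps s' n * eps n n' * (Wt s n * Wt s' n') := by
  rw [Wt, Wt, Wt, eps_mul_left hs hs' (hn.mul_left hn'), eps_mul_right hs hn hn',
    eps_mul_right hs' hn hn', gam_mul hn hn', map_mul, map_mul, conj_eps hn hn']
  ring

theorem Fc_zero_left (η : O → ℂ) (m : O) {s : O} (n : O) (h : ¬ IsCoprime s q) :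
    Fc q η m s n = 0 := by
  rw [Fc, (isTw_one q).zero s h, zero_mul, zero_mul, zero_mul]

theorem Fc_zero_right (hη : IsTw q η) (m s : O) {n : O} (h : ¬ IsCoprime n q) :
    Fc q η m s n = 0 := by
  rw [Fc, rc, hη.zero n h, zero_mul, mul_zero, mul_zero, zero_mul]

theorem Fc_one (hη : IsTw q η) (m : O) : Fc q η m 1 1 = 1 := by
  rw [Fc, Wt, rc, (isTw_one q).one, hη.one, G0_one, eps_one_left isCoprime_one_left]
  simp

/-- if one of `s, n, s', n'` is not prime to `q` both sides vanish; otherwise `Wt_mul`, `tau0_mul`,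
`al_mul`, `G0_mul`, `eps_mul_self`, `cb_mul_conj` -/
theorem Fc_mul (hq : Lev q) (hη : IsTw q η) {s n s' n' : O} (hs : Prim s) (hn : Prim n)
    (hs' : Prim s') (hn' : Prim n') (h : IsCoprime (s * n) (s' * n')) (m : O) :
    Fc q η m (s * s') (n * n') = Fc q η m s n * Fc q η m s' n' := by
  by_cases a1 : IsCoprime s q
  swap
  · rw [Fc_zero_left η m n a1, Fc_zero_left η m _ fun h => a1 h.of_mul_left_left, zero_mul]
  by_cases a2 : IsCoprime s' q
  swap
  · rw [Fc_zero_left η m n' a2, Fc_zero_left η m _ fun h => a2 h.of_mul_left_right, mul_zero]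
  by_cases a3 : IsCoprime n q
  swap
  · rw [Fc_zero_right hη m s a3, Fc_zero_right hη m _ fun h => a3 h.of_mul_left_left, zero_mul]
  by_cases a4 : IsCoprime n' q
  swap
  · rw [Fc_zero_right hη m s' a4, Fc_zero_right hη m _ fun h => a4 h.of_mul_left_right, mul_zero]
  have b1 := hq.coprime_two a1
  have b2 := hq.coprime_two a2
  have b3 := hq.coprime_two a3
  have b4 := hq.coprime_two a4
  have hnn : IsCoprime n n' := h.of_mul_left_right.of_mul_right_right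
  have e1 := eps_mul_self b1 b4
  have e2 := eps_mul_self b2 b3
  have e3 := eps_mul_self b3 b4
  have e4 := cb_mul_conj n n'
  rw [if_pos ⟨hn'.coprime_three, hnn⟩] at e4
  rw [Fc, Fc, Fc, (isTw_one q).mul, Wt_mul b1 b3 b2 b4, tau0_mul hn hn' hnn, al_mul,
    G0_mul hs hn hs' hn' ((b1.mul_left b3).mul_left (b2.mul_left b4)) h, rc, rc, rc, hη.mul,
    sx_mul_right]
  calc _ = (eps s n' * eps s n') * (eps s' n * eps s' n) * (eps n n' * eps n n') *
        (cb n n' * conj (cb n n')) *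
        (one q s * Wt s n * (tau0 n * al n * (η n * sx 16 n)) * G0 m s n *
          (one q s' * Wt s' n' * (tau0 n' * al n' * (η n' * sx 16 n')) * G0 m s' n')) := by ring
    _ = _ := by rw [e1, e2, e3, e4]; ring

/-- `G0_six` -/
theorem Fc_six (hq : Lev q) (hη : IsTw q η) {l s n : O} (h : IsCoprime l (s * n)) (m : O) :
    Fc q η (m * l ^ 6) s n = Fc q η m s n := by
  by_cases a1 : IsCoprime s q
  swap
  · rw [Fc_zero_left η _ n a1, Fc_zero_left η _ n a1]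
  by_cases a3 : IsCoprime n q
  swap
  · rw [Fc_zero_right hη _ s a3, Fc_zero_right hη _ s a3]
  rw [Fc, Fc, G0_six (hq.coprime_six a1) (hq.coprime_six a3) h]

theorem F3_one (hη : IsTw q η) (u : O) : F3 q η u 1 1 1 = 1 := by
  rw [F3, (isTw_one q).one, Fc_one hη, one_mul]

theorem F3_mul (hq : Lev q) (hη : IsTw q η) (u : O) {l s n l' s' n' : O} (hs : Prim s) (hn : Prim n)
    (hs' : Prim s') (hn' : Prim n') (h : IsCoprime (l * s * n) (l' * s' * n')) :
    F3 q η u (l * l') (s * s') (n * n') = F3 q η u l s n * F3 q η u l' s' n' := by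
  rw [mul_assoc, mul_assoc] at h
  have e1 : Fc q η (u * (l * l') ^ 6) s n = Fc q η (u * l ^ 6) s n := by
    rw [mul_pow, ← mul_assoc]
    exact Fc_six hq hη h.of_mul_left_right.of_mul_right_left.symm _
  have e2 : Fc q η (u * (l * l') ^ 6) s' n' = Fc q η (u * l' ^ 6) s' n' := by
    rw [mul_comm l, mul_pow, ← mul_assoc]
    exact Fc_six hq hη h.of_mul_left_left.of_mul_right_right _
  rw [F3, F3, F3, (isTw_one q).mul,
    Fc_mul hq hη hs hn hs' hn' h.of_mul_left_right.of_mul_right_right, e1, e2]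
  ring

/-- `norm_tau0_le`, `norm_G0_le` -/
theorem norm_Fc_le (hq : Lev q) (hη : IsTw q η) (m : O) {s n : O} (hs : s ≠ 0) (hn : n ≠ 0) :
    ‖Fc q η m s n‖ ≤ nm s ^ 2 * nm n ^ (7 / 6 : ℝ) := by
  have h0 : 0 ≤ nm s ^ 2 * nm n ^ (7 / 6 : ℝ) := by
    have := nm_nonneg n
    positivity
  by_cases h1 : IsCoprime s q
  swap
  · rwa [Fc_zero_left η m n h1, norm_zero]
  by_cases h2 : IsCoprime n q
  swap
  · rwa [Fc_zero_right hη m s h2, norm_zero]
  have h3 : ‖rc η 16 n‖ ≤ 1 := by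
    rw [rc, norm_mul]
    exact mul_le_one₀ (hη.norm_le hq.1 n) (norm_nonneg _) (norm_sx_le _ _)
  have h4 := nm_pos hn
  have h5 : nm n ^ (7 / 6 : ℝ) = nm n ^ (1 / 6 : ℝ) * nm n := by
    rw [← Real.rpow_add_one h4.ne']
    norm_num
  rw [Fc, one, if_pos h1, one_mul, norm_mul, norm_mul, norm_mul, norm_mul,
    norm_Wt (hq.coprime_two h1) (hq.coprime_two h2), one_mul, norm_al hn, mul_one, h5]
  calc ‖tau0 n‖ * ‖rc η 16 n‖ * ‖G0 m s n‖ ≤ nm n ^ (1 / 6 : ℝ) * 1 * (nm s ^ 2 * nm n) := by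
        gcongr
        · exact norm_tau0_le n
        · exact norm_G0_le m hs hn
    _ = _ := by ring

theorem norm_F3_le (hq : Lev q) (hη : IsTw q η) (u l : O) {s n : O} (hs : s ≠ 0) (hn : n ≠ 0) :
    ‖F3 q η u l s n‖ ≤ nm s ^ 2 * nm n ^ (7 / 6 : ℝ) := by
  rw [F3, norm_mul]
  exact (mul_le_of_le_one_left (norm_nonneg _) ((isTw_one q).norm_le hq.1 l)).trans
    (norm_Fc_le hq hη _ hs hn)

theorem mono_one (x w z : ℂ) : mono x w z 1 1 1 = 1 := by
  simp [mono]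

theorem imultb_mul (a b : O) (s : ℂ) :
    (nm (a * b) : ℂ) ^ s = (nm a : ℂ) ^ s * (nm b : ℂ) ^ s := by
  rw [nm_mul, Complex.ofReal_mul, Complex.mul_cpow_ofReal_nonneg (nm_nonneg a) (nm_nonneg b)]

theorem imultb_pow (a : O) (k : ℕ) (s : ℂ) : (nm (a ^ k) : ℂ) ^ s = ((nm a : ℂ) ^ s) ^ k := by
  induction k with
  | zero => simp
  | succ k ih => rw [pow_succ, imultb_mul, ih, pow_succ]

/-- `Complex.mul_cpow_ofReal_nonneg` -/
theorem mono_mul (x w z : ℂ) (l s n l' s' n' : O) :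
    mono x w z (l * l') (s * s') (n * n') = mono x w z l s n * mono x w z l' s' n' := by
  simp only [mono, imultb_mul]
  ring

theorem mono_pow (x w z : ℂ) (p : O) (ι σ ν : ℕ) :
    mono x w z (p ^ ι) (p ^ σ) (p ^ ν) =
      ((nm p : ℂ) ^ (-(6 * z))) ^ ι * lS p w ^ σ * lY p x ^ ν := by
  simp only [mono, imultb_pow, lS, lY]

theorem norm_mono (x w z : ℂ) {l s n : O} (hl : l ≠ 0) (hs : s ≠ 0) (hn : n ≠ 0) :
    ‖mono x w z l s n‖ =
      nm l ^ (-(6 * z.re)) * nm s ^ (-(1 + w.re)) * nm n ^ (-(1 / 2 + x.re)) := by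
  rw [mono, norm_mul, norm_mul, Complex.norm_cpow_eq_rpow_re_of_pos (nm_pos hl),
    Complex.norm_cpow_eq_rpow_re_of_pos (nm_pos hs), Complex.norm_cpow_eq_rpow_re_of_pos (nm_pos hn)]
  simp

/-- majorant `N(l)^(-2) N(s)^(-2) N(n)^(-2)`; `summable_nm_rpow`, `Summable.mul_of_nonneg` -/
theorem summable_F3_real (hq : Lev q) (hη : IsTw q η) (u : O) {X W Z : ℝ} (hX : 3 ≤ X) (hW : 3 ≤ W)
    (hZ : 17 / 50 ≤ Z) : Summable fun t : Pr × Pr × Pr => ‖F3 q η u t.1 t.2.1 t.2.2‖ *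
      (nm t.1 ^ (-(6 * Z)) * nm t.2.1 ^ (-(1 + W)) * nm t.2.2 ^ (-(1 / 2 + X))) := by
  have h1 : Summable fun n : Pr => nm n ^ (-2 : ℝ) :=
    (summable_nm_rpow (σ := 2) (by norm_num)).subtype _
  have h0 : ∀ (n : O) (e : ℝ), 0 ≤ nm n ^ e := fun n e => Real.rpow_nonneg (nm_nonneg n) e
  have h2 := h1.mul_of_nonneg (h1.mul_of_nonneg h1 (fun _ => h0 _ _) fun _ => h0 _ _)
    (fun _ => h0 _ _) fun _ => mul_nonneg (h0 _ _) (h0 _ _)
  refine h2.of_nonneg_of_le (fun t => mul_nonneg (norm_nonneg _)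
    (mul_nonneg (mul_nonneg (h0 _ _) (h0 _ _)) (h0 _ _))) fun ⟨l, s, n⟩ => ?_
  have hl := one_le_nm (Pr_prim l).ne_zero
  have hs := one_le_nm (Pr_prim s).ne_zero
  have hn := one_le_nm (Pr_prim n).ne_zero
  have a1 : nm l ^ (-(6 * Z)) ≤ nm l ^ (-2 : ℝ) :=
    Real.rpow_le_rpow_of_exponent_le hl (by linarith)
  have a2 : nm s ^ 2 * nm s ^ (-(1 + W)) ≤ nm s ^ (-2 : ℝ) := by
    rw [← Real.rpow_two, ← Real.rpow_add (by linarith)]
    exact Real.rpow_le_rpow_of_exponent_le hs (by linarith)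
  have a3 : nm n ^ (7 / 6 : ℝ) * nm n ^ (-(1 / 2 + X)) ≤ nm n ^ (-2 : ℝ) := by
    rw [← Real.rpow_add (by linarith)]
    exact Real.rpow_le_rpow_of_exponent_le hn (by linarith)
  calc _ ≤ nm s ^ 2 * nm n ^ (7 / 6 : ℝ) *
        (nm l ^ (-(6 * Z)) * nm s ^ (-(1 + W)) * nm n ^ (-(1 / 2 + X))) :=
        mul_le_mul_of_nonneg_right (norm_F3_le hq hη u l (Pr_prim s).ne_zero (Pr_prim n).ne_zero)
          (mul_nonneg (mul_nonneg (h0 _ _) (h0 _ _)) (h0 _ _))
    _ = nm l ^ (-(6 * Z)) * (nm s ^ 2 * nm s ^ (-(1 + W)) *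
        (nm n ^ (7 / 6 : ℝ) * nm n ^ (-(1 / 2 + X)))) := by ring
    _ ≤ nm l ^ (-2 : ℝ) * (nm s ^ (-2 : ℝ) * nm n ^ (-2 : ℝ)) := by
        gcongr

theorem summable_F3 (hq : Lev q) (hη : IsTw q η) (u : O) {x w z : ℂ} (hx : 3 ≤ x.re) (hw : 3 ≤ w.re)
    (hz : 17 / 50 ≤ z.re) {g : O → ℂ} {M : ℝ} (hg : ∀ n, ‖g n‖ ≤ M) :
    Summable fun t : Pr × Pr × Pr =>
      F3 q η u t.1 t.2.1 t.2.2 * g t.2.2 * mono x w z t.1 t.2.1 t.2.2 := by
  refine ((summable_F3_real hq hη u hx hw hz).mul_left M).of_norm_bounded fun t => ?_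
  rw [norm_mul, norm_mul, ← norm_mono x w z (Pr_prim _).ne_zero (Pr_prim _).ne_zero
    (Pr_prim _).ne_zero, ← mul_assoc, mul_comm M]
  gcongr
  exact hg _

end Crest.Agent.R17.HI
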