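import Crest.Agent.R17.I.Tab

/-!
Row 17, block I (owner helper88): bounds for the finite sum `Nn`.
-/

set_option autoImplicit false

namespace Crest.Agent.R17.HI

open scoped ComplexConjugate

variable {q p u : O} {η : O → ℂ} {x w z : ℂ} {c : ℝ}

theorem innbda_one (q n : O) : ‖one q n‖ ≤ 1 := by
  unfold one
  split_ifs <;> simp

theorem innbda_cpow (hp : p ≠ 0) (s : ℂ) : ‖(nm p : ℂ) ^ s‖ = nm p ^ s.re :=
  Complex.norm_cpow_eq_rpow_re_of_pos (nm_pos hp) s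

theorem innbda_mul (hp : p ≠ 0) {a : ℂ} (ha : ‖a‖ ≤ 1) (s : ℂ) : ‖a * (nm p : ℂ) ^ s‖ ≤ nm p ^ s.re := by
  rw [norm_mul, innbda_cpow hp]
  exact mul_le_of_le_one_left (Real.rpow_nonneg (nm_nonneg p) _) ha

theorem innbda_rc {ψ : O → ℂ} (h : ‖ψ p‖ ≤ 1) (u : O) : ‖rc ψ u p‖ ≤ 1 := by
  unfold rc
  rw [norm_mul]
  exact mul_le_one₀ h (norm_nonneg _) (norm_sx_le _ _)

theorem norm_lV_le (hp : p ≠ 0) (q : O) (z : ℂ) : ‖lV q p z‖ ≤ nm p ^ (-(6 * z.re)) := by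
  have h := innbda_mul hp (innbda_one q p) (-(6 * z))
  simpa [lV] using h

theorem norm_lW_le (hp : p ≠ 0) (q u : O) (w : ℂ) : ‖lW q u p w‖ ≤ nm p ^ (-w.re) := by
  exact innbda_mul hp (innbda_rc (innbda_one q p) _) (-w)

theorem norm_lD_le (hq : q ≠ 0) (hη : IsTw q η) (hp : p ≠ 0) (u : O) (x : ℂ) :
    ‖lD η u p x‖ ≤ nm p ^ (-x.re) := by
  exact innbda_mul hp (innbda_rc (hη.norm_le hq p) _) (-x)

theorem norm_lρ_le (hq : q ≠ 0) (hη : IsTw q η) (hp : p ≠ 0) (x z : ℂ) :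
    ‖lρ η p x z‖ ≤ nm p ^ (4 - 6 * x.re - 6 * z.re) := by
  have h1 : ‖(al p * η p) ^ 6‖ ≤ 1 := by
    rw [norm_pow, norm_mul]
    exact pow_le_one₀ (by positivity) (mul_le_one₀ (norm_al_le p) (norm_nonneg _) (hη.norm_le hq p))
  have h := innbda_mul hp h1 (4 - 6 * x - 6 * z)
  have e : (4 - 6 * x - 6 * z).re = 4 - 6 * x.re - 6 * z.re := by simp
  rwa [e] at h

theorem norm_lS (hp : p ≠ 0) (w : ℂ) : ‖lS p w‖ = nm p ^ (-(1 + w.re)) := by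
  unfold lS
  rw [innbda_cpow hp]
  simp

theorem norm_lY (hp : p ≠ 0) (x : ℂ) : ‖lY p x‖ = nm p ^ (-(1 / 2 + x.re)) := by
  unfold lY
  rw [innbda_cpow hp]
  simp

/-- on `Og c` the denominators are harmless (for `p ∣ q` all three vanish; else `seven_le_nm`,
`Q ^ (-1/2) ≤ 1/2`) -/
theorem small (hq : Lev q) (hη : IsTw q η) (hp : Prime p) (u : O) (h : (x, w, z) ∈ Og c) :
    ‖lV q p z‖ ≤ 1 / 2 ∧ ‖lD η u p x‖ ≤ 1 / 2 ∧ ‖lρ η p x z‖ ≤ 1 / 2 := by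
  by_cases hpq : p ∣ q
  · have hc : ¬ IsCoprime p q := fun hc => hp.not_isUnit (hc.isUnit_of_dvd' dvd_rfl hpq)
    have h1 : one q p = 0 := if_neg hc
    have h2 : η p = 0 := hη.zero p hc
    simp [lV, lD, lρ, rc, h1, h2]
  · obtain ⟨h1, -, h3, -, h5, -, -⟩ := h
    simp only at h1 h3 h5
    have h7 := seven_le_nm hq hp hpq
    have key : ∀ t : ℝ, t ≤ -(1 / 2) → nm p ^ t ≤ 1 / 2 := fun t ht => by
      calc nm p ^ t ≤ nm p ^ (-(1 / 2) : ℝ) := Real.rpow_le_rpow_of_exponent_le (by linarith) ht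
        _ ≤ (4 : ℝ) ^ (-(1 / 2) : ℝ) := Real.rpow_le_rpow_of_nonpos (by norm_num) (by linarith) (by norm_num)
        _ = 1 / 2 := by
          rw [show (4 : ℝ) = 2 ^ (2 : ℝ) by norm_num, ← Real.rpow_mul (by norm_num)]
          norm_num
    exact ⟨(norm_lV_le hp.ne_zero q z).trans (key _ (by linarith)),
      (norm_lD_le hq.1 hη hp.ne_zero u x).trans (key _ (by linarith)),
      (norm_lρ_le hq.1 hη hp.ne_zero x z).trans (key _ (by linarith))⟩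

/-- one term: from `Fc_table` with `u = p ^ v₀ * u'`, `u * (p ^ ι) ^ 6 = p ^ (v₀ + 6 ι) * u'` -/
theorem term_le (hq : Lev q) (hη : IsTw q η) (hp : Prime p) (hp' : Prim p) (hpq : ¬ p ∣ q) {u' : O}
    (hu' : ¬ p ∣ u') (v₀ ι : ℕ) {σ ν : ℕ} (hσ : σ ≤ 1) (h1 : 1 ≤ ν) (h6 : ν ≤ 6) (x w z : ℂ) {μ : ℝ}
    (hμ : ∀ γ, Tab (v₀ + 6 * ι) σ ν γ →
      γ - 6 * z.re * ι - (1 + w.re) * σ - (1 / 2 + x.re) * ν ≤ μ) :
    ‖F3 q η (p ^ v₀ * u') (p ^ ι) (p ^ σ) (p ^ ν) * lV q p z ^ ι * (lS p w ^ σ * lY p x ^ ν)‖ ≤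
      nm p ^ μ := by
  have hp0 := hp.ne_zero
  have hQ := nm_pos hp0
  have e : p ^ v₀ * u' * (p ^ ι) ^ 6 = p ^ (v₀ + 6 * ι) * u' := by ring
  unfold F3
  rw [e]
  rcases Fc_table hq hη hp hp' hpq hu' (v₀ + 6 * ι) hσ h1 h6 with h0 | ⟨γ, hγ, hb⟩
  · rw [h0]
    simp only [mul_zero, zero_mul, norm_zero]
    positivity
  · have hF : ‖one q (p ^ ι) * Fc q η (p ^ (v₀ + 6 * ι) * u') (p ^ σ) (p ^ ν)‖ ≤ nm p ^ γ := by
      rw [norm_mul]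
      exact (mul_le_of_le_one_left (norm_nonneg _) (innbda_one _ _)).trans hb
    have hV : ‖lV q p z ^ ι‖ ≤ (nm p ^ (-(6 * z.re))) ^ ι := by
      rw [norm_pow]
      exact pow_le_pow_left₀ (norm_nonneg _) (norm_lV_le hp0 q z) ι
    calc _ ≤ nm p ^ γ * (nm p ^ (-(6 * z.re))) ^ ι *
          ((nm p ^ (-(1 + w.re))) ^ σ * (nm p ^ (-(1 / 2 + x.re))) ^ ν) := by
          rw [norm_mul, norm_mul _ (lV q p z ^ ι), norm_mul (lS p w ^ σ), norm_pow (lS p w),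
            norm_pow (lY p x), norm_lS hp0, norm_lY hp0]
          gcongr
      _ = nm p ^ (γ - 6 * z.re * ι - (1 + w.re) * σ - (1 / 2 + x.re) * ν) := by
          rw [← Real.rpow_mul_natCast hQ.le, ← Real.rpow_mul_natCast hQ.le, ← Real.rpow_mul_natCast hQ.le,
            ← Real.rpow_add hQ, ← Real.rpow_add hQ, ← Real.rpow_add hQ]
          congr 1
          ring
      _ ≤ nm p ^ μ := Real.rpow_le_rpow_of_exponent_le (one_le_nm hp0) (hμ γ hγ)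

/-- all `36` terms -/
theorem norm_fin36_le (a : ℕ → ℕ → ℕ → ℂ) (V S Y : ℂ) {B : ℝ} (hV : ‖V‖ ≤ 1)
    (h : ∀ ι σ ν, ι ≤ 2 → σ ≤ 1 → 1 ≤ ν → ν ≤ 6 → ‖a ι σ ν * V ^ ι * (S ^ σ * Y ^ ν)‖ ≤ B) :
    ‖fin36 a V S Y‖ ≤ 60 * B := by
  have h1V : ‖1 - V‖ ≤ 2 := by
    have := norm_sub_le 1 V
    rw [norm_one] at this
    linarith
  have key : ∀ σ ∈ Finset.range 2, ∀ ν ∈ Finset.range 6,
      ‖(a 0 σ (ν + 1) * (1 - V) + a 1 σ (ν + 1) * (V * (1 - V)) + a 2 σ (ν + 1) * V ^ 2) *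
        (S ^ σ * Y ^ (ν + 1))‖ ≤ 5 * B := fun σ hσ ν hν => by
    rw [Finset.mem_range] at hσ hν
    have h0 := h 0 σ (ν + 1) (by omega) (by omega) (by omega) (by omega)
    have h1 := h 1 σ (ν + 1) (by omega) (by omega) (by omega) (by omega)
    have h2 := h 2 σ (ν + 1) (by omega) (by omega) (by omega) (by omega)
    have hB : 0 ≤ B := (norm_nonneg _).trans h0
    have e : (a 0 σ (ν + 1) * (1 - V) + a 1 σ (ν + 1) * (V * (1 - V)) + a 2 σ (ν + 1) * V ^ 2) *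
        (S ^ σ * Y ^ (ν + 1)) = a 0 σ (ν + 1) * V ^ 0 * (S ^ σ * Y ^ (ν + 1)) * (1 - V) +
          a 1 σ (ν + 1) * V ^ 1 * (S ^ σ * Y ^ (ν + 1)) * (1 - V) +
          a 2 σ (ν + 1) * V ^ 2 * (S ^ σ * Y ^ (ν + 1)) := by ring
    rw [e]
    have g : ∀ t : ℂ, ‖t‖ ≤ B → ‖t * (1 - V)‖ ≤ B * 2 := fun t ht => by
      rw [norm_mul]
      exact mul_le_mul ht h1V (norm_nonneg _) hB
    have := norm_add₃_le (a := a 0 σ (ν + 1) * V ^ 0 * (S ^ σ * Y ^ (ν + 1)) * (1 - V))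
      (b := a 1 σ (ν + 1) * V ^ 1 * (S ^ σ * Y ^ (ν + 1)) * (1 - V))
      (c := a 2 σ (ν + 1) * V ^ 2 * (S ^ σ * Y ^ (ν + 1)))
    linarith [g _ h0, g _ h1]
  unfold fin36
  calc _ ≤ ∑ _σ ∈ Finset.range 2, ∑ _ν ∈ Finset.range 6, 5 * B :=
        norm_sum_le_of_le _ fun σ hσ => norm_sum_le_of_le _ fun ν hν => key σ hσ ν hν
    _ = 60 * B := by simp; ring

/-- `p ∤ u`: the entry `(0, 0, 1)` is `- D (1 - V)` (`Fc_main`, `√Q · Q^{-1/2-x} = Q^{-x}`); apply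
`norm_fin36_le` to the family with this entry replaced by `0`.  With `v₀ = 0` the remaining entries of
`Tab (6 ι)` are `(σ, ν) = (0, 6), (1, 1)` (`ι ≥ 1`) and `(1, 6)` (`ι = 1`). -/
theorem Nn_near (hq : Lev q) (hη : IsTw q η) (hp : Prime p) (hp' : Prim p) (hpq : ¬ p ∣ q)
    (hu : ¬ p ∣ u) (h : (x, w, z) ∈ Og c) {μ : ℝ} (h1 : 401 / 100 - 6 * x.re - 6 * z.re ≤ μ)
    (h2 : 1 - x.re - w.re - 6 * z.re ≤ μ) :
    ‖Nn q η u p x w z + lD η u p x * (1 - lV q p z)‖ ≤ 60 * nm p ^ μ := by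
  obtain ⟨hV, -, -⟩ := small hq hη hp u h
  obtain ⟨g1, g2, g3, g4, g5, g6, g7⟩ := h
  dsimp only at g1 g2 g3 g4 g5 g6 g7
  have hQ : 0 < nm p := nm_pos hp.ne_zero
  have hmain : F3 q η u (p ^ 0) (p ^ 0) (p ^ 1) * lY p x = -lD η u p x := by
    have h1 : one q 1 = 1 := by simp [one, isCoprime_one_left]
    have h2 : ((Real.sqrt (nm p) : ℝ) : ℂ) = (nm p : ℂ) ^ (1 / 2 : ℂ) := by
      rw [Real.sqrt_eq_rpow, Complex.ofReal_cpow hQ.le]; norm_num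
    have h3 : (nm p : ℂ) ≠ 0 := by exact_mod_cast hQ.ne'
    have h4 : (nm p : ℂ) ^ (1 / 2 : ℂ) * (nm p : ℂ) ^ (-(1 / 2 + x)) = (nm p : ℂ) ^ (-x) := by
      rw [← Complex.cpow_add _ _ h3]; congr 1; ring
    simp only [F3, pow_zero, pow_one, one_pow, mul_one, h1, one_mul, lY, lD, rc]
    rw [Fc_main hq hη hp hp' hpq, h2, mul_assoc, h4]; ring
  have key := norm_fin36_le (fun ι σ ν => if ι = 0 ∧ σ = 0 ∧ ν = 1 then 0 else
    F3 q η u (p ^ ι) (p ^ σ) (p ^ ν)) (lV q p z) (lS p w) (lY p x) (B := nm p ^ μ)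
    (hV.trans (by norm_num)) (by
      intro ι σ ν hι hσ hν1 hν6
      by_cases hc : ι = 0 ∧ σ = 0 ∧ ν = 1
      · simp only [if_pos hc, zero_mul, norm_zero]; positivity
      · simp only [if_neg hc]
        have := term_le hq hη hp hp' hpq hu 0 ι hσ hν1 hν6 x w z (μ := μ) (by
          intro γ hT
          rcases hT with ⟨a, b, d, e⟩ | ⟨a, b, d, e⟩ | ⟨a, b, d, e⟩ | ⟨a, b, d, e⟩ | ⟨a, b, d, e⟩ |
            ⟨a, b, d, e⟩ | ⟨a, b, d, e⟩ | ⟨a, b, d, e⟩ | ⟨a, b, d, e⟩ | ⟨a, b, d, e⟩ <;>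
          first
          | omega
          | (have hι' : ι = 1 ∨ ι = 2 := by omega
             subst a b e
             rcases hι' with rfl | rfl <;> push_cast <;> linarith))
        simpa using this)
  convert key using 2
  simp only [Nn, fin36, Finset.sum_range_succ, Finset.sum_range_zero]
  rw [← neg_neg (lD η u p x), ← hmain]
  norm_num
  ring

theorem innbdb_gen (hq : Lev q) (hη : IsTw q η) (hp : Prime p) (hp' : Prim p) (hpq : ¬ p ∣ q)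
    (hu : p ∣ u) (hu6 : ¬ p ^ 6 ∣ u) (hc : 0 < c) (h : (x, w, z) ∈ Og c) {m : ℝ} (hm : 0 ≤ m)
    (hm2 : p ^ 2 ∣ u → 1 / 2 - w.re ≤ m) :
    ‖Nn q η u p x w z‖ ≤ 60 * nm p ^ (1 / 2 - x.re + m) := by
  obtain ⟨hV, -, -⟩ := small hq hη hp u h
  obtain ⟨g1, g2, g3, g4, g5, g6, g7⟩ := h
  dsimp only at g1 g2 g3 g4 g5 g6 g7
  have hu0 : u ≠ 0 := by rintro rfl; exact hu6 (dvd_zero _)
  obtain ⟨v, u', hu', rfl⟩ := WfDvdMonoid.max_power_factor hu0 hp.irreducible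
  have hv1 : 1 ≤ v := by
    by_contra hv
    obtain rfl : v = 0 := by omega
    exact hu' (by simpa using hu)
  have hv5 : v ≤ 5 := by
    by_contra hv
    exact hu6 ((pow_dvd_pow p (by omega)).mul_right _)
  have hv2 : 2 ≤ v → 1 / 2 - w.re ≤ m := fun hv => hm2 ((pow_dvd_pow p hv).mul_right _)
  refine norm_fin36_le _ _ _ _ (hV.trans (by norm_num)) fun ι σ ν hι hσ hν1 hν6 => ?_
  refine term_le hq hη hp hp' hpq hu' v ι hσ hν1 hν6 x w z fun γ hT => ?_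
  have hι' : ι = 0 ∨ ι = 1 ∨ ι = 2 := by omega
  rcases hT with ⟨a, b, d, e⟩ | ⟨a, b, d, e⟩ | ⟨a, b, d, e⟩ | ⟨a, b, d, e⟩ | ⟨a, b, d, e⟩ |
    ⟨a, b, d, e⟩ | ⟨a, b, d, e⟩ | ⟨a, b, d, e⟩ | ⟨a, b, d, e⟩ | ⟨a, b, d, e⟩ <;>
  subst a b e <;> rcases hι' with rfl | rfl | rfl <;>
  first
  | omega
  | (push_cast; linarith)
  | (have := hv2 (by omega); push_cast; linarith)

/-- `p ∣ u`, `p ^ 6 ∤ u`: write `u = p ^ v₀ u'`, `1 ≤ v₀ ≤ 5`; `term_le` with `μ = 0`; every case of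
`Tab` is `omega` for `(v₀, ι)` followed by `linarith` -/
theorem Nn_le (hq : Lev q) (hη : IsTw q η) (hp : Prime p) (hp' : Prim p) (hpq : ¬ p ∣ q)
    (hu : p ∣ u) (hu6 : ¬ p ^ 6 ∣ u) (hc : 0 < c) (h : (x, w, z) ∈ Og c) :
    ‖Nn q η u p x w z‖ ≤ 60 := by
  have := innbdb_gen hq hη hp hp' hpq hu hu6 hc h (m := x.re - 1 / 2)
    (by have := h.1; dsimp only at this; linarith)
    (fun _ => by have := h.2.2.2.1; dsimp only at this; linarith)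
  simpa using this

open Classical in
/-- the same with `μ = 1/2 - X + (if p² ∣ u then max 0 (1/2 - W) else 0)`; only the entry
`(σ, ν) = (1, 1)`, `v₀ ≥ 2`, `ι = 0` needs the last summand -/
theorem Nn_le' (hq : Lev q) (hη : IsTw q η) (hp : Prime p) (hp' : Prim p) (hpq : ¬ p ∣ q)
    (hu : p ∣ u) (hu6 : ¬ p ^ 6 ∣ u) (hc : 0 < c) (h : (x, w, z) ∈ Og c) :
    ‖Nn q η u p x w z‖ ≤
      60 * nm p ^ (1 / 2 - x.re + if p ^ 2 ∣ u then max 0 (1 / 2 - w.re) else 0) := by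
  refine innbdb_gen hq hη hp hp' hpq hu hu6 hc h ?_ fun h2 => ?_
  · split_ifs
    · exact le_max_left _ _
    · exact le_rfl
  · rw [if_pos h2]; exact le_max_right _ _

end Crest.Agent.R17.HI
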