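import Crest.Agent.R17.Iface

/-!
Row 17, block I (owner helper88): interface of the probe.  `StHigh` is what block J consumes.

The probe itself is hidden: J only sees the number `I`, its row decomposition `I = ∑ Iu u`, the
low-side bound, the triple Mellin integral of every row term, and the properties of `H`.
Slots are `J`-element subsets of `Ps` (not ordered tuples), `ξ` is absorbed into `H`, and the
constant `g(ξ) / (N f (2π)³)` is divided out.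
-/

set_option autoImplicit false

namespace Crest.Agent.R17

open scoped ComplexConjugate
open MeasureTheory

/-- rows of the high side: prime to `q` and free of sixth powers (the six units are rows) -/
def Row (q u : O) : Prop := IsCoprime u q ∧ ∀ p : O, Prime p → ¬ p ^ 6 ∣ u

/-- `r` is a radical of `u` -/
def IsRad (r u : O) : Prop := Squarefree r ∧ ∀ p : O, Prime p → (p ∣ r ↔ p ∣ u)

/-- admissible slot data: primary primes prime to `q` of norm at most `P`, weights of size `≤ 1` -/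
def Slots (q : O) (P : ℝ) (Ps : Finset O) (ω : O → ℂ) : Prop :=
  1 ≤ P ∧ (∀ p ∈ Ps, Prime p ∧ Prim p ∧ IsCoprime p q ∧ nm p ≤ P) ∧ ∀ p, ‖ω p‖ ≤ 1

/-- the archimedean kernel -/
noncomputable def kerH (a c₁ N R K : ℝ) (x w z : ℂ) : ℂ :=
  LNt a (x + z - 1 / 2) * LNt a (w + z - 1 / 2) * Complex.Gamma z * (c₁ : ℂ) ^ (-z) *
    (N : ℂ) ^ (x + z - 1 / 2) * (R : ℂ) ^ (w + z - 1 / 2) * (K : ℂ) ^ (1 - z)

/-- the integrand of row `u` in the region of absolute convergence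
(`sx (u ^ 5) n = conj (sx u n)`) -/
noncomputable def intH (q : O) (η : O → ℂ) (a c₁ N R K : ℝ) (H : ℂ → ℂ → ℂ → ℂ) (u : O)
    (x w z : ℂ) : ℂ :=
  kerH a c₁ N R K x w z * (nm u : ℂ) ^ (-z) *
    (DS (one q) (6 * z) * DS (rc (one q) (u ^ 5)) w / DS (rc η u) x) * H x w z

/-- the region used for all rows -/
def Om1 (e : ℝ) : Set (ℂ × ℂ × ℂ) :=
  {v | 101 / 200 < v.1.re ∧ -1 / 100 < v.2.1.re ∧ 67 / 200 < v.2.2.re ∧ 1 + e < v.1.re + v.2.1.re}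

/-- the region used for the row `u = 1` -/
def Om2 : Set (ℂ × ℂ × ℂ) :=
  {v | 43 / 50 < v.1.re ∧ 49 / 100 < v.2.1.re ∧ 4 / 25 < v.2.2.re}

open Classical in
/-- the data and the facts delivered by block I for a level `q`, a target `η`, a width `a` and `J` slots -/
structure High (q : O) (η : O → ℂ) (a : ℝ) (J : ℕ) where
  c₁ : ℝ
  /-- `H Ps ω u x w z` -/
  H : Finset O → (O → ℂ) → O → ℂ → ℂ → ℂ → ℂ
  H₀ : ℂ → ℂ
  /-- `I Ps ω N R K`, the probe -/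
  I : Finset O → (O → ℂ) → ℝ → ℝ → ℝ → ℂ
  /-- `Iu Ps ω N R K u`, the part of row `u` -/
  Iu : Finset O → (O → ℂ) → ℝ → ℝ → ℝ → O → ℂ
  m : ℕ
  ψ₁ : Fin m → O → ℂ
  ψ₂ : Fin m → O → ℂ
  C₁ : ℝ
  c₁_pos : 0 < c₁
  C₁_nonneg : 0 ≤ C₁
  tw₁ : ∀ i, IsTw q (ψ₁ i)
  tw₂ : ∀ i, IsTw q (ψ₂ i)
  /-- LOW SIDE.  `S` = slots that are not marked, `D = ∏_{p ∈ S} N p`. -/
  low : ∀ (P : ℝ) (Ps : Finset O) (ω : O → ℂ) (N R K : ℝ), Slots q P Ps ω → 0 < N → 0 < R → 0 < K →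
    ∃ (Rs : Finset O → Finset O) (c : O → ℂ), (∀ r, ‖c r‖ ≤ 1) ∧
      (∀ S, ∀ r ∈ Rs S, Prim r ∧ Squarefree r ∧ IsCoprime r q ∧ nm r ≤ P ^ (J - S.card)) ∧
      (∀ S i, Summable fun k : O => gw (K / (∏ p ∈ S, nm p) ^ 2) k *
        (‖CC (ψ₁ i) a (R / ∏ p ∈ S, nm p) k‖ * ‖TT (ψ₂ i) a N 0 (Rs S) c k‖)) ∧
      ‖I Ps ω N R K‖ ≤ C₁ * ∑ S ∈ Ps.powerset with S.card ≤ J, (∏ p ∈ S, ‖ω p‖ * nm p) *
        ∑ i, ∑' k : O, if k = 0 then 0 else gw (K / (∏ p ∈ S, nm p) ^ 2) k *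
          (‖CC (ψ₁ i) a (R / ∏ p ∈ S, nm p) k‖ * ‖TT (ψ₂ i) a N 0 (Rs S) c k‖)
  /-- row decomposition -/
  rows : ∀ (P : ℝ) (Ps : Finset O) (ω : O → ℂ) (N R K : ℝ), Slots q P Ps ω → 0 < N → 0 < R → 0 < K →
    HasSum (fun u : {u : O // Row q u} => Iu Ps ω N R K u) (I Ps ω N R K)
  /-- HIGH SIDE, on any lines `Re x ≥ 3`, `Re w ≥ 3`, `Re z ≥ 17/50` (chosen row by row). -/
  high : ∀ (P : ℝ) (Ps : Finset O) (ω : O → ℂ) (N R K : ℝ) (u : O) (X W Z : ℝ), Slots q P Ps ω →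
    0 < N → 0 < R → 0 < K → Row q u → 3 ≤ X → 3 ≤ W → 17 / 50 ≤ Z →
    Integrable (fun t : ℝ × ℝ × ℝ => intH q η a c₁ N R K (H Ps ω u) u (X + t.1 * Complex.I)
      (W + t.2.1 * Complex.I) (Z + t.2.2 * Complex.I)) ∧
    Iu Ps ω N R K u = ∫ t : ℝ × ℝ × ℝ, intH q η a c₁ N R K (H Ps ω u) u (X + t.1 * Complex.I)
      (W + t.2.1 * Complex.I) (Z + t.2.2 * Complex.I)
  /-- joint continuity -/
  cont : ∀ (P : ℝ) (Ps : Finset O) (ω : O → ℂ) (u : O) (e : ℝ), Slots q P Ps ω → Row q u → 0 < e →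
    ContinuousOn (fun v : ℂ × ℂ × ℂ => H Ps ω u v.1 v.2.1 v.2.2) (Om1 e ∪ Om2)
  /-- holomorphy along every entire curve (in particular in each variable) -/
  holo : ∀ (P : ℝ) (Ps : Finset O) (ω : O → ℂ) (u : O) (e : ℝ) (x w z : ℂ → ℂ), Slots q P Ps ω →
    Row q u → 0 < e → Differentiable ℂ x → Differentiable ℂ w → Differentiable ℂ z →
    DifferentiableOn ℂ (fun t => H Ps ω u (x t) (w t) (z t)) {t | (x t, w t, z t) ∈ Om1 e ∪ Om2}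
  /-- the bound on `Om1 e` -/
  bound₁ : ∀ e ε : ℝ, 0 < e → 0 < ε → ∃ C : ℝ, ∀ (P : ℝ) (Ps : Finset O) (ω : O → ℂ) (u r : O)
    (x w z : ℂ), Slots q P Ps ω → Row q u → IsRad r u → (x, w, z) ∈ Om1 e →
    ‖H Ps ω u x w z‖ ≤ C * nm u ^ ε * (nm u / nm r) ^ max 0 (1 / 2 - w.re) *
      (‖∑ p ∈ Ps, ω p * (nm p : ℂ) ^ (z - 1 / 2) * sx u p‖ + P ^ (z.re + ε)) ^ J
  /-- the trivial bound for the row `1` on `Om2` -/
  bound₂ : ∀ ε : ℝ, 0 < ε → ∃ C : ℝ, ∀ (P : ℝ) (Ps : Finset O) (ω : O → ℂ) (x w z : ℂ),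
    Slots q P Ps ω → (x, w, z) ∈ Om2 → ‖H Ps ω 1 x w z‖ ≤ C * (P ^ (z.re + 1 / 2 + ε)) ^ J
  H₀_holo : DifferentiableOn ℂ H₀ {x | 43 / 50 < x.re}
  H₀_near : ∀ x : ℂ, 43 / 50 < x.re → ‖H₀ x - 1‖ ≤ 1 / 2
  /-- the main term -/
  main : ∀ ε : ℝ, 0 < ε → ∃ C : ℝ, ∀ (P : ℝ) (Ps : Finset O) (ω : O → ℂ) (x : ℂ),
    Slots q P Ps ω → 43 / 50 < x.re →
    ‖H Ps ω 1 x 1 (1 / 6) - H₀ x * (-1) ^ J *
        ∑ A ∈ Ps.powersetCard J, ∏ p ∈ A, ω p * ((nm p ^ (-1 / 3 : ℝ) : ℝ) : ℂ)‖ ≤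
      C * (P ^ (2 / 3 + ε)) ^ (J - 1)

/-- Block I. -/
def StHigh : Prop :=
  ∃ B₀ : ℝ, ∀ (q : O) (η : O → ℂ) (a : ℝ) (J : ℕ), Lev q → IsTw q η →
    (∀ p : O, Prime p → nm p ≤ B₀ → p ∣ q) → 0 < a → Nonempty (High q η a J)

end Crest.Agent.R17
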