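import Crest.Agent.R17.I.Mult
import Crest.Agent.R17.B.SumO

/-!
Row 17, block I (owner helper88): absolute convergence on both sides of Poisson summation.
-/

set_option autoImplicit false

namespace Crest.Agent.R17.HI

open scoped ComplexConjugate

variable {q : O} {η : O → ℂ} {a N R K : ℝ} {r : O}

/-- `∑_{n ∈ Pr} N(n)^θ ‖LN a Y 0 (N n)‖ < ∞` (`sum_LN_O` with `φ = Subtype.val`, or
`norm_LN_le_rpow` and `summable_nm_rpow`) -/
theorem summable_LN {Y : ℝ} (ha : 0 < a) (hY : 0 < Y) (θ : ℝ) :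
    Summable fun n : Pr => nm n ^ θ * ‖LN a Y 0 (nm n)‖ := by
  obtain ⟨C, -, H⟩ := sum_LN_O ha θ
  have h := (H (fun n : Pr => (n : O)) (fun n => ((nm (n : O) ^ θ : ℝ) : ℂ)) 1 Y 0
    Subtype.val_injective (fun n h0 => absurd h0 (Pr_prim n).ne_zero)
    (fun n _ => by
      rw [Complex.norm_real, Real.norm_of_nonneg (Real.rpow_nonneg (nm_nonneg _) _), one_mul])
    zero_le_one hY).1
  refine h.congr fun n => ?_
  rw [norm_mul, Complex.norm_real, Real.norm_of_nonneg (Real.rpow_nonneg (nm_nonneg _) _)]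

theorem smd_zero (hη : IsTw q η) (k : O) {s n : O} (h : ¬ (IsCoprime s q ∧ IsCoprime n q)) :
    smd q η a N R r k s n = 0 := by
  rcases not_and_or.1 h with h | h
  · simp only [smd, rc, (isTw_one q).zero s h, zero_mul, zero_div, mul_zero]
  · simp only [smd, rc, hη.zero n h, zero_mul, mul_zero, ite_self]

theorem ismd_rc (hq : Lev q) (hη : IsTw q η) (u n : O) : ‖rc η u n‖ ≤ 1 := by
  unfold rc
  rw [norm_mul]
  exact mul_le_one₀ (hη.norm_le hq.1 n) (norm_nonneg _) (norm_sx_le _ _)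

/-- `norm_Wt`, `norm_gs_le`, `norm_tau0_le` -/
theorem norm_smd_le (hq : Lev q) (hη : IsTw q η) (k : O) {s n : O} (hs : s ≠ 0) (hn : n ≠ 0) :
    ‖smd q η a N R r k s n‖ ≤ (nm s ^ (1 / 2 : ℝ) * ‖LN a R 0 (nm s)‖) *
      (nm n ^ (1 / 6 : ℝ) * ‖LN a (N * nm r) 0 (nm n)‖) := by
  have hs0 := nm_pos hs
  have hn0 := nm_pos hn
  by_cases h : IsCoprime s q ∧ IsCoprime n q
  swap
  · rw [smd_zero hη k h, norm_zero]
    positivity
  have hsq : 0 < Real.sqrt (nm s) := Real.sqrt_pos.2 hs0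
  have h1 : ‖rc (one q) (q ^ 5) s * LN a R 0 (nm s) / (Real.sqrt (nm s) : ℂ) * gs 5 (-k) s‖ ≤
      nm s ^ (1 / 2 : ℝ) * ‖LN a R 0 (nm s)‖ := by
    rw [norm_mul, norm_div, norm_mul, Complex.norm_real, Real.norm_of_nonneg hsq.le,
      ← Real.sqrt_eq_rpow]
    calc ‖rc (one q) (q ^ 5) s‖ * ‖LN a R 0 (nm s)‖ / √(nm s) * ‖gs 5 (-k) s‖
        ≤ 1 * ‖LN a R 0 (nm s)‖ / √(nm s) * nm s := by
          gcongr
          · exact ismd_rc hq (isTw_one q) _ _
          · exact norm_gs_le 5 _ hs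
      _ = √(nm s) * ‖LN a R 0 (nm s)‖ := by
          rw [div_mul_eq_mul_div, div_eq_iff hsq.ne', mul_right_comm (√(nm s)),
            Real.mul_self_sqrt hs0.le]
          ring
  have h2 : ‖tau0 n * al n * rc η (16 * q) n * conj (sx k n) * LN a (N * nm r) 0 (nm n)‖ ≤
      nm n ^ (1 / 6 : ℝ) * ‖LN a (N * nm r) 0 (nm n)‖ := by
    rw [norm_mul, norm_mul, norm_mul, norm_mul, Complex.norm_conj]
    calc ‖tau0 n‖ * ‖al n‖ * ‖rc η (16 * q) n‖ * ‖sx k n‖ * ‖LN a (N * nm r) 0 (nm n)‖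
        ≤ nm n ^ (1 / 6 : ℝ) * 1 * 1 * 1 * ‖LN a (N * nm r) 0 (nm n)‖ := by
          gcongr
          · exact norm_tau0_le n
          · exact norm_al_le n
          · exact ismd_rc hq hη _ _
          · exact norm_sx_le _ _
      _ = _ := by ring
  unfold smd
  rw [norm_mul, norm_mul, norm_Wt (hq.coprime_two h.1) (hq.coprime_two h.2), one_mul]
  refine mul_le_mul h1 ?_ (norm_nonneg _) (by positivity)
  split_ifs
  · exact h2
  · rw [norm_zero]
    positivity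

theorem ismd_sum {Y Y' : ℝ} (ha : 0 < a) (hY : 0 < Y) (hY' : 0 < Y') (θ θ' : ℝ) :
    Summable fun t : Pr × Pr => (nm (t.1 : O) ^ θ * ‖LN a Y 0 (nm (t.1 : O))‖) *
      (nm (t.2 : O) ^ θ' * ‖LN a Y' 0 (nm (t.2 : O))‖) :=
  (summable_LN ha hY θ).mul_of_nonneg (summable_LN ha hY' θ')
    (fun _ => mul_nonneg (Real.rpow_nonneg (nm_nonneg _) _) (norm_nonneg _))
    (fun _ => mul_nonneg (Real.rpow_nonneg (nm_nonneg _) _) (norm_nonneg _))

theorem summable_smd (hq : Lev q) (hη : IsTw q η) (ha : 0 < a) (hN : 0 < N) (hR : 0 < R)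
    (hr : r ≠ 0) (k : O) : Summable fun t : Pr × Pr => smd q η a N R r k t.1 t.2 := by
  exact (ismd_sum ha hR (mul_pos hN (nm_pos hr)) (1 / 2) (1 / 6)).of_norm_bounded
    fun t => norm_smd_le hq hη k (Pr_prim t.1).ne_zero (Pr_prim t.2).ne_zero

/-- `summable_gw`, `norm_Xi_le`, `Summable.mul_of_nonneg` -/
theorem summable_smd₃ (hq : Lev q) (hη : IsTw q η) (ha : 0 < a) (hN : 0 < N) (hR : 0 < R)
    (hK : 0 < K) (hr : r ≠ 0) :
    Summable fun t : O × Pr × Pr => Xi q t.1 * gw K t.1 * smd q η a N R r t.1 t.2.1 t.2.2 := by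
  have h := (summable_gw hK).mul_of_nonneg
    (ismd_sum ha hR (mul_pos hN (nm_pos hr)) (1 / 2) (1 / 6)) (fun k => (gw_pos K k).le)
    (fun t => mul_nonneg (mul_nonneg (Real.rpow_nonneg (nm_nonneg _) _) (norm_nonneg _))
      (mul_nonneg (Real.rpow_nonneg (nm_nonneg _) _) (norm_nonneg _)))
  refine h.of_norm_bounded fun t => ?_
  have h1 := norm_smd_le (a := a) (N := N) (R := R) (r := r) hq hη t.1 (Pr_prim t.2.1).ne_zero
    (Pr_prim t.2.2).ne_zero
  have h2 := gw_pos K t.1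
  rw [norm_mul, norm_mul, Complex.norm_real, Real.norm_of_nonneg h2.le]
  refine mul_le_mul ?_ h1 (norm_nonneg _) h2.le
  exact mul_le_of_le_one_left h2.le (norm_Xi_le hq _)

theorem exp_eq_gw (hq : q ≠ 0) (hK : 0 < K) (m : O) {s n : O} (hs : s ≠ 0) (hn : n ≠ 0) :
    Real.exp (-(cc q * K * nm m / (nm s * nm n))) = gw (nm (q * (s * n)) / K) m := by
  have h1 := nm_pos hq
  have h2 := nm_pos hs
  have h3 := nm_pos hn
  have h4 : 0 < Real.sqrt 3 := by positivity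
  unfold gw cc
  rw [nm_mul, nm_mul]
  congr 2
  field_simp

/-- `‖tm m s n‖ ≤ K · N(s)^(1/2) ‖LN‖ · N(n)^(1/6) ‖LN‖ · gw (N(q s n) / K) m` (`norm_Fc_le`);
`summable_prod_of_nonneg` after `Equiv.prodComm`, `tsum_gw_le`, `summable_LN` -/
theorem summable_tm (hq : Lev q) (hη : IsTw q η) (ha : 0 < a) (hN : 0 < N) (hR : 0 < R)
    (hK : 0 < K) (hr : r ≠ 0) :
    Summable fun t : O × Pr × Pr => tm q η a N R K r t.1 t.2.1 t.2.2 := by
  have hq0 := nm_pos hq.1
  have hY : 0 < N * nm r := mul_pos hN (nm_pos hr)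
  set A : Pr × Pr → ℝ := fun t => K * ((nm (t.1 : O) ^ (2 : ℝ) * ‖LN a R 0 (nm (t.1 : O))‖) *
    (nm (t.2 : O) ^ (7 / 6 : ℝ) * ‖LN a (N * nm r) 0 (nm (t.2 : O))‖)) with hA
  have hA0 : ∀ t, 0 ≤ A t := fun t =>
    mul_nonneg hK.le (mul_nonneg (mul_nonneg (Real.rpow_nonneg (nm_nonneg _) _) (norm_nonneg _))
      (mul_nonneg (Real.rpow_nonneg (nm_nonneg _) _) (norm_nonneg _)))
  have hK' : ∀ t : Pr × Pr, 0 < nm (q * ((t.1 : O) * (t.2 : O))) / K := fun t =>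
    div_pos (nm_pos (mul_ne_zero hq.1 (mul_ne_zero (Pr_prim t.1).ne_zero (Pr_prim t.2).ne_zero))) hK
  have hS : Summable fun p : (Pr × Pr) × O =>
      A p.1 * gw (nm (q * ((p.1.1 : O) * (p.1.2 : O))) / K) p.2 := by
    refine (summable_prod_of_nonneg fun p => mul_nonneg (hA0 _) (gw_pos _ _).le).2 ⟨fun t => ?_, ?_⟩
    · exact (summable_gw (hK' t)).mul_left (A t)
    · refine Summable.of_nonneg_of_le
        (fun t => tsum_nonneg fun m => mul_nonneg (hA0 _) (gw_pos _ _).le) (fun t => ?_)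
        ((ismd_sum ha hR hY 3 (13 / 6)).mul_left (K + 11 * nm q))
      have hs1 := one_le_nm (Pr_prim t.1).ne_zero
      have hn1 := one_le_nm (Pr_prim t.2).ne_zero
      have hsn : 1 ≤ nm (t.1 : O) * nm (t.2 : O) := one_le_mul_of_one_le_of_one_le hs1 hn1
      have e1 : nm (t.1 : O) ^ (3 : ℝ) = nm (t.1 : O) ^ (2 : ℝ) * nm (t.1 : O) := by
        rw [← Real.rpow_add_one (by linarith)]; norm_num
      have e2 : nm (t.2 : O) ^ (13 / 6 : ℝ) = nm (t.2 : O) ^ (7 / 6 : ℝ) * nm (t.2 : O) := by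
        rw [← Real.rpow_add_one (by linarith)]; norm_num
      have h3 : K * (1 + 11 * (nm (q * ((t.1 : O) * (t.2 : O))) / K)) ≤
          (K + 11 * nm q) * (nm (t.1 : O) * nm (t.2 : O)) := by
        rw [nm_mul, nm_mul, mul_add, mul_one, mul_left_comm K, mul_div_cancel₀ _ hK.ne']
        nlinarith
      have hB : 0 ≤ (nm (t.1 : O) ^ (2 : ℝ) * ‖LN a R 0 (nm (t.1 : O))‖) *
          (nm (t.2 : O) ^ (7 / 6 : ℝ) * ‖LN a (N * nm r) 0 (nm (t.2 : O))‖) := by positivity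
      simp only
      rw [tsum_mul_left, e1, e2]
      calc A t * ∑' m, gw (nm (q * ((t.1 : O) * (t.2 : O))) / K) m
          ≤ A t * (1 + 11 * (nm (q * ((t.1 : O) * (t.2 : O))) / K)) :=
            mul_le_mul_of_nonneg_left (tsum_gw_le (hK' t)) (hA0 t)
        _ = ((nm (t.1 : O) ^ (2 : ℝ) * ‖LN a R 0 (nm (t.1 : O))‖) *
            (nm (t.2 : O) ^ (7 / 6 : ℝ) * ‖LN a (N * nm r) 0 (nm (t.2 : O))‖)) *
            (K * (1 + 11 * (nm (q * ((t.1 : O) * (t.2 : O))) / K))) := by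
            rw [hA]; ring
        _ ≤ ((nm (t.1 : O) ^ (2 : ℝ) * ‖LN a R 0 (nm (t.1 : O))‖) *
            (nm (t.2 : O) ^ (7 / 6 : ℝ) * ‖LN a (N * nm r) 0 (nm (t.2 : O))‖)) *
            ((K + 11 * nm q) * (nm (t.1 : O) * nm (t.2 : O))) :=
            mul_le_mul_of_nonneg_left h3 hB
        _ = _ := by ring
  have hS' := (Equiv.prodComm O (Pr × Pr)).summable_iff.2 hS
  refine hS'.of_norm_bounded fun t => ?_
  obtain ⟨m, s, n⟩ := t
  have hs := (Pr_prim s).ne_zero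
  have hn := (Pr_prim n).ne_zero
  have hs1 := one_le_nm hs
  have hn1 := one_le_nm hn
  have hsq : 1 ≤ Real.sqrt (nm (s : O)) := Real.one_le_sqrt.2 hs1
  have hD : 1 ≤ nm (s : O) * Real.sqrt (nm (s : O)) * nm (n : O) :=
    one_le_mul_of_one_le_of_one_le (one_le_mul_of_one_le_of_one_le hs1 hsq) hn1
  have hg := gw_pos (nm (q * ((s : O) * (n : O))) / K) m
  have hi : ‖(open Classical in if r ∣ (n : O) then (1 : ℂ) else 0)‖ ≤ 1 := by
    split_ifs <;> simp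
  have hF := norm_Fc_le hq hη m hs hn
  rw [← Real.rpow_natCast] at hF
  simp only [Function.comp, Equiv.prodComm_apply, Prod.swap, tm, hA]
  rw [exp_eq_gw hq.1 hK m hs hn]
  simp only [norm_mul, Complex.norm_real]
  rw [Real.norm_of_nonneg hg.le, Real.norm_of_nonneg (div_nonneg hK.le (by linarith))]
  calc _ ≤ 1 * (nm (s : O) ^ (2 : ℝ) * nm (n : O) ^ (7 / 6 : ℝ)) * 1 * K *
        (‖LN a (N * nm r) 0 (nm (n : O))‖ * ‖LN a R 0 (nm (s : O))‖ *
          gw (nm (q * ((s : O) * (n : O))) / K) m) := by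
        gcongr
        · exact norm_ph_le q m
        · exact_mod_cast hF
        · exact div_le_self hK.le hD
    _ = _ := by ring

end Crest.Agent.R17.HI
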