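import Crest.Agent.R17.I.Loc

/-!
Row 17, block I (owner helper88): the table of local coefficients.
-/

set_option autoImplicit false

namespace Crest.Agent.R17.HI

open scoped ComplexConjugate

variable {q p : O} {η : O → ℂ}

/-- the non-zero entries: `v = v_p(m)`, size `Q ^ γ` -/
def Tab (v σ ν : ℕ) (γ : ℝ) : Prop :=
  (σ = 0 ∧ ν = 1 ∧ v = 0 ∧ γ = 1 / 2) ∨ (σ = 0 ∧ ν = 3 ∧ v = 2 ∧ γ = 3) ∨
  (σ = 0 ∧ ν = 4 ∧ v = 3 ∧ γ = 4) ∨ (σ = 0 ∧ ν = 6 ∧ v = 5 ∧ γ = 6) ∨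
  (σ = 0 ∧ ν = 6 ∧ 6 ≤ v ∧ γ = 7) ∨ (σ = 1 ∧ ν = 1 ∧ v = 1 ∧ γ = 3 / 2) ∨
  (σ = 1 ∧ ν = 1 ∧ 2 ≤ v ∧ γ = 5 / 2) ∨ (σ = 1 ∧ ν = 3 ∧ v = 3 ∧ γ = 9 / 2) ∨
  (σ = 1 ∧ ν = 4 ∧ v = 4 ∧ γ = 11 / 2) ∨ (σ = 1 ∧ ν = 6 ∧ v = 6 ∧ γ = 8)

/-- THE MAIN ENTRY.  `G0_left_one`, `gs_sqfree` (`gs 5 m p = sx m p * gs 5 1 p`), `gs_five`,
`mu_mul_gs_one` with `mu p = -1`, `tau0_sqfree`, `sx 16 p = conj (cb 2 p)` (`sx_pow_left`, `sx_sq`,
`conj_cb`), `gam_sq'`, `norm_gs`.  (Checked numerically.) -/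
theorem Fc_main (hq : Lev q) (hη : IsTw q η) (hp : Prime p) (hp' : Prim p) (hpq : ¬ p ∣ q) (m : O) :
    Fc q η m 1 p = -(η p * sx m p) * (Real.sqrt (nm p) : ℂ) := by
  have hc : IsCoprime p q := hp.irreducible.coprime_iff_not_dvd.2 hpq
  have h6 : IsCoprime p 6 := hq.coprime_six hc
  have h2 : IsCoprime p 2 := hq.coprime_two hc
  have h3 : IsCoprime p 3 := hp'.coprime_three
  have hs : Squarefree p := hp.squarefree
  have e1 : one q 1 = 1 := (isTw_one q).one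
  have e2 : sx 16 p = conj (cb 2 p) := by
    rw [show (16 : O) = 2 ^ 4 by norm_num, sx_pow_left _ _ (by norm_num), conj_cb, ← sx_sq _ h2]
    ring
  have e3 : conj (sx m p) ^ 5 = sx m p := by
    rw [conj_sx, ← pow_mul, show 5 * 5 = 1 + 6 + 6 + 6 + 6 by norm_num,
      sx_pow_add_six _ _ (by norm_num), sx_pow_add_six _ _ (by norm_num),
      sx_pow_add_six _ _ (by norm_num), sx_pow_add_six _ _ (by norm_num), pow_one]
  have e4 : gs 1 1 p = -((Real.sqrt (nm p) : ℂ) *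
      (conj (cb 2 p) * gam p * al p * conj (g3 p))) := by
    have h := mu_mul_gs_one hp' hs h2
    rw [mu_prime hp, div_eq_iff (gsa_sqrt_ne hp.ne_zero)] at h
    linear_combination -h
  have e5 : conj (gs 1 1 p) = -((Real.sqrt (nm p) : ℂ) *
      (cb 2 p * conj (gam p) * conj (al p) * g3 p)) := by
    rw [e4]
    simp only [map_neg, map_mul, Complex.conj_ofReal, Complex.conj_conj]
  have u1 : gam p * conj (gam p) = 1 := gam_mul_conj h2
  have u2 : g3 p * conj (g3 p) = 1 := gsb_g3_conj hs h3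
  have u3 : al p * conj (al p) = 1 := by
    rw [Complex.mul_conj, Complex.normSq_eq_norm_sq, norm_al hp.ne_zero]; simp
  have u4 : cb 2 p * conj (cb 2 p) = 1 := by
    rw [cb_mul_conj, if_pos ⟨h3, h2.symm⟩]
  unfold Fc Wt rc
  rw [e1, eps_one_left h2, tau0_sqfree hp' hs, e2, G0_left_one, gs_sqfree hs (by norm_num), e3,
    gs_five _ hp.ne_zero, e5, ← gam_sq' h6]
  have e6 : (gam p * conj (gam p)) ^ 2 * (g3 p * conj (g3 p)) * (al p * conj (al p)) *
      (cb 2 p * conj (cb 2 p)) = 1 := by rw [u1, u2, u3, u4]; simp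
  linear_combination (-(η p * sx m p) * (Real.sqrt (nm p) : ℂ)) * e6

theorem norm_Fc_le_G0 (hq : Lev q) (hη : IsTw q η) (m s n : O) :
    ‖Fc q η m s n‖ ≤ ‖tau0 n‖ * ‖G0 m s n‖ := by
  by_cases hs : IsCoprime s q
  swap
  · rw [Fc_zero_left η m n hs, norm_zero]; positivity
  by_cases hn : IsCoprime n q
  swap
  · rw [Fc_zero_right hη m s hn, norm_zero]; positivity
  unfold Fc rc
  simp only [norm_mul]
  rw [norm_Wt (hq.coprime_two hs) (hq.coprime_two hn), (isTw_one q).norm_eq hq.1 hs,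
    hη.norm_eq hq.1 hn, one_mul, one_mul, one_mul]
  refine mul_le_mul_of_nonneg_right ?_ (norm_nonneg _)
  rw [mul_assoc]
  exact mul_le_of_le_one_right (norm_nonneg _)
    (mul_le_one₀ (norm_al_le n) (norm_nonneg _) (norm_sx_le _ _))

open Classical in
/-- Gauss sums modulo a prime: `gs_prime_six`, `gs_sqfree`, `norm_gs` -/
theorem norm_gs_prime (hp : Prime p) (h6 : IsCoprime p 6) {j : ℕ} (hj : j ≠ 0) (m : O) :
    ‖gs j m p‖ ≤ if p ∣ m then (if 6 ∣ j then nm p else 0)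
      else if 6 ∣ j then 1 else Real.sqrt (nm p) := by
  by_cases h : 6 ∣ j
  · rw [gs_prime_six hp h6 hj h]
    by_cases hm : p ∣ m
    · rw [if_pos hm, if_pos hm, if_pos h]
      have h1 := one_le_nm hp.ne_zero
      rw [← Complex.ofReal_one, ← Complex.ofReal_sub, Complex.norm_real,
        Real.norm_of_nonneg (by linarith)]
      linarith
    · rw [if_neg hm, if_neg hm, if_pos h, norm_neg, norm_one]
  · rw [gs_sqfree hp.squarefree h, norm_mul, norm_gs hp.squarefree h6 h, if_neg h, if_neg h]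
    by_cases hm : p ∣ m
    · rw [if_pos hm, (sx_prime_eq_zero hp h6).2 hm, map_zero, zero_pow hj, norm_zero, zero_mul]
    · rw [if_neg hm]
      refine mul_le_of_le_one_left (Real.sqrt_nonneg _) ?_
      rw [norm_pow, Complex.norm_conj]
      exact pow_le_one₀ (norm_nonneg _) (norm_sx_le _ _)

theorem itab_not_dvd (hp : Prime p) {m : O} (hm : ¬ p ∣ m) {v k : ℕ} (h : v < k) :
    ¬ p ^ k ∣ p ^ v * m := by
  intro hd
  obtain ⟨j, rfl⟩ := Nat.exists_eq_add_of_lt h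
  rw [add_assoc, pow_add, mul_dvd_mul_iff_left (pow_ne_zero _ hp.ne_zero)] at hd
  exact hm ((dvd_pow_self p (Nat.succ_ne_zero j)).trans hd)

theorem itab_norm_nm (p : O) (k : ℕ) : ‖(nm p : ℂ) ^ k‖ = Real.sqrt (nm p) ^ (2 * k) := by
  rw [norm_pow, Complex.norm_real, Real.norm_of_nonneg (nm_nonneg p), pow_mul,
    Real.sq_sqrt (nm_nonneg p)]

theorem itab_rpow (p : O) (k : ℕ) : nm p ^ ((k : ℝ) / 2) = Real.sqrt (nm p) ^ k := by
  rw [Real.sqrt_eq_rpow, ← Real.rpow_natCast, ← Real.rpow_mul (nm_nonneg p)]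
  congr 1
  ring

/-- the Gauss sum after extracting `p ^ k` -/
theorem itab_gs (hp : Prime p) (h6 : IsCoprime p 6) {j : ℕ} (hj : j ≠ 0) {m : O} (hm : ¬ p ∣ m)
    (i : ℕ) : ‖gs j (p ^ i * m) p‖ ≤ if i = 0 then (if 6 ∣ j then 1 else Real.sqrt (nm p))
      else if 6 ∣ j then Real.sqrt (nm p) ^ 2 else 0 := by
  refine (norm_gs_prime hp h6 hj _).trans (le_of_eq ?_)
  by_cases hi : i = 0
  · rw [if_pos hi, hi, pow_zero, one_mul, if_neg hm]
  · rw [if_neg hi, if_pos ((dvd_pow_self p hi).mul_right m), Real.sq_sqrt (nm_nonneg p)]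

theorem itab_G0_zero (hp : Prime p) (h6 : IsCoprime p 6) {m : O} (hm : ¬ p ∣ m) (v k : ℕ) :
    ‖G0 (p ^ v * m) (p ^ 0) (p ^ (k + 1))‖ ≤ Real.sqrt (nm p) ^ (2 * k) *
      if v < k then 0 else if v = k then (if 6 ∣ 5 * (k + 1) then 1 else Real.sqrt (nm p))
      else if 6 ∣ 5 * (k + 1) then Real.sqrt (nm p) ^ 2 else 0 := by
  rw [pow_zero, G0_left_one]
  by_cases h : v < k
  · rw [if_pos h, gs_pow_succ_zero _ _ hp.ne_zero (itab_not_dvd hp hm h), norm_zero, mul_zero]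
  · obtain ⟨i, rfl⟩ := Nat.exists_eq_add_of_le (not_lt.1 h)
    rw [if_neg h, pow_add, mul_assoc, gs_pow_succ _ _ _ hp.ne_zero, norm_mul, itab_norm_nm]
    refine mul_le_mul_of_nonneg_left ?_ (by positivity)
    simpa only [add_eq_left] using itab_gs hp h6 (j := 5 * (k + 1)) (by omega) hm i

theorem itab_G0_one (hp : Prime p) (h6 : IsCoprime p 6) {m : O} (hm : ¬ p ∣ m) (v ν : ℕ) :
    ‖G0 (p ^ v * m) (p ^ 1) (p ^ ν)‖ ≤ Real.sqrt (nm p) ^ (2 * ν + 1) *
      if v < ν then 0 else if v = ν then (if 6 ∣ 5 * ν + 1 then 1 else Real.sqrt (nm p))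
      else if 6 ∣ 5 * ν + 1 then Real.sqrt (nm p) ^ 2 else 0 := by
  rw [pow_one]
  by_cases h : v < ν
  · rw [if_pos h, G0_p_not_dvd hp h6 (itab_not_dvd hp hm h), norm_zero, mul_zero]
  · obtain ⟨i, rfl⟩ := Nat.exists_eq_add_of_le (not_lt.1 h)
    rw [if_neg h, pow_add, mul_assoc, G0_p_dvd hp h6, norm_mul, norm_mul, norm_mul, itab_norm_nm,
      norm_sx h6 isCoprime_one_left.neg_left, norm_gs hp.squarefree h6 (by norm_num), one_mul,
      ← mul_assoc, ← pow_succ']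
    refine mul_le_mul_of_nonneg_left ?_ (by positivity)
    simpa only [add_eq_left] using itab_gs hp h6 (j := 5 * ν + 1) (by omega) hm i

theorem itab_tau (hp : Prime p) (hp' : Prim p) :
    ‖tau0 (p ^ 1)‖ = 1 ∧ ‖tau0 (p ^ 2)‖ = 0 ∧ ‖tau0 (p ^ 3)‖ = Real.sqrt (nm p) ∧
      ‖tau0 (p ^ 4)‖ = Real.sqrt (nm p) ∧ ‖tau0 (p ^ 5)‖ = 0 ∧
      ‖tau0 (p ^ 6)‖ = Real.sqrt (nm p) ^ 2 := by
  have h1 : ¬ p ∣ 1 := hp.not_dvd_one
  have hg := norm_g3 hp.squarefree hp'.coprime_three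
  have hr : ‖(Real.sqrt (nm p) : ℂ)‖ = Real.sqrt (nm p) := by
    rw [Complex.norm_real, Real.norm_of_nonneg (Real.sqrt_nonneg _)]
  refine ⟨?_, ?_, ?_, ?_, ?_, ?_⟩
  · have := tau0_pow_three_mul_add_one hp hp' 0
    rw [show 3 * 0 + 1 = 1 from rfl] at this
    rw [this, pow_zero, mul_one, Complex.norm_conj, hg]
  · have := tau0_prime_sq hp h1 0
    rw [show 3 * 0 + 2 = 2 from rfl, mul_one] at this
    rw [this, norm_zero]
  · have := tau0_pow_three_mul hp' 1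
    rw [show 3 * 1 = 3 from rfl] at this
    rw [this, pow_one, hr]
  · have := tau0_pow_three_mul_add_one hp hp' 1
    rw [show 3 * 1 + 1 = 4 from rfl] at this
    rw [this, pow_one, norm_mul, Complex.norm_conj, hg, one_mul, hr]
  · have := tau0_prime_sq hp h1 1
    rw [show 3 * 1 + 2 = 5 from rfl, mul_one] at this
    rw [this, norm_zero]
  · have := tau0_pow_three_mul hp' 2
    rw [show 3 * 2 = 6 from rfl] at this
    rw [this, norm_pow, hr]

/-- `σ = 0`: `G0_left_one`, `gs_pow_succ`, `gs_pow_succ_zero`; `σ = 1`: `G0_p_dvd`, `G0_p_not_dvd`;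
`‖tau0 (p ^ ν)‖ = 1, 0, √Q, √Q, 0, Q` for `ν = 1, …, 6` (`tau0_pow_three_mul`,
`tau0_pow_three_mul_add_one`, `tau0_prime_sq`, `norm_g3`); compare `v` with `ν - 1` resp. `ν`. -/
theorem Fc_table (hq : Lev q) (hη : IsTw q η) (hp : Prime p) (hp' : Prim p) (hpq : ¬ p ∣ q) {m : O}
    (hm : ¬ p ∣ m) (v : ℕ) {σ ν : ℕ} (hσ : σ ≤ 1) (h1 : 1 ≤ ν) (h6 : ν ≤ 6) :
    Fc q η (p ^ v * m) (p ^ σ) (p ^ ν) = 0 ∨
      ∃ γ : ℝ, Tab v σ ν γ ∧ ‖Fc q η (p ^ v * m) (p ^ σ) (p ^ ν)‖ ≤ nm p ^ γ := by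
  have hp6 : IsCoprime p 6 := hq.coprime_six (hp.irreducible.coprime_iff_not_dvd.2 hpq)
  obtain ⟨t1, t2, t3, t4, t5, t6⟩ := itab_tau hp hp'
  have hF := norm_Fc_le_G0 hq hη (p ^ v * m) (p ^ σ) (p ^ ν)
  have zero : ∀ {b : ℝ}, ‖G0 (p ^ v * m) (p ^ σ) (p ^ ν)‖ ≤ b → ‖tau0 (p ^ ν)‖ * b = 0 →
      Fc q η (p ^ v * m) (p ^ σ) (p ^ ν) = 0 ∨
        ∃ γ : ℝ, Tab v σ ν γ ∧ ‖Fc q η (p ^ v * m) (p ^ σ) (p ^ ν)‖ ≤ nm p ^ γ := fun hb e =>
    Or.inl (norm_le_zero_iff.1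
      (hF.trans ((mul_le_mul_of_nonneg_left hb (norm_nonneg _)).trans e.le)))
  have entry : ∀ {b : ℝ} (k : ℕ), ‖G0 (p ^ v * m) (p ^ σ) (p ^ ν)‖ ≤ b →
      ‖tau0 (p ^ ν)‖ * b = Real.sqrt (nm p) ^ k → Tab v σ ν ((k : ℝ) / 2) →
      Fc q η (p ^ v * m) (p ^ σ) (p ^ ν) = 0 ∨
        ∃ γ : ℝ, Tab v σ ν γ ∧ ‖Fc q η (p ^ v * m) (p ^ σ) (p ^ ν)‖ ≤ nm p ^ γ :=
    fun k hb e hT => Or.inr ⟨_, hT, by
      rw [itab_rpow]
      exact hF.trans ((mul_le_mul_of_nonneg_left hb (norm_nonneg _)).trans e.le)⟩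
  interval_cases σ
  · interval_cases ν
    · have hb := itab_G0_zero hp hp6 hm v 0
      rcases lt_trichotomy v 0 with h | h | h
      · omega
      · exact entry 1 hb (by rw [t1]; simp [h]) (by unfold Tab; norm_num [h])
      · exact zero hb (by simp [h.ne'])
    · exact zero le_rfl (by rw [t2, zero_mul])
    · have hb := itab_G0_zero hp hp6 hm v 2
      rcases lt_trichotomy v 2 with h | h | h
      · exact zero hb (by simp [h])
      · exact entry 6 hb (by rw [t3]; simp [h]; ring) (by unfold Tab; norm_num [h])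
      · exact zero hb (by simp [h.ne'])
    · have hb := itab_G0_zero hp hp6 hm v 3
      rcases lt_trichotomy v 3 with h | h | h
      · exact zero hb (by simp [h])
      · exact entry 8 hb (by rw [t4]; simp [h]; ring) (by unfold Tab; norm_num [h])
      · exact zero hb (by simp [h.ne'])
    · exact zero le_rfl (by rw [t5, zero_mul])
    · have hb := itab_G0_zero hp hp6 hm v 5
      rcases lt_trichotomy v 5 with h | h | h
      · exact zero hb (by simp [h])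
      · exact entry 12 hb (by rw [t6]; simp [h]; ring) (by unfold Tab; norm_num [h])
      · exact entry 14 hb (by rw [t6]; simp [h.ne', h.not_gt]; ring)
          (by unfold Tab; norm_num; omega)
  · have hb := itab_G0_one hp hp6 hm v ν
    interval_cases ν
    · rcases lt_trichotomy v 1 with h | h | h
      · exact zero hb (by rw [if_pos h]; simp)
      · exact entry 3 hb (by rw [t1]; simp [h]) (by unfold Tab; norm_num [h])
      · exact entry 5 hb (by rw [t1, if_neg h.not_gt, if_neg h.ne']; simp; ring)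
          (by unfold Tab; norm_num; omega)
    · exact zero le_rfl (by rw [t2, zero_mul])
    · rcases lt_trichotomy v 3 with h | h | h
      · exact zero hb (by simp [h])
      · exact entry 9 hb (by rw [t3]; simp [h]; ring) (by unfold Tab; norm_num [h])
      · exact zero hb (by simp [h.ne'])
    · rcases lt_trichotomy v 4 with h | h | h
      · exact zero hb (by simp [h])
      · exact entry 11 hb (by rw [t4]; simp [h]; ring) (by unfold Tab; norm_num [h])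
      · exact zero hb (by simp [h.ne'])
    · exact zero le_rfl (by rw [t5, zero_mul])
    · rcases lt_trichotomy v 6 with h | h | h
      · exact zero hb (by simp [h])
      · exact entry 16 hb (by rw [t6]; simp [h]; ring) (by unfold Tab; norm_num [h])
      · exact zero hb (by simp [h.ne'])

end Crest.Agent.R17.HI
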